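import Vale.Agent.P073.St
import Vale.Agent.P073.SepH
import Vale.Agent.P073.IoD
import Vale.Agent.P073.SCH.Amb

/-!
# P073, block ASM: assembly of a conical homeomorphism from the images of the cells

A homeomorphism `f` of `Ω` onto `Λ`, a locally finite cell structure `R j` of `Λ` whose
2-skeleton `X` is a union of discs `E a`, and a conical homeomorphism `k` of `X` onto a subset `X'`
of `Ω` which is close to the inverse of `f`.  With the conical Alexander theorem (`hALX`) `k`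
extends to a conical homeomorphism of `Λ` onto `Ω`.
-/

open Set Metric Topology Filter

namespace Vale.Agent.P073.PA285

open _root_.P073 Vale.Agent.P073.St

section Ball

theorem isPreconnected_compl_closedBall_pi {n : ℕ} (hn : 2 ≤ n) :
    IsPreconnected (closedBall (0 : Fin n → ℝ) 1)ᶜ := by
  have hrank : 1 < Module.rank ℝ (Fin n → ℝ) := by
    rw [rank_fin_fun]; exact_mod_cast hn
  have h1 : IsConnected (sphere (0 : Fin n → ℝ) 1) := isConnected_sphere hrank 0 zero_le_one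
  have h2 : IsPreconnected ((sphere (0 : Fin n → ℝ) 1) ×ˢ (Ioi (1:ℝ))) :=
    h1.isPreconnected.prod isPreconnected_Ioi
  have h3 : (closedBall (0 : Fin n → ℝ) 1)ᶜ = (fun z : (Fin n → ℝ) × ℝ => z.2 • z.1) ''
      ((sphere (0 : Fin n → ℝ) 1) ×ˢ (Ioi (1:ℝ))) := by
    ext x
    simp only [mem_compl_iff, mem_closedBall_zero_iff, not_le]
    constructor
    · intro hx
      have hx0 : ‖x‖ ≠ 0 := (lt_trans one_pos hx).ne'
      refine ⟨(‖x‖⁻¹ • x, ‖x‖), ⟨?_, hx⟩, ?_⟩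
      · rw [mem_sphere_zero_iff_norm]
        show ‖‖x‖⁻¹ • x‖ = 1
        rw [norm_smul, norm_inv, norm_norm, inv_mul_cancel₀ hx0]
      · show ‖x‖ • ‖x‖⁻¹ • x = x
        rw [smul_smul, mul_inv_cancel₀ hx0, one_smul]
    · rintro ⟨⟨u, r⟩, ⟨hu, hr⟩, rfl⟩
      have hu' : ‖u‖ = 1 := mem_sphere_zero_iff_norm.1 hu
      have hr' : 1 < r := hr
      show 1 < ‖r • u‖
      rw [norm_smul, hu', mul_one, Real.norm_of_nonneg (by linarith)]
      exact hr'
  rw [h3]
  exact h2.image _ (continuous_snd.smul continuous_fst).continuousOn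

/-- The ball bounded by an ambiently standard sphere. -/
theorem exists_ambBall {n : ℕ} (hn : 2 ≤ n) {S : Set (Fin n → ℝ)}
    (Φ : ConHomeo (univ : Set (Fin n → ℝ)) (univ : Set (Fin n → ℝ)))
    (hΦ : Φ.toFun '' S = sphere 0 1) :
    ∃ B : Set (Fin n → ℝ), ConBall n B S ∧ frontier B = S ∧ IsPreconnected (interior B) ∧
      IsPreconnected Bᶜ := by
  have : Nonempty (Fin n) := ⟨⟨0, by omega⟩⟩
  have hS : Φ.invFun '' sphere 0 1 = S := by rw [← hΦ, Φ.image_inv_image]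
  have hstd : ConBall n (closedBall (0 : Fin n → ℝ) 1) (sphere 0 1) :=
    ⟨sphere_subset_closedBall, ConHomeo.refl (locCone_closedBall_pi n 1).conicalSet, image_id _⟩
  refine ⟨Φ.invFun '' closedBall 0 1, ?_, ?_, ?_, ?_⟩
  · have := hstd.image Φ.symm (subset_univ _)
    rw [ConHomeo.symm_toFun, hS] at this
    exact this
  · have := Φ.symm.image_frontier (closedBall 0 1)
    rw [frontier_closedBall _ one_ne_zero, ConHomeo.symm_toFun, hS] at this
    exact this.symm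
  · have := Φ.symm.image_interior (closedBall 0 1)
    rw [interior_closedBall _ one_ne_zero, ConHomeo.symm_toFun] at this
    rw [← this]
    exact (convex_ball _ _).isPreconnected.image _ Φ.continuous_inv.continuousOn
  · have := Φ.symm.image_compl (closedBall 0 1)
    rw [ConHomeo.symm_toFun] at this
    rw [← this]
    exact (isPreconnected_compl_closedBall_pi hn).image _ Φ.continuous_inv.continuousOn

/-- the open ball of a conical ball is open in the space, if the dimensions agree -/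
theorem _root_.P073.ConBall.isOpen_diff {n : ℕ} {C B : Set (Fin n → ℝ)} (h : ConBall n C B) :
    IsOpen (C \ B) := by
  rcases Nat.eq_zero_or_pos n with h0 | h0
  · subst h0
    exact isOpen_discrete _
  have : Nonempty (Fin n) := ⟨⟨0, h0⟩⟩
  obtain ⟨hBC, φ, hφ⟩ := h
  have h1 : C \ B = φ.invFun '' ball 0 1 := by
    ext x
    constructor
    · rintro ⟨hxC, hxB⟩
      refine ⟨φ.toFun x, ?_, φ.left_inv hxC⟩
      have h2 : φ.toFun x ∈ closedBall (0 : Fin n → ℝ) 1 := φ.mapsTo hxC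
      rw [mem_ball_zero_iff]
      rcases (mem_closedBall_zero_iff.1 h2).lt_or_eq with h3 | h3
      · exact h3
      · exfalso
        have h4 : φ.toFun x ∈ φ.toFun '' B := by rw [hφ]; exact mem_sphere_zero_iff_norm.2 h3
        obtain ⟨b, hb, hbx⟩ := h4
        exact hxB (φ.injOn (hBC hb) hxC hbx ▸ hb)
    · rintro ⟨y, hy, rfl⟩
      have hy' := ball_subset_closedBall hy
      refine ⟨φ.mapsTo_inv hy', fun hyB => ?_⟩
      have h4 : φ.toFun (φ.invFun y) ∈ φ.toFun '' B := mem_image_of_mem _ hyB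
      rw [φ.right_inv hy', hφ, mem_sphere_zero_iff_norm] at h4
      rw [mem_ball_zero_iff, h4] at hy
      exact lt_irrefl _ hy
  rw [h1]
  exact Sep.isOpen_image_of_injOn isOpen_ball (φ.cont_inv.mono ball_subset_closedBall)
    (φ.right_inv.injOn.mono ball_subset_closedBall)

/-- the open ball of a conical ball is preconnected and dense in the ball -/
theorem _root_.P073.ConBall.diff_preconn_dense {V : Type*} [NormedAddCommGroup V] [NormedSpace ℝ V]
    {n : ℕ} (hn : 0 < n) {C B : Set V} (h : ConBall n C B) :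
    IsPreconnected (C \ B) ∧ C ⊆ closure (C \ B) := by
  have : Nonempty (Fin n) := ⟨⟨0, hn⟩⟩
  obtain ⟨hBC, φ, hφ⟩ := h
  have h1 : C \ B = φ.invFun '' ball 0 1 := by
    ext x
    constructor
    · rintro ⟨hxC, hxB⟩
      refine ⟨φ.toFun x, ?_, φ.left_inv hxC⟩
      have h2 : φ.toFun x ∈ closedBall (0 : Fin n → ℝ) 1 := φ.mapsTo hxC
      rw [mem_ball_zero_iff]
      rcases (mem_closedBall_zero_iff.1 h2).lt_or_eq with h3 | h3
      · exact h3
      · exfalso
        have h4 : φ.toFun x ∈ φ.toFun '' B := by rw [hφ]; exact mem_sphere_zero_iff_norm.2 h3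
        obtain ⟨b, hb, hbx⟩ := h4
        exact hxB (φ.injOn (hBC hb) hxC hbx ▸ hb)
    · rintro ⟨y, hy, rfl⟩
      have hy' := ball_subset_closedBall hy
      refine ⟨φ.mapsTo_inv hy', fun hyB => ?_⟩
      have h4 : φ.toFun (φ.invFun y) ∈ φ.toFun '' B := mem_image_of_mem _ hyB
      rw [φ.right_inv hy', hφ, mem_sphere_zero_iff_norm] at h4
      rw [mem_ball_zero_iff, h4] at hy
      exact lt_irrefl _ hy
  refine ⟨?_, ?_⟩
  · rw [h1]
    exact (convex_ball _ _).isPreconnected.image _ (φ.cont_inv.mono ball_subset_closedBall)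
  · intro x hx
    rw [h1, ← φ.left_inv hx]
    have h2 : φ.toFun x ∈ closure (ball (0 : Fin n → ℝ) 1) := by
      rw [closure_ball _ one_ne_zero]; exact φ.mapsTo hx
    have h3 : ContinuousWithinAt φ.invFun (ball 0 1) (φ.toFun x) :=
      (φ.cont_inv _ (φ.mapsTo hx)).mono ball_subset_closedBall
    exact h3.mem_closure_image h2

end Ball

/-- a preconnected set which misses the frontier of `B` and meets the interior lies inside -/
theorem subset_interior_of_preconn {α : Type*} [TopologicalSpace α] {B C : Set α}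
    (hC : IsPreconnected C) (hd : Disjoint C (frontier B)) {x : α} (hx : x ∈ C)
    (hxB : x ∈ interior B) : C ⊆ interior B := by
  refine hC.subset_left_of_subset_union isOpen_interior
    (isClosed_closure (s := B)).isOpen_compl
    ?_ ?_ ⟨x, hx, hxB⟩
  · exact disjoint_left.2 fun y hy hy' => hy' (subset_closure (interior_subset hy))
  · intro y hy
    by_cases hyB : y ∈ closure B
    · left
      by_contra hyi
      exact disjoint_left.1 hd hy ⟨hyB, hyi⟩
    · exact Or.inr hyB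

/-- **ASM**, general form: the pieces `E a` of the skeleton are only supposed to have a dense
connected part `E a \ EB a`. -/
theorem asm_conn
    (hALX : ∀ S : Set V, ConSphere 2 S →
      ∃ Φ : ConHomeo (univ : Set V) (univ : Set V), Φ.toFun '' S = sphere 0 1)
    {Ω Λ : Set V} (hΩ : IsOpen Ω) (hΛ : IsOpen Λ) (hΩc : IsPreconnected Ω)
    {f fi : V → V} (hf : IsInv Ω Λ f fi) (hfc : ContinuousOn f Ω) (hfic : ContinuousOn fi Λ)
    {J : Type*} {R RB W : J → Set V} (hR : ∀ j, ConBall 3 (R j) (RB j)) (hRU : ⋃ j, R j = Λ)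
    (hW : ∀ j, W j ⊆ Λ)
    (hlf : ∀ y ∈ Λ, ∃ U ∈ 𝓝 y, {j | ((R j ∪ W j) ∩ U).Nonempty}.Finite)
    {X X' : Set V} (hX : X = ⋃ j, RB j) (hRX : ∀ j, R j ∩ X = RB j)
    (hRR : ∀ i j, i ≠ j → R i ∩ R j ⊆ X)
    {A : Type*} {E EB : A → Set V} (hEc : ∀ a, IsPreconnected (E a \ EB a))
    (hEd : ∀ a, E a ⊆ closure (E a \ EB a)) (hXE : X = ⋃ a, E a)
    (hER : ∀ a j, E a ⊆ RB j ∨ E a ∩ R j ⊆ EB a)
    (k : ConHomeo X X') (hX'Ω : X' ⊆ Ω) (hX'cl : closure X' ∩ Ω ⊆ X')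
    (hseg : ∀ j, ∀ y ∈ RB j, segment ℝ y (f (k.toFun y)) ⊆ W j)
    (p : J → V) (hp : ∀ j, p j ∈ R j) (hpW : ∀ j, p j ∉ W j)
    (hpR : ∀ i j, i ≠ j → p i ∉ R j ∪ W j)
    (q : A → V) (hq : ∀ a, q a ∈ E a \ EB a)
    (hqW : ∀ a j, ¬ E a ⊆ RB j → f (k.toFun (q a)) ∉ R j ∪ W j) :
    ∃ h : ConHomeo Ω Λ, EqOn h.invFun k.toFun X ∧
      ∀ j, fi (p j) ∈ interior (h.invFun '' R j) ∧ h.invFun '' R j ⊆ fi '' (R j ∪ W j) := by
  classical
  have hRΛ : ∀ j, R j ⊆ Λ := fun j => hRU ▸ subset_iUnion R j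
  have hRBR : ∀ j, RB j ⊆ R j := fun j => (hR j).1
  have hRBX : ∀ j, RB j ⊆ X := fun j => hX ▸ subset_iUnion RB j
  have hRWΛ : ∀ j, R j ∪ W j ⊆ Λ := fun j => union_subset (hRΛ j) (hW j)
  have hfinj : InjOn fi Λ := fun a ha b hb hab => by
    have := congrArg f hab
    rwa [(hf.2 a ha).2, (hf.2 b hb).2] at this
  -- the images of the sets of `Λ`
  have himg : ∀ {S : Set V}, S ⊆ Λ → ∀ {z : V}, z ∈ Ω → (z ∈ fi '' S ↔ f z ∈ S) := by
    intro S hS z hz
    constructor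
    · rintro ⟨y, hy, rfl⟩
      rwa [(hf.2 y (hS hy)).2]
    · intro h
      exact ⟨f z, h, (hf.1 z hz).2⟩
  have hfiΩ : ∀ {S : Set V}, S ⊆ Λ → fi '' S ⊆ Ω := by
    rintro S hS _ ⟨y, hy, rfl⟩
    exact (hf.2 y (hS hy)).1
  have hopen : ∀ {S : Set V}, S ⊆ Λ → IsOpen S → IsOpen (fi '' S) := by
    intro S hS hSo
    have : fi '' S = Ω ∩ f ⁻¹' S := by
      ext z
      constructor
      · intro hz
        have hzΩ := hfiΩ hS hz
        exact ⟨hzΩ, (himg hS hzΩ).1 hz⟩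
      · rintro ⟨hz, hz'⟩
        exact (himg hS hz).2 hz'
    rw [this]
    exact hfc.isOpen_inter_preimage hΩ hSo
  -- the balls
  have hS2 : ∀ j, ConSphere 2 (k.toFun '' RB j) := by
    intro j
    obtain ⟨φ⟩ := (hR j).conSphere
    exact ⟨(k.restr (hR j).conicalSet_bdry (hRBX j)).symm.trans φ⟩
  have hball : ∀ j, ∃ B : Set V, ConBall 3 B (k.toFun '' RB j) ∧ frontier B = k.toFun '' RB j ∧
      IsPreconnected (interior B) ∧ IsPreconnected Bᶜ := by
    intro j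
    obtain ⟨Φ, hΦ⟩ := hALX _ (hS2 j)
    exact exists_ambBall (by norm_num) Φ hΦ
  choose B hB hBfr hBi hBo using hball
  -- the homotopy
  have hTcomp : ∀ j, IsCompact (fi '' RB j) := fun j =>
    (hR j).isCompact_bdry.image_of_continuousOn (hfic.mono ((hRBR j).trans (hRΛ j)))
  have hRcomp : ∀ j, IsCompact (fi '' R j) := fun j =>
    (hR j).isCompact.image_of_continuousOn (hfic.mono (hRΛ j))
  have hfrR : ∀ j, frontier (fi '' R j) ⊆ fi '' RB j := by
    intro j z hz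
    rw [frontier, (hRcomp j).isClosed.closure_eq] at hz
    obtain ⟨⟨y, hy, rfl⟩, hz2⟩ := hz
    by_cases hyB : y ∈ RB j
    · exact mem_image_of_mem _ hyB
    · exfalso
      apply hz2
      have h1 : IsOpen (fi '' (R j \ RB j)) :=
        hopen (sdiff_subset.trans (hRΛ j)) (hR j).isOpen_diff
      exact interior_maximal (image_mono sdiff_subset) h1 (mem_image_of_mem _ ⟨hy, hyB⟩)
  let H : ℝ → V → V := fun s t => fi (f t + s • (f (k.toFun (f t)) - f t))
  have hTf : ∀ j, ∀ t ∈ fi '' RB j, f t ∈ RB j ∧ t ∈ Ω := by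
    rintro j _ ⟨y, hy, rfl⟩
    have := hf.2 y (hRΛ j (hRBR j hy))
    exact ⟨this.2.symm ▸ hy, this.1⟩
  have hsegm : ∀ j, ∀ s ∈ Icc (0 : ℝ) 1, ∀ t ∈ fi '' RB j,
      f t + s • (f (k.toFun (f t)) - f t) ∈ W j := by
    intro j s hs t ht
    apply hseg j (f t) (hTf j t ht).1
    rw [segment_eq_image']
    exact ⟨s, hs, rfl⟩
  have hHmem : ∀ j, ∀ s ∈ Icc (0 : ℝ) 1, ∀ t ∈ fi '' RB j, H s t ∈ fi '' W j :=
    fun j s hs t ht => mem_image_of_mem _ (hsegm j s hs t ht)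
  have hHc : ∀ j, ContinuousOn (fun z : ℝ × V => H z.1 z.2) (Icc 0 1 ×ˢ (fi '' RB j)) := by
    intro j
    have hc1 : ContinuousOn (fun z : ℝ × V => f z.2) (Icc (0:ℝ) 1 ×ˢ (fi '' RB j)) :=
      hfc.comp continuous_snd.continuousOn fun z hz => (hTf j _ hz.2).2
    have hc2 : ContinuousOn (fun z : ℝ × V => k.toFun (f z.2)) (Icc (0:ℝ) 1 ×ˢ (fi '' RB j)) :=
      k.cont.comp hc1 fun z hz => hRBX j (hTf j _ hz.2).1
    have hc3 : ContinuousOn (fun z : ℝ × V => f (k.toFun (f z.2)))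
        (Icc (0:ℝ) 1 ×ˢ (fi '' RB j)) :=
      hfc.comp hc2 fun z hz => hX'Ω (k.mapsTo (hRBX j (hTf j _ hz.2).1))
    have hc4 : ContinuousOn (fun z : ℝ × V => f z.2 + z.1 • (f (k.toFun (f z.2)) - f z.2))
        (Icc (0:ℝ) 1 ×ˢ (fi '' RB j)) :=
      hc1.add (continuous_fst.continuousOn.smul (hc3.sub hc1))
    exact hfic.comp hc4 fun z hz => hW j (hsegm j _ hz.1 _ hz.2)
  have hH0 : ∀ j, ∀ t ∈ fi '' RB j, H 0 t = t := by
    intro j t ht
    show fi (f t + (0:ℝ) • (f (k.toFun (f t)) - f t)) = t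
    rw [zero_smul, add_zero, (hf.1 t (hTf j t ht).2).2]
  have hH1 : ∀ j, H 1 '' (fi '' RB j) = k.toFun '' RB j := by
    intro j
    have h1 : ∀ y ∈ RB j, H 1 (fi y) = k.toFun y := by
      intro y hy
      have hy2 := (hf.2 y (hRΛ j (hRBR j hy))).2
      show fi (f (fi y) + (1:ℝ) • (f (k.toFun (f (fi y))) - f (fi y))) = k.toFun y
      rw [hy2, one_smul, add_sub_cancel, (hf.1 _ (hX'Ω (k.mapsTo (hRBX j hy)))).2]
    rw [image_image]
    exact image_congr h1
  have hHT : ∀ j, ∀ x : V, x ∈ Λ → x ∉ W j → ∀ s ∈ Icc (0 : ℝ) 1, ∀ t ∈ fi '' RB j,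
      H s t ≠ fi x := by
    intro j x hx hxW s hs t ht h
    obtain ⟨w, hw, hwt⟩ := hHmem j s hs t ht
    rw [h] at hwt
    exact hxW (hfinj (hW j hw) hx hwt ▸ hw)
  have hpΛ : ∀ j, p j ∈ Λ := fun j => hRΛ j (hp j)
  have hpint : ∀ j, fi (p j) ∈ interior (B j) := fun j =>
    Sep.mem_interior_of_homotopy (hRcomp j) (hTcomp j).isClosed (image_mono (hRBR j)) (hfrR j)
      (hHc j) (hH0 j) (by norm_num) (hB j).isCompact ((hBfr j).trans (hH1 j).symm) (hBo j)
      (mem_image_of_mem _ (hp j)) (hHT j _ (hpΛ j) (hpW j))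
  have hBsub : ∀ j, B j ⊆ fi '' (R j ∪ W j) := by
    intro j y hyB
    by_contra hy
    refine Sep.notMem_of_homotopy (hRcomp j) (hTcomp j).isClosed (image_mono (hRBR j)) (hfrR j)
      (hHc j) (hH0 j) (by norm_num) (hB j).isCompact ((hBfr j).trans (hH1 j).symm) (hBo j) (hBi j)
      (mem_image_of_mem _ (hp j)) (hHT j _ (hpΛ j) (hpW j)) (y := y) ?_ ?_ hyB
    · exact fun h => hy (image_mono subset_union_left h)
    · intro s hs t ht h
      exact hy (image_mono subset_union_right (h ▸ hHmem j s hs t ht))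
  have hBΩ : ∀ j, B j ⊆ Ω := fun j => (hBsub j).trans (hfiΩ (hRWΛ j))
  have hBf : ∀ j, ∀ z ∈ B j, f z ∈ R j ∪ W j := fun j z hz =>
    (himg (hRWΛ j) (hBΩ j hz)).1 (hBsub j hz)
  -- the trace of `X'` on the balls
  have hBX' : ∀ j, B j ∩ X' = k.toFun '' RB j := by
    intro j
    apply Subset.antisymm
    · rintro z ⟨hzB, hzX'⟩
      obtain ⟨x, hx, rfl⟩ : z ∈ k.toFun '' X := by rw [k.image_eq]; exact hzX'
      obtain ⟨a, ha⟩ : ∃ a, x ∈ E a := mem_iUnion.1 (hXE ▸ hx)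
      by_cases hsub : E a ⊆ RB j
      · exact mem_image_of_mem _ (hsub ha)
      have hEa := (hER a j).resolve_left hsub
      have hEX : E a ⊆ X := hXE ▸ subset_iUnion E a
      have hpre := hEc a
      have hdense := hEd a
      have hCpre : IsPreconnected (k.toFun '' (E a \ EB a)) :=
        hpre.image _ (k.cont.mono (sdiff_subset.trans hEX))
      have hdisj : Disjoint (k.toFun '' (E a \ EB a)) (frontier (B j)) := by
        rw [hBfr j, disjoint_left]
        rintro _ ⟨e, he, rfl⟩ ⟨r, hr, hre⟩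
        have : r = e := k.injOn (hRBX j hr) (hEX he.1) hre
        exact he.2 (hEa ⟨he.1, this ▸ hRBR j hr⟩)
      have hqC : k.toFun (q a) ∈ k.toFun '' (E a \ EB a) := mem_image_of_mem _ (hq a)
      have hqB : k.toFun (q a) ∉ B j := fun h => hqW a j hsub (hBf j _ h)
      have hzi : k.toFun x ∉ interior (B j) := by
        intro hzi
        have hcl : k.toFun x ∈ closure (k.toFun '' (E a \ EB a)) := by
          have h3 : ContinuousWithinAt k.toFun (E a \ EB a) x :=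
            (k.cont x hx).mono (sdiff_subset.trans hEX)
          exact h3.mem_closure_image (hdense ha)
        obtain ⟨w, hw1, hw2⟩ := mem_closure_iff.1 hcl _ isOpen_interior hzi
        exact hqB (interior_subset (subset_interior_of_preconn hCpre hdisj hw2 hw1 hqC))
      rw [← hBfr j]
      exact ⟨subset_closure hzB, hzi⟩
    · rintro _ ⟨r, hr, rfl⟩
      exact ⟨(hB j).1 (mem_image_of_mem _ hr), k.mapsTo (hRBX j hr)⟩
  have hfrX' : ∀ j, frontier (B j) ⊆ X' := by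
    intro j
    rw [hBfr j]
    rintro _ ⟨r, hr, rfl⟩
    exact k.mapsTo (hRBX j hr)
  -- the balls meet in `X'` only
  have hBB : ∀ i j, i ≠ j → B i ∩ B j ⊆ X' := by
    rintro i j hij z ⟨hzi, hzj⟩
    by_contra hzX
    have h1 : z ∈ interior (B i) := by
      by_contra h
      exact hzX (hfrX' i ⟨subset_closure hzi, h⟩)
    have h2 : z ∈ interior (B j) := by
      by_contra h
      exact hzX (hfrX' j ⟨subset_closure hzj, h⟩)
    have hdisj : Disjoint (interior (B i)) (frontier (B j)) := by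
      rw [disjoint_left]
      intro w hw hw'
      have : w ∈ B i ∩ X' := ⟨interior_subset hw, hfrX' j hw'⟩
      rw [hBX' i, ← hBfr i] at this
      exact this.2 hw
    have h3 := subset_interior_of_preconn (hBi i) hdisj h1 h2 (hpint i)
    have h4 := hBf j _ (interior_subset h3)
    rw [(hf.2 _ (hpΛ i)).2] at h4
    exact hpR i j hij h4
  -- local finiteness
  have hlf' : ∀ z ∈ Ω, ∃ U ∈ 𝓝 z, {j | (B j ∩ U).Nonempty}.Finite := by
    intro z hz
    obtain ⟨U, hU, hfin⟩ := hlf (f z) (hf.1 z hz).1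
    refine ⟨Ω ∩ f ⁻¹' U, Filter.inter_mem (hΩ.mem_nhds hz)
      ((hfc.continuousAt (hΩ.mem_nhds hz)) hU), hfin.subset ?_⟩
    rintro j ⟨w, hwB, -, hwU⟩
    exact ⟨f w, hBf j w hwB, hwU⟩
  have hlfR : ∀ y ∈ Λ, ∃ U ∈ 𝓝 y, {j | (R j ∩ U).Nonempty}.Finite := by
    intro y hy
    obtain ⟨U, hU, hfin⟩ := hlf y hy
    exact ⟨U, hU, hfin.subset fun j hj => hj.mono (inter_subset_inter_left _ subset_union_left)⟩
  have hXU : X ∪ ⋃ j, R j = Λ := by
    rw [hRU]
    apply union_eq_self_of_subset_left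
    rw [hX]
    exact iUnion_subset fun j => (hRBR j).trans (hRΛ j)
  have hYΩ : X' ∪ ⋃ j, B j ⊆ Ω := union_subset hX'Ω (iUnion_subset hBΩ)
  -- locally finite unions are closed
  have hclosed : ∀ (C : J → Set V), (∀ j, IsClosed (C j)) → ∀ z : V,
      (∃ U ∈ 𝓝 z, {j | (C j ∩ U).Nonempty}.Finite) → z ∈ closure (⋃ j, C j) → z ∈ ⋃ j, C j := by
    rintro C hC z ⟨U, hU, hfin⟩ hz
    have h1 : z ∈ closure ((⋃ j, C j) ∩ U) := by
      rw [mem_closure_iff_nhds] at hz ⊢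
      intro t ht
      obtain ⟨w, hw1, hw2⟩ := hz _ (Filter.inter_mem ht hU)
      exact ⟨w, hw1.1, hw2, hw1.2⟩
    have h2 : (⋃ j, C j) ∩ U ⊆ ⋃ j ∈ {j | (C j ∩ U).Nonempty}, C j := by
      rintro w ⟨hw, hwU⟩
      obtain ⟨j, hj⟩ := mem_iUnion.1 hw
      exact mem_biUnion (show j ∈ {j | (C j ∩ U).Nonempty} from ⟨w, hj, hwU⟩) hj
    have h3 := closure_mono h2 h1
    rw [(hfin.isClosed_biUnion fun j _ => hC j).closure_eq] at h3
    obtain ⟨j, -, hj⟩ := mem_iUnion₂.1 h3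
    exact mem_iUnion.2 ⟨j, hj⟩
  obtain ⟨Φ, hΦX, hΦR⟩ := ConHomeo.exists_extend_cells k (fun _ => 3) R RB B
    (fun j => k.toFun '' RB j) hR hB (fun _ => rfl) hRX hBX' hRR hBB
    (by
      intro z hz hzX
      rw [hXU] at hz
      rw [hX] at hzX ⊢
      refine hclosed RB (fun j => (hR j).isCompact_bdry.isClosed) z ?_ hzX
      obtain ⟨U, hU, hfin⟩ := hlfR z hz
      exact ⟨U, hU, hfin.subset fun j hj => hj.mono (inter_subset_inter_left _ (hRBR j))⟩)
    (fun z hz hzX => hX'cl ⟨hzX, hYΩ hz⟩)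
    (fun z hz => hlfR z (hXU ▸ hz))
    (fun z hz => hlf' z (hYΩ hz))
  -- the image is all of `Ω`
  have hYeq : X' ∪ ⋃ j, B j = Ω := by
    apply Subset.antisymm hYΩ
    have hYopen : IsOpen (X' ∪ ⋃ j, B j) := by
      rw [← Φ.image_eq]
      exact Sep.isOpen_image_of_injOn (hXU.symm ▸ hΛ) Φ.cont Φ.injOn
    have hYcl : closure (X' ∪ ⋃ j, B j) ∩ Ω ⊆ X' ∪ ⋃ j, B j := by
      rintro z ⟨hz, hzΩ⟩
      rw [closure_union] at hz
      rcases hz with hz | hz
      · exact Or.inl (hX'cl ⟨hz, hzΩ⟩)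
      · exact Or.inr (hclosed B (fun j => (hB j).isClosed) z (hlf' z hzΩ) hz)
    intro z hz
    have hne : (Ω ∩ (X' ∪ ⋃ j, B j)).Nonempty := by
      obtain ⟨j, hj⟩ := mem_iUnion.1 (hRU ▸ (hf.1 z hz).1 : f z ∈ ⋃ j, R j)
      have h1 := interior_subset (hpint j)
      exact ⟨_, hBΩ j h1, Or.inr (mem_iUnion.2 ⟨j, h1⟩)⟩
    exact hΩc.subset_of_closure_inter_subset hYopen hne hYcl hz
  let h : ConHomeo Ω Λ := (Φ.cast hXU hYeq).symm
  refine ⟨h, hΦX, fun j => ?_⟩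
  have h1 : h.invFun '' R j = B j := hΦR j
  rw [h1]
  exact ⟨hpint j, hBsub j⟩

/-- **ASM.** -/
theorem asm
    (hALX : ∀ S : Set V, ConSphere 2 S →
      ∃ Φ : ConHomeo (univ : Set V) (univ : Set V), Φ.toFun '' S = sphere 0 1)
    {Ω Λ : Set V} (hΩ : IsOpen Ω) (hΛ : IsOpen Λ) (hΩc : IsPreconnected Ω)
    {f fi : V → V} (hf : IsInv Ω Λ f fi) (hfc : ContinuousOn f Ω) (hfic : ContinuousOn fi Λ)
    {J : Type*} {R RB W : J → Set V} (hR : ∀ j, ConBall 3 (R j) (RB j)) (hRU : ⋃ j, R j = Λ)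
    (hW : ∀ j, W j ⊆ Λ)
    (hlf : ∀ y ∈ Λ, ∃ U ∈ 𝓝 y, {j | ((R j ∪ W j) ∩ U).Nonempty}.Finite)
    {X X' : Set V} (hX : X = ⋃ j, RB j) (hRX : ∀ j, R j ∩ X = RB j)
    (hRR : ∀ i j, i ≠ j → R i ∩ R j ⊆ X)
    {A : Type*} {E EB : A → Set V} (hE : ∀ a, ConBall 2 (E a) (EB a)) (hXE : X = ⋃ a, E a)
    (hER : ∀ a j, E a ⊆ RB j ∨ E a ∩ R j ⊆ EB a)
    (k : ConHomeo X X') (hX'Ω : X' ⊆ Ω) (hX'cl : closure X' ∩ Ω ⊆ X')
    (hseg : ∀ j, ∀ y ∈ RB j, segment ℝ y (f (k.toFun y)) ⊆ W j)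
    (p : J → V) (hp : ∀ j, p j ∈ R j) (hpW : ∀ j, p j ∉ W j)
    (hpR : ∀ i j, i ≠ j → p i ∉ R j ∪ W j)
    (q : A → V) (hq : ∀ a, q a ∈ E a \ EB a)
    (hqW : ∀ a j, ¬ E a ⊆ RB j → f (k.toFun (q a)) ∉ R j ∪ W j) :
    ∃ h : ConHomeo Ω Λ, EqOn h.invFun k.toFun X ∧
      ∀ j, fi (p j) ∈ interior (h.invFun '' R j) ∧ h.invFun '' R j ⊆ fi '' (R j ∪ W j) :=
  asm_conn hALX hΩ hΛ hΩc hf hfc hfic hR hRU hW hlf hX hRX hRR
    (fun a => ((hE a).diff_preconn_dense (by norm_num)).1)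
    (fun a => ((hE a).diff_preconn_dense (by norm_num)).2) hXE hER k hX'Ω hX'cl hseg p hp hpW hpR
    q hq hqW

end Vale.Agent.P073.PA285
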