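import Vale.Agent.P073.PA691.Spec
import Vale.Agent.P073.PA285.Asm

/-!
# P073, block ASM: the Props `SpecIoD` and `SpecASM` of `PA691/Spec.lean`
-/

open Set Metric Topology Filter

namespace Vale.Agent.P073.PA285

open _root_.P073 _root_.P073.PA691 Vale.Agent.P073.St

theorem specIoD : SpecIoD := fun _ _ hU hf hi => Sep.isOpen_image_of_injOn hU hf hi

/-- **ASM** from the conical Alexander theorem -/
theorem specASM (hALX : SpecALX) : SpecASM := by
  intro Ω Λ f g K X' k W p q hΩ hΩc hΛ hinv hfc hgc hX'Ω hX'cl hW hlf hseg hp hpR hq hqW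
  have hALX' : ∀ S : Set V, ConSphere 2 S →
      ∃ Φ : ConHomeo (univ : Set V) (univ : Set V), Φ.toFun '' S = sphere 0 1 := by
    intro S hS
    obtain ⟨Φ, hΦ⟩ := hALX S hS
    refine ⟨Φ.symm, ?_⟩
    rw [← hΦ, ConHomeo.symm_toFun, Φ.image_inv_image]
  have hRX : ∀ j, K.R j ∩ K.X = frontier (K.R j) := by
    intro j
    apply Subset.antisymm
    · rintro z ⟨hz, hzX⟩
      obtain ⟨i, hi⟩ := mem_iUnion.1 hzX
      by_cases hij : j = i
      · subst hij; exact hi
      · exact K.sep j i hij ⟨hz, (K.isBall i).isClosed.frontier_subset hi⟩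
    · intro z hz
      exact ⟨(K.isBall j).isClosed.frontier_subset hz, mem_iUnion.2 ⟨j, hz⟩⟩
  obtain ⟨h, h1, h2⟩ := asm_conn hALX' hΩ hΛ hΩc.isPreconnected hinv hfc hgc (R := K.R)
    (RB := fun j => frontier (K.R j)) (W := W) K.isBall K.cover hW hlf (X := K.X) rfl hRX
    (fun i j hij z hz => mem_iUnion.2 ⟨i, K.sep i j hij hz⟩) (E := K.E) (EB := K.bE) K.conn
    K.dense (by
      apply Subset.antisymm
      · intro z hz
        obtain ⟨j, hj⟩ := mem_iUnion.1 hz
        obtain ⟨a, -, ha⟩ := K.bdry j z hj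
        exact mem_iUnion.2 ⟨a, ha⟩
      · intro z hz
        obtain ⟨a, ha⟩ := mem_iUnion.1 hz
        obtain ⟨j, hj⟩ := K.used a
        exact mem_iUnion.2 ⟨j, hj ha⟩)
    (fun a j => or_iff_not_imp_left.2 (K.off a j)) k hX'Ω hX'cl hseg p (fun j => (hp j).1)
    (fun j => (hp j).2) hpR q (fun a => ⟨(hq a).1, (hq a).2⟩) hqW
  refine ⟨h, ?_, ?_⟩
  · intro x hx
    obtain ⟨y, hy, rfl⟩ : x ∈ k.toFun '' K.X := by rw [k.image_eq]; exact hx
    have hyΛ : y ∈ Λ := by
      obtain ⟨j, hj⟩ := mem_iUnion.1 hy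
      exact K.cover.subset (mem_iUnion.2 ⟨j, (K.isBall j).isClosed.frontier_subset hj⟩)
    rw [← h1 hy, h.right_inv hyΛ, h1 hy, k.left_inv hy]
  · intro j x hx hxj
    have hsub : K.R j ∪ W j ⊆ Λ :=
      union_subset ((subset_iUnion K.R j).trans K.cover.subset) (hW j)
    have h3 : x ∈ h.invFun '' K.R j := ⟨_, hxj, h.left_inv hx⟩
    obtain ⟨y, hy, rfl⟩ := (h2 j).2 h3
    rw [(hinv.2 y (hsub hy)).2]
    exact hy

end Vale.Agent.P073.PA285
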