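import Vale.Agent.P073.PA285.SepR
import Vale.Agent.P073.PA285.Asm

/-!
# P073, block SIDES: the two sides of a bicollared surface close to `f⁻¹(F)`
-/

open Set Metric Topology Filter

namespace Vale.Agent.P073.PA285

open _root_.P073 Vale.Agent.P073.St

/-- **SIDES**, core: `κ` is a bicollar in `Ω` of the closed set `F' = κ (F × 0)`, `F` connected, and
no connected subset of `Ω \ F'` meets both `D₁` and `D₂`.  Then `Ω \ F'` has exactly two components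
`A` and `B`, the two halves of the collar are in different components, `D₁ ⊆ A` and `D₂ ⊆ B`. -/
theorem sides_core {Ω : Set V} (hΩ : IsOpen Ω) (hΩc : IsPreconnected Ω) {F : Set V}
    (hFc : IsPreconnected F) (hFne : F.Nonempty)
    {κ : V × ℝ → V} (hκ : ContinuousOn κ (F ×ˢ Icc (-1) 1)) (hκi : InjOn κ (F ×ˢ Icc (-1) 1))
    (hκΩ : MapsTo κ (F ×ˢ Icc (-1) 1) Ω) (hκo : IsOpen (κ '' (F ×ˢ Ioo (-1) 1)))
    (hF'cl : closure (κ '' (F ×ˢ {0})) ∩ Ω ⊆ κ '' (F ×ˢ {0}))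
    {D₁ D₂ : Set V} (hD₁ : D₁ ⊆ Ω \ κ '' (F ×ˢ {0})) (hD₂ : D₂ ⊆ Ω \ κ '' (F ×ˢ {0}))
    (hne₁ : D₁.Nonempty) (hne₂ : D₂.Nonempty)
    (hsep : ∀ C : Set V, IsPreconnected C → C ⊆ Ω \ κ '' (F ×ˢ {0}) → ∀ d ∈ D₁, ∀ e ∈ D₂,
      d ∈ C → e ∉ C) :
    ∃ A B : Set V, IsOpen A ∧ IsOpen B ∧ IsConnected A ∧ IsConnected B ∧ Disjoint A B ∧
      A ∪ B = Ω \ κ '' (F ×ˢ {0}) ∧
      ((κ '' (F ×ˢ Ioc 0 1) ⊆ A ∧ κ '' (F ×ˢ Ico (-1) 0) ⊆ B) ∨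
        (κ '' (F ×ˢ Ioc 0 1) ⊆ B ∧ κ '' (F ×ˢ Ico (-1) 0) ⊆ A)) ∧ D₁ ⊆ A ∧ D₂ ⊆ B := by
  classical
  obtain ⟨p₀, hp₀⟩ := hne₁
  obtain ⟨q₀, hq₀⟩ := hne₂
  have h0m : (0:ℝ) ∈ Icc (-1:ℝ) 1 := ⟨by norm_num, by norm_num⟩
  set F' := κ '' (F ×ˢ {0}) with hF'
  have hF'Ω : F' ⊆ Ω := by
    rintro _ ⟨⟨z, s⟩, ⟨hz, hs⟩, rfl⟩
    have : s = 0 := hs
    subst this
    exact hκΩ ⟨hz, h0m⟩
  have hopen : IsOpen (Ω \ F') := by
    have : Ω \ F' = Ω \ closure F' := by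
      ext z
      constructor
      · rintro ⟨h1, h2⟩
        exact ⟨h1, fun h3 => h2 (hF'cl ⟨h3, h1⟩)⟩
      · rintro ⟨h1, h2⟩
        exact ⟨h1, fun h3 => h2 (subset_closure h3)⟩
    rw [this]
    exact hΩ.sdiff isClosed_closure
  -- the collar halves
  have hPlus : IsPreconnected (κ '' (F ×ˢ Ioc 0 1)) :=
    (hFc.prod isPreconnected_Ioc).image _
      (hκ.mono (prod_mono subset_rfl fun s hs => ⟨by linarith [hs.1], hs.2⟩))
  have hMinus : IsPreconnected (κ '' (F ×ˢ Ico (-1) 0)) :=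
    (hFc.prod isPreconnected_Ico).image _
      (hκ.mono (prod_mono subset_rfl fun s hs => ⟨hs.1, by linarith [hs.2]⟩))
  have hoff : ∀ z ∈ F, ∀ s ∈ Icc (-1:ℝ) 1, s ≠ 0 → κ (z, s) ∈ Ω \ F' := by
    intro z hz s hs hs0
    refine ⟨hκΩ ⟨hz, hs⟩, ?_⟩
    rintro ⟨⟨z', s'⟩, ⟨hz', hs'⟩, h⟩
    have hs'0 : s' = 0 := hs'
    subst hs'0
    have := hκi ⟨hz', h0m⟩ ⟨hz, hs⟩ h
    exact hs0 (congrArg Prod.snd this).symm
  have hPlusΩ : κ '' (F ×ˢ Ioc 0 1) ⊆ Ω \ F' := by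
    rintro _ ⟨⟨z, s⟩, ⟨hz, hs⟩, rfl⟩
    exact hoff z hz s ⟨by linarith [hs.1], hs.2⟩ hs.1.ne'
  have hMinusΩ : κ '' (F ×ˢ Ico (-1) 0) ⊆ Ω \ F' := by
    rintro _ ⟨⟨z, s⟩, ⟨hz, hs⟩, rfl⟩
    exact hoff z hz s ⟨hs.1, by linarith [hs.2]⟩ hs.2.ne
  obtain ⟨z₀, hz₀⟩ := hFne
  have hpm : κ (z₀, 1) ∈ κ '' (F ×ˢ Ioc 0 1) := ⟨_, ⟨hz₀, by norm_num, le_rfl⟩, rfl⟩
  have hmm : κ (z₀, -1) ∈ κ '' (F ×ˢ Ico (-1) 0) := ⟨_, ⟨hz₀, le_rfl, by norm_num⟩, rfl⟩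
  set P := connectedComponentIn (Ω \ F') (κ (z₀, 1)) with hP
  set M := connectedComponentIn (Ω \ F') (κ (z₀, -1)) with hM
  have hPsub : κ '' (F ×ˢ Ioc 0 1) ⊆ P := hPlus.subset_connectedComponentIn hpm hPlusΩ
  have hMsub : κ '' (F ×ˢ Ico (-1) 0) ⊆ M := hMinus.subset_connectedComponentIn hmm hMinusΩ
  -- every point of `Ω \ F'` lies in `P` or `M`
  have hcover : ∀ x ∈ Ω \ F', x ∈ P ∪ M := by
    intro x hx
    set C := connectedComponentIn (Ω \ F') x with hC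
    have hxC : x ∈ C := mem_connectedComponentIn hx
    have hCo : IsOpen C := hopen.connectedComponentIn
    have hCsub : C ⊆ Ω \ F' := connectedComponentIn_subset _ _
    have hmeet : (C ∩ κ '' (F ×ˢ Ioo (-1) 1)).Nonempty := by
      by_contra hne
      rw [not_nonempty_iff_eq_empty] at hne
      -- `C` is closed in `Ω`
      have hCcl : closure C ∩ Ω ⊆ C := by
        rintro y ⟨hy, hyΩ⟩
        by_cases hyF : y ∈ F'
        · exfalso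
          have hyU : y ∈ κ '' (F ×ˢ Ioo (-1) 1) := by
            obtain ⟨⟨z, s⟩, ⟨hz, hs⟩, rfl⟩ := hyF
            have : s = 0 := hs
            subst this
            exact ⟨(z, 0), ⟨hz, by norm_num, by norm_num⟩, rfl⟩
          obtain ⟨w, hw1, hw2⟩ := mem_closure_iff.1 hy _ hκo hyU
          exact (hne ▸ (⟨hw2, hw1⟩ : w ∈ C ∩ κ '' (F ×ˢ Ioo (-1) 1)) : w ∈ (∅ : Set V))
        · have hyO : y ∈ Ω \ F' := ⟨hyΩ, hyF⟩
          have hyo : IsOpen (connectedComponentIn (Ω \ F') y) := hopen.connectedComponentIn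
          obtain ⟨w, hw1, hw2⟩ := mem_closure_iff.1 hy _ hyo (mem_connectedComponentIn hyO)
          have h1 := connectedComponentIn_eq hw1
          have h2 := connectedComponentIn_eq hw2
          rw [hC, h2, ← h1]
          exact mem_connectedComponentIn hyO
      have hΩC : Ω ⊆ C := hΩc.subset_of_closure_inter_subset hCo ⟨x, hx.1, hxC⟩ hCcl
      have h1 : κ (z₀, 0) ∈ F' := ⟨(z₀, 0), ⟨hz₀, rfl⟩, rfl⟩
      exact (hCsub (hΩC (hF'Ω h1))).2 h1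
    obtain ⟨_, hyC, ⟨⟨z, s⟩, ⟨hz, hs⟩, rfl⟩⟩ := hmeet
    have hs0 : s ≠ 0 := by
      rintro rfl
      exact (hCsub hyC).2 ⟨(z, 0), ⟨hz, rfl⟩, rfl⟩
    rcases lt_or_gt_of_ne hs0 with h | h
    · right
      have h1 : κ (z, s) ∈ M := hMsub ⟨_, ⟨hz, hs.1.le, h⟩, rfl⟩
      rw [hM, connectedComponentIn_eq h1, ← connectedComponentIn_eq hyC]
      exact hxC
    · left
      have h1 : κ (z, s) ∈ P := hPsub ⟨_, ⟨hz, h, hs.2.le⟩, rfl⟩
      rw [hP, connectedComponentIn_eq h1, ← connectedComponentIn_eq hyC]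
      exact hxC
  have hPM : Disjoint P M := by
    rw [disjoint_left]
    intro x hxP hxM
    have heq : P = M := (connectedComponentIn_eq hxP).trans (connectedComponentIn_eq hxM).symm
    have h1 := hcover _ (hD₁ hp₀)
    have h2 := hcover _ (hD₂ hq₀)
    rw [← heq, union_self] at h1 h2
    exact hsep P isPreconnected_connectedComponentIn (connectedComponentIn_subset _ _) p₀ hp₀ q₀ hq₀
      h1 h2
  have hPc : IsConnected P := isConnected_connectedComponentIn_iff.2 (hPlusΩ hpm)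
  have hMc : IsConnected M := isConnected_connectedComponentIn_iff.2 (hMinusΩ hmm)
  have hPo : IsOpen P := hopen.connectedComponentIn
  have hMo : IsOpen M := hopen.connectedComponentIn
  have hU : P ∪ M = Ω \ F' := by
    apply Subset.antisymm
    · exact union_subset (connectedComponentIn_subset _ _) (connectedComponentIn_subset _ _)
    · exact hcover
  have hPsubΩ : P ⊆ Ω \ F' := connectedComponentIn_subset _ _
  have hMsubΩ : M ⊆ Ω \ F' := connectedComponentIn_subset _ _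
  rcases hcover _ (hD₁ hp₀) with h | h
  · have hlow : D₂ ⊆ M := fun d hd => (hcover _ (hD₂ hd)).resolve_left
        (hsep P hPc.isPreconnected hPsubΩ p₀ hp₀ d hd h)
    refine ⟨P, M, hPo, hMo, hPc, hMc, hPM, hU, Or.inl ⟨hPsub, hMsub⟩, fun d hd => ?_, hlow⟩
    refine (hcover _ (hD₁ hd)).resolve_right fun h' => ?_
    exact hsep M hMc.isPreconnected hMsubΩ d hd q₀ hq₀ h' (hlow hq₀)
  · have hlow : D₂ ⊆ P := fun d hd => (hcover _ (hD₂ hd)).resolve_right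
        (hsep M hMc.isPreconnected hMsubΩ p₀ hp₀ d hd h)
    refine ⟨M, P, hMo, hPo, hMc, hPc, hPM.symm, by rw [union_comm]; exact hU,
      Or.inr ⟨hPsub, hMsub⟩, fun d hd => ?_, hlow⟩
    refine (hcover _ (hD₁ hd)).resolve_left fun h' => ?_
    exact hsep P hPc.isPreconnected hPsubΩ d hd q₀ hq₀ h' (hlow hq₀)

/-- **SIDES**.  `F = {z ∈ Λ | φ z = t}` connected, `κ` a bicollar in `Ω` of `F' = κ (F × 0)`, where
`f (κ (z, 0))` is close to `z`; `D` a set of points of `Λ` far from `F`, which meets both sides of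
`F`.  Then `Ω \ F'` has exactly two components `A` and `B`, the two halves of the collar are in
different components, and `f⁻¹` of the points of `D` with `φ > t` (with `φ < t`) are in `A`
(in `B`). -/
theorem sides {Ω Λ : Set V} (hΩ : IsOpen Ω) (hΛ : IsOpen Λ) (hΩc : IsPreconnected Ω)
    {f fi : V → V} (hinv : IsInv Ω Λ f fi) (hfc : ContinuousOn f Ω)
    {φ : V → ℝ} (hφ : ContinuousOn φ Λ) {t : ℝ} {F : Set V} (hF : F = {z ∈ Λ | φ z = t})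
    (hFc : IsPreconnected F) (hFne : F.Nonempty) {ρ : V → ℝ} (hρ : Rho Λ ρ)
    {κ : V × ℝ → V} (hκ : ContinuousOn κ (F ×ˢ Icc (-1) 1)) (hκi : InjOn κ (F ×ˢ Icc (-1) 1))
    (hκΩ : MapsTo κ (F ×ˢ Icc (-1) 1) Ω) (hκo : IsOpen (κ '' (F ×ˢ Ioo (-1) 1)))
    (hclose : ∀ z ∈ F, 2 * ‖f (κ (z, 0)) - z‖ ≤ ρ z)
    {D : Set V} (hD : ∀ d ∈ D, d ∈ Λ ∧ ∀ z ∈ F, ‖f (κ (z, 0)) - z‖ < ‖z - d‖)
    {p₀ q₀ : V} (hp₀ : p₀ ∈ D) (hq₀ : q₀ ∈ D) (hp₀t : t < φ p₀) (hq₀t : φ q₀ < t) :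
    ∃ A B : Set V, IsOpen A ∧ IsOpen B ∧ IsConnected A ∧ IsConnected B ∧ Disjoint A B ∧
      A ∪ B = Ω \ κ '' (F ×ˢ {0}) ∧
      ((κ '' (F ×ˢ Ioc 0 1) ⊆ A ∧ κ '' (F ×ˢ Ico (-1) 0) ⊆ B) ∨
        (κ '' (F ×ˢ Ioc 0 1) ⊆ B ∧ κ '' (F ×ˢ Ico (-1) 0) ⊆ A)) ∧
      (∀ d ∈ D, t < φ d → fi d ∈ A) ∧ ∀ d ∈ D, φ d < t → fi d ∈ B := by
  classical
  subst hF
  set F := {z ∈ Λ | φ z = t} with hF
  have h0m : (0:ℝ) ∈ Icc (-1:ℝ) 1 := ⟨by norm_num, by norm_num⟩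
  set F' := κ '' (F ×ˢ {0}) with hF'
  have hF'eq : F' = (fun z => κ (z, 0)) '' F := by
    ext x
    constructor
    · rintro ⟨⟨z, s⟩, ⟨hz, hs⟩, rfl⟩
      have : s = 0 := hs
      subst this
      exact ⟨z, hz, rfl⟩
    · rintro ⟨z, hz, rfl⟩
      exact ⟨(z, 0), ⟨hz, rfl⟩, rfl⟩
  have hκ0 : ContinuousOn (fun z : V => κ (z, 0)) F :=
    hκ.comp (continuous_id.prodMk continuous_const).continuousOn fun z hz => ⟨hz, h0m⟩
  have hκ0Ω : MapsTo (fun z : V => κ (z, 0)) F Ω := fun z hz => hκΩ ⟨hz, h0m⟩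
  have hGc : ContinuousOn (fun z => f (κ (z, 0))) F := hfc.comp hκ0 hκ0Ω
  have hF'Ω : F' ⊆ Ω := by
    rw [hF'eq]
    rintro _ ⟨z, hz, rfl⟩
    exact hκ0Ω hz
  have hFcl : closure F ∩ Λ ⊆ F := by
    rintro z ⟨hz, hzΛ⟩
    refine ⟨hzΛ, ?_⟩
    by_contra hne
    have h1 : ∀ᶠ w in 𝓝 z, φ w ≠ t :=
      (hφ.continuousAt (hΛ.mem_nhds hzΛ)).eventually_ne hne
    obtain ⟨w, hw1, hw2⟩ := mem_closure_iff_nhds.1 hz _ h1
    exact hw1 hw2.2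
  -- `F'` is closed in `Ω`
  have himcl := closed_image hρ hFcl hGc hclose
  have hF'im : f '' F' = (fun z => f (κ (z, 0))) '' F := by
    rw [hF'eq, image_image]
  have hF'cl : closure F' ∩ Ω ⊆ F' := by
    rintro x ⟨hx, hxΩ⟩
    have h1 : f x ∈ closure (f '' F') :=
      ((hfc x hxΩ).mono hF'Ω).mem_closure_image hx
    rw [hF'im] at h1
    have h2 := himcl ⟨h1, (hinv.1 x hxΩ).1⟩
    rw [← hF'im] at h2
    obtain ⟨y, hy, hyx⟩ := h2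
    have h3 := congrArg fi hyx
    rw [(hinv.1 y (hF'Ω hy)).2, (hinv.1 x hxΩ).2] at h3
    exact h3 ▸ hy
  -- separation
  have hsep : ∀ C : Set V, IsPreconnected C → C ⊆ Ω \ F' → ∀ d ∈ D, ∀ e ∈ D, t < φ d → φ e < t →
      fi d ∈ C → fi e ∉ C := by
    intro C hC hCsub d hd e he hdt het hdC heC
    have hB : IsPreconnected (f '' C) := hC.image _ (hfc.mono fun x hx => (hCsub hx).1)
    have hBΛ : f '' C ⊆ Λ := by
      rintro _ ⟨x, hx, rfl⟩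
      exact (hinv.1 x (hCsub hx).1).1
    have hBG : Disjoint (f '' C) ((fun z => f (κ (z, 0))) '' F) := by
      rw [← hF'im, disjoint_left]
      rintro _ ⟨x, hx, rfl⟩ ⟨y, hy, hyx⟩
      have h3 := congrArg fi hyx
      rw [(hinv.1 y (hF'Ω hy)).2, (hinv.1 x (hCsub hx).1).2] at h3
      exact (hCsub hx).2 (h3 ▸ hy)
    have hdB : d ∈ f '' C := ⟨fi d, hdC, (hinv.2 d (hD d hd).1).2⟩
    have heB : e ∈ f '' C := ⟨fi e, heC, (hinv.2 e (hD e he).1).2⟩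
    exact sep_level hΛ hρ hφ hGc (fun z hz hzt => hclose z ⟨hz, hzt⟩) (hD e he).1 het hdt
      (fun z hz hzt => (hD e he).2 z ⟨hz, hzt⟩) (fun z hz hzt => (hD d hd).2 z ⟨hz, hzt⟩)
      hB hBΛ hBG heB hdB
  -- the points of `D` are not in `F'`
  have hDF' : ∀ d ∈ D, fi d ∈ Ω \ F' := by
    intro d hd
    refine ⟨(hinv.2 d (hD d hd).1).1, fun h => ?_⟩
    rw [hF'eq] at h
    obtain ⟨z, hz, hzd⟩ := h
    have h1 := (hD d hd).2 z hz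
    simp only at hzd
    rw [hzd, (hinv.2 d (hD d hd).1).2, norm_sub_rev] at h1
    exact lt_irrefl _ h1
  obtain ⟨A, B, hA, hB, hAc, hBc, hAB, hU, hκAB, h1, h2⟩ := sides_core hΩ hΩc hFc hFne hκ hκi hκΩ
    hκo hF'cl (D₁ := fi '' {d ∈ D | t < φ d}) (D₂ := fi '' {d ∈ D | φ d < t})
    (by rintro _ ⟨d, hd, rfl⟩; exact hDF' d hd.1) (by rintro _ ⟨d, hd, rfl⟩; exact hDF' d hd.1)
    ⟨_, mem_image_of_mem fi ⟨hp₀, hp₀t⟩⟩ ⟨_, mem_image_of_mem fi ⟨hq₀, hq₀t⟩⟩ (by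
      rintro C hC hCsub _ ⟨d, hd, rfl⟩ _ ⟨e, he, rfl⟩ hdC heC
      exact hsep C hC hCsub d hd.1 e he.1 hd.2 he.2 hdC heC)
  exact ⟨A, B, hA, hB, hAc, hBc, hAB, hU, hκAB,
    fun d hd hdt => h1 (mem_image_of_mem fi ⟨hd, hdt⟩),
    fun d hd hdt => h2 (mem_image_of_mem fi ⟨hd, hdt⟩)⟩

end Vale.Agent.P073.PA285
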