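import Vale.Agent.P073.PA691.Spec
import Vale.Agent.P073.PA285.Sides

/-!
# P073, block SIDES: the Prop `SpecSides` of `PA691/Spec.lean`
-/

open Set Metric Topology Filter

namespace Vale.Agent.P073.PA285

open _root_.P073 _root_.P073.PA691 Vale.Agent.P073.St

/-- **SIDES** -/
theorem specSides : SpecSides := by
  intro Ω Λ f g H F hΩ hΩc hΛ hinv hfc hgc hHΛ hHcl hHF hFc
  classical
  obtain ⟨ρ, hρ⟩ := exists_rho hΩ
  refine ⟨fun y => ρ (g y) / 2, (hρ.continuous.comp_continuousOn hgc).div_const 2, fun y hy => ?_,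
    ?_⟩
  · have := hρ.pos _ (hinv.2 y hy).1
    positivity
  intro N κ p₁ p₂ hNΩ hNcl hκo hclose0 hp₁ hp₂ hp₂H hfar₁ hfar₂
  have hclose : ∀ y ∈ F, 2 * ‖κ.toFun (y, 0) - g y‖ ≤ ρ (g y) := fun y hy => by
    have : ‖κ.toFun (y, 0) - g y‖ ≤ ρ (g y) / 2 := hclose0 y hy
    linarith
  have h0m : (0:ℝ) ∈ Icc (-1:ℝ) 1 := ⟨by norm_num, by norm_num⟩
  have hFΛ : F ⊆ Λ := hHF ▸ inter_subset_right
  have hFH : F ⊆ H := by
    intro z hz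
    rw [← hHF] at hz
    exact hHcl ⟨hz.1.1, hz.2⟩
  have hκΩ : MapsTo κ.toFun (F ×ˢ Icc (-1) 1) Ω := fun z hz => hNΩ (κ.mapsTo hz)
  -- images under `g`
  have hgmem : ∀ {S : Set V}, S ⊆ Λ → ∀ {x : V}, x ∈ Ω → (x ∈ g '' S ↔ f x ∈ S) := by
    intro S hS x hx
    constructor
    · rintro ⟨y, hy, rfl⟩
      rwa [(hinv.2 y (hS hy)).2]
    · intro h
      exact ⟨f x, h, (hinv.1 x hx).2⟩
  have hgΩ : ∀ {S : Set V}, S ⊆ Λ → g '' S ⊆ Ω := by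
    rintro S hS _ ⟨y, hy, rfl⟩
    exact (hinv.2 y (hS hy)).1
  have hgcl : ∀ {S : Set V}, S ⊆ Λ → closure S ∩ Λ ⊆ S → closure (g '' S) ∩ Ω ⊆ g '' S := by
    rintro S hS hcl x ⟨hx, hxΩ⟩
    rw [hgmem hS hxΩ]
    refine hcl ⟨?_, (hinv.1 x hxΩ).1⟩
    have h1 : f x ∈ closure (f '' (g '' S)) := ((hfc x hxΩ).mono (hgΩ hS)).mem_closure_image hx
    have h2 : f '' (g '' S) = S := by
      rw [image_image]
      have : ∀ y ∈ S, f (g y) = y := fun y hy => (hinv.2 y (hS hy)).2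
      rw [image_congr this, image_id']
    rwa [h2] at h1
  have hFcl : closure F ∩ Λ ⊆ F := by
    rintro z ⟨hz, hzΛ⟩
    rw [← hHF]
    refine ⟨?_, hzΛ⟩
    have h1 : closure F ⊆ frontier H :=
      closure_minimal (hHF ▸ inter_subset_left) isClosed_frontier
    exact h1 hz
  set X := g '' H with hX
  set T := g '' F with hT
  have hXcl : closure X ∩ Ω ⊆ X := hgcl hHΛ hHcl
  have hTcl : closure T ∩ Ω ⊆ T := hgcl hFΛ hFcl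
  have hTX : T ⊆ X := image_mono hFH
  have hfr : frontier X ∩ Ω ⊆ T := by
    rintro x ⟨hx, hxΩ⟩
    have h1 : f x ∈ H := (hgmem hHΛ hxΩ).1 (hXcl ⟨hx.1, hxΩ⟩)
    rw [hT, hgmem hFΛ hxΩ, ← hHF]
    refine ⟨⟨subset_closure h1, fun h2 => hx.2 ?_⟩, (hinv.1 x hxΩ).1⟩
    rw [mem_interior_iff_mem_nhds]
    filter_upwards [(hfc.continuousAt (hΩ.mem_nhds hxΩ)) (isOpen_interior.mem_nhds h2),
      hΩ.mem_nhds hxΩ] with w hw hwΩ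
    exact (hgmem hHΛ hwΩ).2 (interior_subset hw)
  let G : V → V := fun x => κ.toFun (f x, 0)
  have hGc : ContinuousOn G T := by
    refine κ.cont.comp (f := fun x => (f x, (0:ℝ))) ?_ ?_
    · exact (hfc.mono (hgΩ hFΛ)).prodMk continuousOn_const
    · rintro _ ⟨y, hy, rfl⟩
      refine ⟨?_, h0m⟩
      show f (g y) ∈ F
      rwa [(hinv.2 y (hFΛ hy)).2]
  have hGg : ∀ y ∈ F, G (g y) = κ.toFun (y, 0) := fun y hy => by
    show κ.toFun (f (g y), 0) = _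
    rw [(hinv.2 y (hFΛ hy)).2]
  have hG2 : ∀ x ∈ T, 2 * ‖G x - x‖ ≤ ρ x := by
    rintro _ ⟨y, hy, rfl⟩
    rw [hGg y hy]
    exact hclose y hy
  have hGT : G '' T = κ.toFun '' (F ×ˢ {0}) := by
    ext x
    constructor
    · rintro ⟨_, ⟨y, hy, rfl⟩, rfl⟩
      exact ⟨(y, 0), ⟨hy, rfl⟩, (hGg y hy).symm⟩
    · rintro ⟨⟨y, s⟩, ⟨hy, hs⟩, rfl⟩
      have : s = 0 := hs
      subst this
      exact ⟨g y, mem_image_of_mem _ hy, hGg y hy⟩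
  have hF'cl : closure (κ.toFun '' (F ×ˢ {0})) ∩ Ω ⊆ κ.toFun '' (F ×ˢ {0}) := by
    rw [← hGT]
    exact closed_image hρ hTcl hGc hG2
  have hopen : IsOpen (Ω \ G '' T) := by
    have : Ω \ G '' T = Ω \ closure (G '' T) := by
      rw [hGT]
      ext z
      constructor
      · rintro ⟨h1, h2⟩
        exact ⟨h1, fun h3 => h2 (hF'cl ⟨h3, h1⟩)⟩
      · rintro ⟨h1, h2⟩
        exact ⟨h1, fun h3 => h2 (subset_closure h3)⟩
    rw [this]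
    exact hΩ.sdiff isClosed_closure
  -- far points
  have hfarF' : ∀ z ∈ Λ, (∀ y ∈ F, ‖κ.toFun (y, 0) - g y‖ < ‖g y - g z‖) →
      g z ∈ Ω \ κ.toFun '' (F ×ˢ {0}) := by
    intro z hz hfar
    refine ⟨(hinv.2 z hz).1, ?_⟩
    rintro ⟨⟨y, s⟩, ⟨hy, hs⟩, h⟩
    have hs0 : s = 0 := hs
    subst hs0
    have h1 := hfar y hy
    rw [h, norm_sub_rev] at h1
    exact lt_irrefl _ h1
  obtain ⟨A, B, hA, hB, hAc, hBc, hAB, hU, hκAB, h1, h2⟩ := sides_core hΩ hΩc.isPreconnected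
    hFc.isPreconnected hFc.nonempty κ.cont κ.injOn hκΩ hκo hF'cl
    (D₁ := g '' {z | z ∈ Λ ∧ z ∉ H ∧ ∀ y ∈ F, ‖κ.toFun (y, 0) - g y‖ < ‖g y - g z‖})
    (D₂ := g '' {z | z ∈ H ∧ ∀ y ∈ F, ‖κ.toFun (y, 0) - g y‖ < ‖g y - g z‖})
    (by rintro _ ⟨z, ⟨hz, -, hfar⟩, rfl⟩; exact hfarF' z hz hfar)
    (by rintro _ ⟨z, ⟨hz, hfar⟩, rfl⟩; exact hfarF' z (hHΛ hz) hfar)
    ⟨_, mem_image_of_mem g ⟨hp₂, hp₂H, hfar₂⟩⟩ ⟨_, mem_image_of_mem g ⟨hp₁, hfar₁⟩⟩ (by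
      rintro C hC hCsub _ ⟨d, ⟨hd, hdH, hdfar⟩, rfl⟩ _ ⟨e, ⟨heH, hefar⟩, rfl⟩ hdC heC
      refine sep_rho hρ hXcl hTcl hTX hfr hGc hG2 (x := g e) (y := g d)
        (mem_image_of_mem _ heH) (fun h => hdH ?_) ?_ ?_ (Sep.joinedIn_of_preconn hopen hC
          (hGT ▸ hCsub) heC hdC)
      · rwa [hX, hgmem hHΛ (hinv.2 d hd).1, (hinv.2 d hd).2] at h
      · rintro _ ⟨y, hy, rfl⟩
        rw [hGg y hy]
        exact hefar y hy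
      · rintro _ ⟨y, hy, rfl⟩
        rw [hGg y hy]
        exact hdfar y hy)
  have hO : ∀ z ∈ Λ, z ∉ H → (∀ y ∈ F, ‖κ.toFun (y, 0) - g y‖ < ‖g y - g z‖) → g z ∈ A :=
    fun z hz hzH hfar => h1 (mem_image_of_mem g ⟨hz, hzH, hfar⟩)
  have hI : ∀ z ∈ H, (∀ y ∈ F, ‖κ.toFun (y, 0) - g y‖ < ‖g y - g z‖) → g z ∈ B :=
    fun z hz hfar => h2 (mem_image_of_mem g ⟨hz, hfar⟩)
  rcases hκAB with ⟨h3, h4⟩ | ⟨h3, h4⟩
  · refine ⟨A, B, 1, Or.inl rfl, hA, hB, hAB, hU, fun y hy t ht => ⟨?_, ?_⟩, hO, hI⟩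
    · rw [one_mul]
      exact h3 (mem_image_of_mem _ ⟨hy, ht⟩)
    · rw [one_mul]
      exact h4 (mem_image_of_mem _ ⟨hy, show -t ∈ Ico (-1:ℝ) 0 from
        ⟨by linarith [ht.2], by linarith [ht.1]⟩⟩)
  · refine ⟨A, B, -1, Or.inr rfl, hA, hB, hAB, hU, fun y hy t ht => ⟨?_, ?_⟩, hO, hI⟩
    · rw [neg_one_mul]
      exact h4 (mem_image_of_mem _ ⟨hy, show -t ∈ Ico (-1:ℝ) 0 from
        ⟨by linarith [ht.2], by linarith [ht.1]⟩⟩)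
    · rw [neg_one_mul, neg_neg]
      exact h3 (mem_image_of_mem _ ⟨hy, ht⟩)

end Vale.Agent.P073.PA285
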