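import Vale.Agent.P073.PA285.SpecMain
import Vale.Agent.P073.PA285.SpecAsm
import Vale.Agent.P073.PA285.SpecSides
import Vale.Agent.P073.PA260.SpecDisc
import Vale.Agent.P073.ALX.Alexander

/-!
# P073, block PA: the assembly theorem `SpecMain`, unconditional
-/

open Set Metric Topology Filter

namespace Vale.Agent.P073.PA285

open P073 P073.PA691

theorem specALX : P073.PA691.SpecALX := by
  intro S hS
  obtain ⟨Φ, hΦ⟩ := P073.ALX.specALX3 S hS
  refine ⟨Φ.symm, ?_⟩
  rw [← hΦ, image_image]
  have h : ∀ x ∈ S, Φ.symm.toFun (Φ.toFun x) = x := fun x _ => Φ.left_inv (mem_univ x)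
  rw [image_congr h, image_id']

/-- **(MAIN)**, unconditional -/
theorem specMain : P073.PA691.SpecMain :=
  specMainOf specALX (specASM specALX) specSides P073.PA260.specDisc

end Vale.Agent.P073.PA285
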