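import Vale.Agent.P073.PA285.SepR
import Vale.Agent.P073.PLS.Defs
import Vale.Agent.P073.PW86.PlaneSurf

/-!
# P073, block EXACT: the parametrised level surface meets the net exactly in `f⁻¹(F)`
-/

open Set Metric Topology Filter

namespace Vale.Agent.P073.PA285

open _root_.P073 _root_.P073.PLS Vale.Agent.P073.St

/-- Sign changes of `u` at its zeros on `[0,1]`, away from the end points. -/
def SignChange (u : ℝ → ℝ) : Prop :=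
  {s ∈ Icc (0:ℝ) 1 | u s = 0}.Finite ∧ ∀ s ∈ Icc (0:ℝ) 1, u s = 0 → 0 < s ∧ s < 1 ∧
    ∃ σ : ℝ, (σ = 1 ∨ σ = -1) ∧ (∀ᶠ τ in 𝓝[>] s, 0 < σ * u τ) ∧ ∀ᶠ τ in 𝓝[<] s, σ * u τ < 0

theorem SignChange.exists_interval {u : ℝ → ℝ} (h : SignChange u) {s : ℝ} (hs : s ∈ Icc (0:ℝ) 1)
    (hu : u s = 0) : ∃ τ₁ τ₂ : ℝ, 0 ≤ τ₁ ∧ τ₁ < s ∧ s < τ₂ ∧ τ₂ ≤ 1 ∧ u τ₁ * u τ₂ < 0 ∧
      ∀ τ ∈ Icc τ₁ τ₂, u τ = 0 → τ = s := by
  obtain ⟨h0, h1, σ, hσ, hr, hl⟩ := h.2 s hs hu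
  obtain ⟨b, hb, hb'⟩ := mem_nhdsGT_iff_exists_Ioc_subset.1 hr
  obtain ⟨a, ha, ha'⟩ := mem_nhdsLT_iff_exists_Ico_subset.1 hl
  have hb0 : s < b := hb
  have ha0 : a < s := ha
  refine ⟨max a 0, min b 1, le_max_right _ _, max_lt ha0 h0, lt_min hb0 h1, min_le_right _ _,
    ?_, ?_⟩
  · have h2 : 0 < σ * u (min b 1) := hb' ⟨lt_min hb0 h1, min_le_left _ _⟩
    have h3 : σ * u (max a 0) < 0 := ha' ⟨le_max_left _ _, max_lt ha0 h0⟩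
    rcases hσ with rfl | rfl <;> nlinarith
  · intro τ hτ h2
    rcases lt_trichotomy τ s with h3 | h3 | h3
    · have h4 : σ * u τ < 0 := ha' ⟨(le_max_left _ _).trans hτ.1, h3⟩
      rw [h2, mul_zero] at h4
      exact absurd h4 (lt_irrefl _)
    · exact h3
    · have h4 : 0 < σ * u τ := hb' ⟨h3, hτ.2.trans (min_le_left _ _)⟩
      rw [h2, mul_zero] at h4
      exact absurd h4 (lt_irrefl _)

theorem edge_mem_segment {Ω : Set V} (G : Net.Graph Ω) (i : G.ι) {s : ℝ} (hs : s ∈ Icc (0:ℝ) 1) :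
    G.e i s ∈ segment ℝ (G.a i) (G.b i) := by
  rw [segment_eq_image']
  exact ⟨s, hs, rfl⟩

theorem mem_segment_edge {Ω : Set V} (G : Net.Graph Ω) (i : G.ι) {x : V}
    (hx : x ∈ segment ℝ (G.a i) (G.b i)) : ∃ s ∈ Icc (0:ℝ) 1, x = G.e i s := by
  rw [segment_eq_image'] at hx
  obtain ⟨s, hs, rfl⟩ := hx
  exact ⟨s, hs, rfl⟩

theorem edge_injective {Ω : Set V} (G : Net.Graph Ω) (i : G.ι) : Function.Injective (G.e i) := by
  intro s s' h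
  have h1 : (s - s') • (G.b i - G.a i) = 0 := by
    rw [sub_smul, sub_eq_zero]
    exact add_left_cancel h
  rcases smul_eq_zero.1 h1 with h2 | h2
  · exact sub_eq_zero.1 h2
  · exact absurd (sub_eq_zero.1 h2).symm (G.ne i)

theorem edge_continuous {Ω : Set V} (G : Net.Graph Ω) (i : G.ι) : Continuous (G.e i) :=
  continuous_const.add (continuous_id.smul continuous_const)

/-- The crossings of the net with a good level. -/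
theorem _root_.P073.PLS.GoodLevel.signChange {Ω : Set V} {f : V → V} {φ : V → ℝ} {o : V} {t : ℝ}
    (h : GoodLevel Ω f φ o t) (G : Net.Graph Ω) (hG : ∀ i, G.a i ∈ Rat3 o ∧ G.b i ∈ Rat3 o)
    (i : G.ι) : SignChange fun s => φ (f (G.e i s)) - t := by
  constructor
  · have h1 := h.fin _ (hG i).1 _ (hG i).2 (G.sub i)
    refine (h1.preimage (f := G.e i) (edge_injective G i).injOn).subset ?_
    rintro s ⟨hs, hs2⟩
    exact ⟨edge_mem_segment G i hs, sub_eq_zero.1 hs2⟩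
  · intro s hs hs2
    have hs3 : φ (f (G.e i s)) = t := sub_eq_zero.1 hs2
    have h0 : s ≠ 0 := by
      rintro rfl
      have : G.e i 0 = G.a i := by simp [Net.Graph.e]
      rw [this] at hs3
      exact h.rat _ (hG i).1 (G.sub i (left_mem_segment ℝ _ _)) hs3
    have h1 : s ≠ 1 := by
      rintro rfl
      have : G.e i 1 = G.b i := by simp [Net.Graph.e]
      rw [this] at hs3
      exact h.rat _ (hG i).2 (G.sub i (right_mem_segment ℝ _ _)) hs3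
    have h2 : 0 < s := lt_of_le_of_ne hs.1 h0.symm
    have h3 : s < 1 := lt_of_le_of_ne hs.2 h1
    exact ⟨h2, h3, h.sign _ (hG i).1 _ (hG i).2 (G.sub i) s h2 h3 hs3⟩

/-- **EXACT**, main lemma: if `φ ∘ f - t` changes sign at its zeros on the edges of the net, then
a map `g : F → Ω`, `F = {φ = t}`, with `f ∘ g` close to the identity hits all zeros on the net,
provided that it meets the net only in zeros. -/
theorem exists_eps_exact {Ω Λ : Set V} (hΩ : IsOpen Ω) (hΛ : IsOpen Λ) {f : V → V}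
    (hf : IsHomeo Ω Λ f) {φ : V → ℝ} (hφ : ContinuousOn φ Λ) {t : ℝ} (G : Net.Graph Ω)
    (hG : ∀ i, SignChange fun s => φ (f (G.e i s)) - t) :
    ∃ ε : V → ℝ, Continuous ε ∧ (∀ z ∈ Λ, 0 < ε z) ∧
      ∀ g : V → V, ContinuousOn g {z ∈ Λ | φ z = t} → MapsTo g {z ∈ Λ | φ z = t} Ω →
        (∀ z ∈ Λ, φ z = t → ‖f (g z) - z‖ < ε z) →
        (∀ i, ∀ x ∈ segment ℝ (G.a i) (G.b i), x ∈ g '' {z ∈ Λ | φ z = t} → φ (f x) = t) →
        ∀ i, ∀ x ∈ segment ℝ (G.a i) (G.b i),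
          (x ∈ g '' {z ∈ Λ | φ z = t} ↔ φ (f x) = t) := by
  classical
  obtain ⟨fi, hinv, hfc, hfic⟩ := hf
  obtain ⟨ρ, hρ⟩ := exists_rho hΛ
  have hint : ∀ i s, ∃ p : ℝ × ℝ, s ∈ Icc (0:ℝ) 1 → φ (f (G.e i s)) = t →
      0 ≤ p.1 ∧ p.1 < s ∧ s < p.2 ∧ p.2 ≤ 1 ∧
      (φ (f (G.e i p.1)) - t) * (φ (f (G.e i p.2)) - t) < 0 ∧
      ∀ τ ∈ Icc p.1 p.2, φ (f (G.e i τ)) = t → τ = s := by
    intro i s
    by_cases h : s ∈ Icc (0:ℝ) 1 ∧ φ (f (G.e i s)) = t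
    · obtain ⟨τ₁, τ₂, h1, h2, h3, h4, h5, h6⟩ :=
        (hG i).exists_interval h.1 (sub_eq_zero.2 h.2)
      exact ⟨(τ₁, τ₂), fun _ _ => ⟨h1, h2, h3, h4, h5, fun τ hτ h7 =>
        h6 τ hτ (sub_eq_zero.2 h7)⟩⟩
    · exact ⟨(0, 0), fun h1 h2 => absurd ⟨h1, h2⟩ h⟩
  choose p hp using hint
  let C : G.ι → Set ℝ := fun i => {s ∈ Icc (0:ℝ) 1 | φ (f (G.e i s)) = t}
  have hCfin : ∀ i, (C i).Finite := fun i => by
    refine (hG i).1.subset ?_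
    rintro s ⟨hs, hs2⟩
    exact ⟨hs, sub_eq_zero.2 hs2⟩
  have hpI : ∀ i, ∀ s ∈ C i, (p i s).1 ∈ Icc (0:ℝ) 1 ∧ (p i s).2 ∈ Icc (0:ℝ) 1 := by
    intro i s hs
    obtain ⟨h1, h2, h3, h4, -, -⟩ := hp i s hs.1 hs.2
    exact ⟨⟨h1, by linarith [hs.1.2]⟩, ⟨by linarith [hs.1.1], h4⟩⟩
  let P : G.ι → Set V := fun i => ⋃ s ∈ C i, {G.e i (p i s).1, G.e i (p i s).2}
  have hPseg : ∀ i, P i ⊆ segment ℝ (G.a i) (G.b i) := by
    intro i x hx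
    obtain ⟨s, hs, hx⟩ := mem_iUnion₂.1 hx
    rcases hx with rfl | rfl
    · exact edge_mem_segment G i (hpI i s hs).1
    · exact edge_mem_segment G i (hpI i s hs).2
  have hPfin : ∀ i, (P i).Finite := fun i =>
    (hCfin i).biUnion fun s _ => (finite_singleton _).insert _
  let D : Set V := ⋃ i, f '' P i
  have hPφ : ∀ i, ∀ x ∈ P i, φ (f x) ≠ t := by
    intro i x hx h
    obtain ⟨s, hs, hx⟩ := mem_iUnion₂.1 hx
    obtain ⟨-, -, -, -, h5, -⟩ := hp i s hs.1 hs.2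
    rcases hx with rfl | rfl
    · rw [h, sub_self, zero_mul] at h5
      exact lt_irrefl _ h5
    · rw [h, sub_self, mul_zero] at h5
      exact lt_irrefl _ h5
  have hD : ∀ z ∈ Λ, ∃ U ∈ 𝓝 z, (D ∩ U).Finite := by
    intro z hz
    obtain ⟨K, hK, hKz, hKΩ⟩ := exists_compact_subset hΩ (hinv.2 z hz).1
    refine ⟨Λ ∩ fi ⁻¹' K, Filter.inter_mem (hΛ.mem_nhds hz)
      ((hfic.continuousAt (hΛ.mem_nhds hz)) (mem_interior_iff_mem_nhds.1 hKz)), ?_⟩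
    refine ((G.fin K hKΩ hK).biUnion fun i _ => (hPfin i).image f).subset ?_
    rintro w ⟨hwD, hwΛ, hwK⟩
    obtain ⟨i, x, hx, rfl⟩ := mem_iUnion.1 hwD
    have hxΩ : x ∈ Ω := G.sub i (hPseg i hx)
    have hxK : x ∈ K := by
      have : fi (f x) ∈ K := hwK
      rwa [(hinv.1 x hxΩ).2] at this
    exact mem_iUnion₂.2 ⟨i, ⟨x, hPseg i hx, hxK⟩, mem_image_of_mem _ hx⟩
  have hDF : Disjoint D {z ∈ Λ | φ z = t} := by
    rw [disjoint_left]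
    rintro w hw ⟨-, hw2⟩
    obtain ⟨i, x, hx, rfl⟩ := mem_iUnion.1 hw
    exact hPφ i x hx hw2
  have hFc : closure {z ∈ Λ | φ z = t} ∩ Λ ⊆ {z ∈ Λ | φ z = t} := by
    rintro z ⟨hz, hzΛ⟩
    refine ⟨hzΛ, ?_⟩
    by_contra hne
    have h1 : ∀ᶠ w in 𝓝 z, φ w ≠ t :=
      (hφ.continuousAt (hΛ.mem_nhds hzΛ)).eventually_ne hne
    obtain ⟨w, hw1, hw2⟩ := mem_closure_iff_nhds.1 hz _ h1
    exact hw1 hw2.2
  obtain ⟨ε, hεc, hεp, hε⟩ := exists_eps hρ hFc hD hDF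
  refine ⟨ε, hεc, hεp, ?_⟩
  intro g hgc hgm hgε honly i x hx
  refine ⟨honly i x hx, fun hxt => ?_⟩
  by_contra hxP
  obtain ⟨s, hs, rfl⟩ := mem_segment_edge G i hx
  have hsC : s ∈ C i := ⟨hs, hxt⟩
  obtain ⟨h1, h2, h3, h4, h5, h6⟩ := hp i s hs hxt
  have hsub : ∀ τ ∈ Icc (p i s).1 (p i s).2, τ ∈ Icc (0:ℝ) 1 := fun τ hτ =>
    ⟨h1.trans hτ.1, hτ.2.trans h4⟩
  have hsegΩ : ∀ τ ∈ Icc (p i s).1 (p i s).2, G.e i τ ∈ Ω := fun τ hτ =>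
    G.sub i (edge_mem_segment G i (hsub τ hτ))
  have hB : IsPreconnected ((fun τ => f (G.e i τ)) '' Icc (p i s).1 (p i s).2) :=
    isPreconnected_Icc.image _ (hfc.comp (edge_continuous G i).continuousOn hsegΩ)
  have hBΛ : (fun τ => f (G.e i τ)) '' Icc (p i s).1 (p i s).2 ⊆ Λ := by
    rintro _ ⟨τ, hτ, rfl⟩
    exact (hinv.1 _ (hsegΩ τ hτ)).1
  have hBG : Disjoint ((fun τ => f (G.e i τ)) '' Icc (p i s).1 (p i s).2)
      ((fun z => f (g z)) '' {z ∈ Λ | φ z = t}) := by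
    rw [disjoint_left]
    rintro _ ⟨τ, hτ, rfl⟩ ⟨z, hz, hzτ⟩
    have h7 : g z = G.e i τ := by
      have := congrArg fi hzτ
      simp only at this
      rwa [(hinv.1 _ (hgm hz)).2, (hinv.1 _ (hsegΩ τ hτ)).2] at this
    have h8 : φ (f (G.e i τ)) = t :=
      honly i _ (edge_mem_segment G i (hsub τ hτ)) ⟨z, hz, h7⟩
    have h9 := h6 τ hτ h8
    exact hxP (h9 ▸ ⟨z, hz, h7⟩)
  have hm1 : f (G.e i (p i s).1) ∈ (fun τ => f (G.e i τ)) '' Icc (p i s).1 (p i s).2 :=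
    ⟨_, ⟨le_rfl, (h2.trans h3).le⟩, rfl⟩
  have hm2 : f (G.e i (p i s).2) ∈ (fun τ => f (G.e i τ)) '' Icc (p i s).1 (p i s).2 :=
    ⟨_, ⟨(h2.trans h3).le, le_rfl⟩, rfl⟩
  have hd1 : f (G.e i (p i s).1) ∈ D := by
    refine mem_iUnion.2 ⟨i, mem_image_of_mem f (mem_iUnion₂.2 ⟨s, hsC, Or.inl rfl⟩)⟩
  have hd2 : f (G.e i (p i s).2) ∈ D := by
    refine mem_iUnion.2 ⟨i, mem_image_of_mem f (mem_iUnion₂.2 ⟨s, hsC, Or.inr rfl⟩)⟩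
  have hGc : ContinuousOn (fun z => f (g z)) {z ∈ Λ | φ z = t} := hfc.comp hgc hgm
  have hG2 : ∀ z ∈ Λ, φ z = t → 2 * ‖f (g z) - z‖ ≤ ρ z := fun z hz hzt => by
    have h7 := hgε z hz hzt
    have h8 := (hε z ⟨hz, hzt⟩).1
    linarith
  have hGd : ∀ d ∈ D, ∀ z ∈ Λ, φ z = t → ‖f (g z) - z‖ < ‖z - d‖ := fun d hd z hz hzt =>
    (hgε z hz hzt).trans_le ((hε z ⟨hz, hzt⟩).2 d hd)
  rcases mul_neg_iff.1 h5 with ⟨h7, h8⟩ | ⟨h7, h8⟩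
  · exact sep_level hΛ hρ hφ hGc hG2 (hBΛ hm2) (sub_neg.1 h8) (sub_pos.1 h7)
      (hGd _ hd2) (hGd _ hd1) hB hBΛ hBG hm2 hm1
  · exact sep_level hΛ hρ hφ hGc hG2 (hBΛ hm1) (sub_neg.1 h7) (sub_pos.1 h8)
      (hGd _ hd1) (hGd _ hd2) hB hBΛ hBG hm1 hm2

/-- **PLS, exact form**: the surface meets the net exactly in `f⁻¹(F)`. -/
def SpecPLSX : Prop :=
  ∀ (Ω Λ : Set V) (f : V → V) (o : V) (φ : V → ℝ) (t : ℝ), IsOpen Ω → IsOpen Λ →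
    IsHomeo Ω Λ f → GoodLevel Ω f φ o t → Surf Ω Λ f φ o t →
    ∀ G : Net.Graph Ω, (∀ i, G.a i ∈ Rat3 o ∧ G.b i ∈ Rat3 o) →
    ∀ ε : V → ℝ, ContinuousOn ε Λ → (∀ z ∈ Λ, 0 < ε z) →
    ∃ (P : Set V) (g : ConHomeo {z ∈ Λ | φ z = t} P), P ⊆ Ω ∧
      (∀ z ∈ Λ, φ z = t → ‖f (g.toFun z) - z‖ < ε z) ∧
      ∀ i, ∀ x ∈ segment ℝ (G.a i) (G.b i), (x ∈ P ↔ φ (f x) = t)

/-- **EXACT** -/
theorem specPLSX (h : SpecPLS) : SpecPLSX := by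
  intro Ω Λ f o φ t hΩ hΛ hf hgl hS G hG ε hε hεp
  obtain ⟨ε₁, hε₁, hε₁p, hex⟩ := exists_eps_exact hΩ hΛ hf hS.contφ G fun i =>
    hgl.signChange G hG i
  obtain ⟨P, g, hPΩ, hg, hP⟩ := h Ω Λ f o φ t hΩ hΛ hf hgl hS G hG
    (fun z => min (ε z) (ε₁ z)) (continuous_min.comp_continuousOn (hε.prodMk hε₁.continuousOn))
    (fun z hz => lt_min (hεp z hz) (hε₁p z hz))
  refine ⟨P, g, hPΩ, fun z hz hzt => (hg z hz hzt).trans_le (min_le_left _ _), ?_⟩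
  have := hex g.toFun g.cont (fun z hz => hPΩ (g.mapsTo hz))
    (fun z hz hzt => (hg z hz hzt).trans_le (min_le_right _ _))
    (fun i x hx hxP => hP i x (by rwa [g.image_eq] at hxP) hx)
  intro i x hx
  rw [← this i x hx, g.image_eq]

/-- **(P-R), exact form**: parametrised pieces of `f⁻¹(F)` which meet the net exactly in
`f⁻¹(Q)`. -/
theorem piece_plsX (hPLS : SpecPLS) {Ω Λ : Set V} {f : V → V} {o : V} {φ : V → ℝ} {t : ℝ}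
    (hΩ : IsOpen Ω) (hΛ : IsOpen Λ) (hf : IsHomeo Ω Λ f)
    (hG : GoodLevel Ω f φ o t) (hS : Surf Ω Λ f φ o t) (G : Net.Graph Ω)
    (hrat : ∀ i, G.a i ∈ Rat3 o ∧ G.b i ∈ Rat3 o) {Q : Set V} (hQ : IsCompact Q)
    (hQc : ConicalSet Q) (hQF : Q ⊆ {z ∈ Λ | φ z = t})
    (hQint : ∀ i, ∀ x ∈ segment ℝ (G.a i) (G.b i), f x ∈ Q →
      ∀ᶠ z in 𝓝[{z ∈ Λ | φ z = t}] (f x), z ∈ Q)
    {ε : ℝ} (hε : 0 < ε) :
    ∃ (D : Set V) (g : ConHomeo Q D), D ⊆ Ω ∧ (∀ z ∈ Q, ‖f (g.toFun z) - z‖ < ε) ∧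
      ∀ i, ∀ x ∈ segment ℝ (G.a i) (G.b i), (x ∈ D ↔ f x ∈ Q) := by
  obtain ⟨h, hinv, hfc, hhc⟩ := hf
  obtain ⟨η, hη, hmar⟩ :=
    PW86.exists_margin hΛ hinv hhc hG G hrat hQ (fun z hz => (hQF hz).1)
  -- the inner margin
  obtain ⟨η', hη', hmar'⟩ : ∃ η' > 0, ∀ i, ∀ x ∈ segment ℝ (G.a i) (G.b i), f x ∈ Q →
      ∀ z ∈ Λ, φ z = t → ‖f x - z‖ < η' → z ∈ Q := by
    have hfin := PW86.finite_cross hinv hhc hG G hrat hQ (fun z hz => (hQF hz).1)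
    set Z := {z ∈ Q | φ z = t ∧ ∃ i, h z ∈ segment ℝ (G.a i) (G.b i)} with hZ
    have hr : ∀ y ∈ Z, ∃ r > 0, ∀ z ∈ Λ, φ z = t → ‖y - z‖ < r → z ∈ Q := by
      rintro y ⟨hyQ, hyt, i, hi⟩
      have hyΛ := (hQF hyQ).1
      have h1 := hQint i (h y) hi (by rwa [(hinv.2 y hyΛ).2])
      rw [(hinv.2 y hyΛ).2] at h1
      obtain ⟨r, hr, hr'⟩ := Metric.mem_nhdsWithin_iff.1 h1
      refine ⟨r, hr, fun z hz hzt hzr => hr' ⟨?_, hz, hzt⟩⟩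
      rw [mem_ball, dist_comm, dist_eq_norm]
      exact hzr
    choose! r hr0 hr using hr
    have : ∃ η' > 0, ∀ y ∈ Z, η' ≤ r y := by
      rcases Z.eq_empty_or_nonempty with h0 | h0
      · exact ⟨1, one_pos, fun y hy => by rw [h0] at hy; exact absurd hy (notMem_empty y)⟩
      · obtain ⟨y0, hy0, hmin⟩ := hfin.exists_minimalFor r Z h0
        refine ⟨r y0, hr0 y0 hy0, fun y hy => ?_⟩
        rcases le_total (r y) (r y0) with h2 | h2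
        · exact hmin hy h2
        · exact h2
    obtain ⟨η', hη', hle⟩ := this
    refine ⟨η', hη', fun i x hx hxQ z hz hzt hxz => ?_⟩
    have hxZ : f x ∈ Z := ⟨hxQ, (hQF hxQ).2, i, by rwa [(hinv.1 x (G.sub i hx)).2]⟩
    exact hr _ hxZ z hz hzt (hxz.trans_le (hle _ hxZ))
  obtain ⟨P, g, hPΩ, hclose, hcross⟩ := specPLSX hPLS Ω Λ f o φ t hΩ hΛ ⟨h, hinv, hfc, hhc⟩ hG
    hS G hrat (fun _ => min ε (min η η')) continuousOn_const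
    (fun _ _ => lt_min hε (lt_min hη hη'))
  refine ⟨_, g.restr hQc hQF, ?_, ?_, ?_⟩
  · rintro _ ⟨z, hz, rfl⟩
    exact hPΩ (g.mapsTo (hQF hz))
  · intro z hz
    exact (hclose z (hQF hz).1 (hQF hz).2).trans_le (min_le_left _ _)
  · intro i x hi
    constructor
    · rintro ⟨z, hz, rfl⟩
      have h1 : g.toFun z ∈ P := g.mapsTo (hQF hz)
      exact hmar _ (hPΩ h1) ((hcross i _ hi).1 h1) ⟨i, hi⟩
        ⟨z, hz, (hclose z (hQF hz).1 (hQF hz).2).trans_le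
          ((min_le_right _ _).trans (min_le_left _ _))⟩
    · intro hxQ
      have h1 : x ∈ P := (hcross i x hi).2 (hQF hxQ).2
      rw [← g.image_eq] at h1
      obtain ⟨z, hz, rfl⟩ := h1
      refine mem_image_of_mem _ (hmar' i _ hi hxQ z hz.1 hz.2 ?_)
      exact (hclose z hz.1 hz.2).trans_le ((min_le_right _ _).trans (min_le_right _ _))

/-- **(P-R)**, flat pieces of a good coordinate plane, exact form. -/
theorem plane_plsX (hPLS : SpecPLS) {Ω Λ : Set V} {f : V → V} {o : V} {k : Fin 3} {c : ℝ}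
    (hΩ : IsOpen Ω) (hΛ : IsOpen Λ) (hf : IsHomeo Ω Λ f)
    (hG : GoodLevel Ω f (fun z => z k) o c) (G : Net.Graph Ω)
    (hrat : ∀ i, G.a i ∈ Rat3 o ∧ G.b i ∈ Rat3 o) {Q : Set V} (hQ : IsCompact Q)
    (hQc : ConicalSet Q) (hQΛ : Q ⊆ Λ) (hQk : ∀ z ∈ Q, z k = c)
    (hQint : ∀ i, ∀ x ∈ segment ℝ (G.a i) (G.b i), f x ∈ Q → ∃ r > 0, ∀ z : V, z k = c →
      ‖z - f x‖ < r → z ∈ Q)
    {ε : ℝ} (hε : 0 < ε) :
    ∃ (D : Set V) (g : ConHomeo Q D), D ⊆ Ω ∧ (∀ z ∈ Q, ‖f (g.toFun z) - z‖ < ε) ∧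
      ∀ i, ∀ x ∈ segment ℝ (G.a i) (G.b i), (x ∈ D ↔ f x ∈ Q) :=
  piece_plsX hPLS hΩ hΛ hf hG (PW86.surf_plane hΛ f o k c) G hrat hQ hQc
    (fun z hz => ⟨hQΛ hz, hQk z hz⟩) (by
      intro i x hx hxQ
      obtain ⟨r, hr, h⟩ := hQint i x hx hxQ
      refine Metric.mem_nhdsWithin_iff.2 ⟨r, hr, ?_⟩
      rintro z ⟨hz, -, hzk⟩
      refine h z hzk ?_
      rw [← dist_eq_norm]
      exact hz) hε

end Vale.Agent.P073.PA285
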