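import Vale.Agent.P073.PA285.HSize

/-!
# P073, block MAIN: the collars of the discs
-/

open Set Metric Topology Filter

namespace Vale.Agent.P073.PA285

open _root_.P073 _root_.P073.PA691 _root_.P073.PR720 Vale.Agent.P073.St

theorem conSet_prod {E F : Type*} [NormedAddCommGroup E] [NormedSpace ℝ E]
    [NormedAddCommGroup F] [NormedSpace ℝ F] {X : Set E} {T : Set F} (hX : ConicalSet X)
    (hT : ConicalSet T) : ConicalSet (X ×ˢ T) := by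
  rintro ⟨x, s⟩ ⟨hx, hs⟩
  obtain ⟨r, hr, h1⟩ := hX x hx
  obtain ⟨r', hr', h2⟩ := hT s hs
  refine ⟨min r r', lt_min hr hr', ?_⟩
  rintro ⟨v, w⟩ hv ⟨hxv, hsw⟩ t ht
  have hv1 : ‖v‖ ≤ min r r' := (norm_fst_le (v, w)).trans hv
  have hv2 : ‖w‖ ≤ min r r' := (norm_snd_le (v, w)).trans hv
  exact ⟨h1 v (hv1.trans (min_le_left _ _)) hxv t ht, h2 w (hv2.trans (min_le_right _ _)) hsw t ht⟩

theorem conSet_fst {E F : Type*} [NormedAddCommGroup E] [NormedSpace ℝ E]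
    [NormedAddCommGroup F] [NormedSpace ℝ F] {X : Set E} {T : Set F} {s : F} (hs : s ∈ T)
    (h : ConicalSet (X ×ˢ T)) : ConicalSet X := by
  intro x hx
  obtain ⟨r, hr, h1⟩ := h (x, s) ⟨hx, hs⟩
  refine ⟨r, hr, fun v hv hxv t ht => ?_⟩
  have h2 := h1 (v, 0) (by
    rw [Prod.norm_mk, norm_zero, max_eq_left (norm_nonneg _)]; exact hv)
    (by
      show x + v ∈ X ∧ s + 0 ∈ T
      rw [add_zero]; exact ⟨hxv, hs⟩) t ht
  exact h2.1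

variable {Λ : Set V} (S : Handle Λ)

theorem annpt_mem (d : S.D) {l : ℝ} (hl : 0 < l) (hl1 : l ≤ 1) {u : P2} (hu : u ∈ S.ζ d) {τ : ℝ}
    (hτ : τ ∈ Icc (-1:ℝ) 1) : S.ι d u + (l * τ) • S.n d ∈ S.F := by
  refine S.Ann_sub d u hu _ ?_
  rw [mem_Icc, ← abs_le, abs_mul, abs_of_pos hl]
  have h2 : |τ| ≤ 1 := abs_le.2 hτ
  nlinarith [abs_nonneg τ]

/-- the collar of the disc `d` -/
theorem exists_K (d : S.D) {l : ℝ} (hl : 0 < l) (hl1 : l ≤ 1) {N : Set V}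
    (κ : ConHomeo (S.F ×ˢ Icc (-1:ℝ) 1) N) (σ : ℝ) (hσ : σ = 1 ∨ σ = -1)
    (z : ConHomeo S1 (S.ζ d)) :
    ∃ (N' : Set V) (K : ConHomeo (S1 ×ˢ (Icc (-1:ℝ) 1 ×ˢ Icc (-1:ℝ) 1)) N'), N' ⊆ N ∧
      ∀ p, K.toFun p = κ.toFun (S.ι d (z.toFun p.1) + (l * p.2.1) • S.n d, σ * p.2.2) := by
  set X : Set (P2 × ℝ × ℝ) := S1 ×ˢ (Icc (-1:ℝ) 1 ×ˢ Icc (-1:ℝ) 1) with hX
  let A : P2 × ℝ × ℝ → V × ℝ := fun p =>
    (S.ι d (z.toFun p.1) + (l * p.2.1) • S.n d, σ * p.2.2)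
  have hσ1 : |σ| = 1 := by rcases hσ with rfl | rfl <;> norm_num
  have hXc : ConicalSet X := conSet_prod (conicalSet_sphere_pi 2)
    (conSet_prod (convex_Icc _ _).conicalSet (convex_Icc _ _).conicalSet)
  have hA : MapsTo A X (S.F ×ˢ Icc (-1:ℝ) 1) := by
    rintro ⟨θ, τ, t⟩ ⟨hθ, hτ, ht⟩
    refine ⟨annpt_mem S d hl hl1 (z.mapsTo hθ) hτ, ?_⟩
    show σ * t ∈ Icc (-1:ℝ) 1
    rw [mem_Icc, ← abs_le, abs_mul, hσ1, one_mul]
    exact abs_le.2 ht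
  have hAc : ContinuousOn A X := by
    have h1 : ContinuousOn (fun p : P2 × ℝ × ℝ => z.toFun p.1) X :=
      z.cont.comp continuous_fst.continuousOn fun p hp => hp.1
    have h2 : ContinuousOn (fun p : P2 × ℝ × ℝ => S.ι d (z.toFun p.1)) X :=
      (S.ι d).continuous.comp_continuousOn h1
    have h3 : Continuous (fun p : P2 × ℝ × ℝ => (l * p.2.1) • S.n d) :=
      (continuous_const.mul (continuous_fst.comp continuous_snd)).smul continuous_const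
    have h4 : Continuous (fun p : P2 × ℝ × ℝ => σ * p.2.2) :=
      continuous_const.mul (continuous_snd.comp continuous_snd)
    exact (h2.add h3.continuousOn).prodMk h4.continuousOn
  have hAcon : ConicalOn A X := by
    have h1 : ConicalOn (fun p : P2 × ℝ × ℝ => z.toFun p.1) X :=
      z.conical.comp (conicalOn_linear (LinearMap.fst ℝ P2 (ℝ × ℝ)) hXc) (fun p hp => hp.1)
        continuous_fst.continuousOn
    have h1c : ContinuousOn (fun p : P2 × ℝ × ℝ => z.toFun p.1) X :=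
      z.cont.comp continuous_fst.continuousOn fun p hp => hp.1
    have h2 : ConicalOn (fun p : P2 × ℝ × ℝ => S.ι d (z.toFun p.1)) X :=
      (conicalOn_of_affine (S.ι d).toAffineMap (convex_univ).conicalSet).comp h1
        (mapsTo_univ _ _) h1c
    have h3 : ConicalOn (fun p : P2 × ℝ × ℝ => (l * p.2.1) • S.n d) X := by
      let L : P2 × ℝ × ℝ →ₗ[ℝ] V :=
        { toFun := fun p => (l * p.2.1) • S.n d
          map_add' := fun p q => by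
            simp only [Prod.snd_add, Prod.fst_add, mul_add, add_smul]
          map_smul' := fun c p => by
            simp only [Prod.smul_snd, Prod.smul_fst, smul_eq_mul, RingHom.id_apply, smul_smul]
            congr 1; ring }
      exact conicalOn_linear L hXc
    have h4 : ConicalOn (fun p : P2 × ℝ × ℝ => σ * p.2.2) X := by
      let L : P2 × ℝ × ℝ →ₗ[ℝ] ℝ :=
        { toFun := fun p => σ * p.2.2
          map_add' := fun p q => by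
            simp only [Prod.snd_add, mul_add]
          map_smul' := fun c p => by
            simp only [Prod.smul_snd, smul_eq_mul, RingHom.id_apply]
            ring }
      exact conicalOn_linear L hXc
    exact (h2.add h3).prodMk h4
  have hAinj : InjOn A X := by
    rintro ⟨θ, τ, t⟩ ⟨hθ, hτ, ht⟩ ⟨θ', τ', t'⟩ ⟨hθ', hτ', ht'⟩ h
    have h1 : S.ι d (z.toFun θ) + (l * τ) • S.n d = S.ι d (z.toFun θ') + (l * τ') • S.n d :=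
      congrArg Prod.fst h
    have h2 : σ * t = σ * t' := congrArg Prod.snd h
    have hσ0 : σ ≠ 0 := by rcases hσ with rfl | rfl <;> norm_num
    have h3 : t = t' := mul_left_cancel₀ hσ0 h2
    have h4 : S.ι d (z.toFun θ) + (l * τ - l * τ') • S.n d = S.ι d (z.toFun θ') := by
      rw [sub_smul, ← add_sub_assoc, h1]; abel
    obtain ⟨h5, h6⟩ := S.n_ind d _ _ _ h4
    have h7 : τ = τ' := mul_left_cancel₀ hl.ne' (sub_eq_zero.1 h5)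
    have h8 : θ = θ' := z.injOn hθ hθ' h6
    rw [h3, h7, h8]
  have hXcomp : IsCompact X := (isCompact_sphere _ _).prod (isCompact_Icc.prod isCompact_Icc)
  have hf : ContinuousOn (κ.toFun ∘ A) X := κ.cont.comp hAc hA
  have hi : InjOn (κ.toFun ∘ A) X := κ.injOn.comp hAinj hA
  have hc : ConicalOn (κ.toFun ∘ A) X := κ.conical.comp hAcon hA hAc
  refine ⟨(κ.toFun ∘ A) '' X, ConHomeo.ofCompact hXcomp (κ.toFun ∘ A) hf hi hc rfl, ?_, ?_⟩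
  · rintro _ ⟨p, hp, rfl⟩
    exact κ.mapsTo (hA hp)
  · intro p
    rw [ConHomeo.ofCompact_toFun]; rfl

/-- openness of the collar of the disc -/
theorem K_open (d : S.D) {l : ℝ} (hl : 0 < l) (hl1 : l ≤ 1) {N : Set V}
    (κ : ConHomeo (S.F ×ˢ Icc (-1:ℝ) 1) N) (hκo : IsOpen (κ.toFun '' (S.F ×ˢ Ioo (-1:ℝ) 1)))
    (σ : ℝ) (hσ : σ = 1 ∨ σ = -1) (z : ConHomeo S1 (S.ζ d)) {N' : Set V}
    (K : ConHomeo (S1 ×ˢ (Icc (-1:ℝ) 1 ×ˢ Icc (-1:ℝ) 1)) N')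
    (hK : ∀ p, K.toFun p = κ.toFun (S.ι d (z.toFun p.1) + (l * p.2.1) • S.n d, σ * p.2.2)) :
    IsOpen (K.toFun '' (S1 ×ˢ (Ioo (-1:ℝ) 1 ×ˢ Ioo (-1:ℝ) 1))) := by
  obtain ⟨U, hU, hUF⟩ := ann_open S d hl hl1
  have hσσ : σ * σ = 1 := by rcases hσ with rfl | rfl <;> norm_num
  have hσI : ∀ t ∈ Ioo (-1:ℝ) 1, σ * t ∈ Ioo (-1:ℝ) 1 := by
    intro t ht
    rcases hσ with rfl | rfl
    · rwa [one_mul]
    · exact ⟨by linarith [ht.2], by linarith [ht.1]⟩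
  have h1 : K.toFun '' (S1 ×ˢ (Ioo (-1:ℝ) 1 ×ˢ Ioo (-1:ℝ) 1)) =
      κ.toFun '' (S.F ×ˢ Ioo (-1:ℝ) 1) ∩ κ.invFun ⁻¹' (U ×ˢ univ) := by
    ext x
    constructor
    · rintro ⟨⟨θ, τ, t⟩, ⟨hθ, hτ, ht⟩, rfl⟩
      rw [hK]
      have h2 : S.ι d (z.toFun θ) + (l * τ) • S.n d ∈ U ∩ S.F := by
        rw [hUF]; exact ⟨z.toFun θ, z.mapsTo hθ, τ, hτ, rfl⟩
      refine ⟨mem_image_of_mem _ ⟨h2.2, hσI t ht⟩, ?_⟩
      show κ.invFun (κ.toFun (S.ι d (z.toFun θ) + (l * τ) • S.n d, σ * t)) ∈ U ×ˢ (univ : Set ℝ)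
      rw [κ.left_inv ⟨h2.2, Ioo_subset_Icc_self (hσI t ht)⟩]
      exact ⟨h2.1, mem_univ _⟩
    · rintro ⟨⟨⟨w, t⟩, ⟨hw, ht⟩, rfl⟩, hx⟩
      have h3 : κ.invFun (κ.toFun (w, t)) ∈ U ×ˢ (univ : Set ℝ) := hx
      rw [κ.left_inv ⟨hw, Ioo_subset_Icc_self ht⟩] at h3
      have h4 : w ∈ U ∩ S.F := ⟨h3.1, hw⟩
      rw [hUF] at h4
      obtain ⟨u, hu, τ, hτ, rfl⟩ := h4
      refine ⟨(z.invFun u, τ, σ * t), ⟨z.mapsTo_inv hu, hτ, hσI t ht⟩, ?_⟩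
      rw [hK]
      show κ.toFun (S.ι d (z.toFun (z.invFun u)) + (l * τ) • S.n d, σ * (σ * t)) = _
      rw [z.right_inv hu, ← mul_assoc, hσσ, one_mul]
  rw [h1]
  refine ContinuousOn.isOpen_inter_preimage (κ.cont_inv.mono ?_) hκo (hU.prod isOpen_univ)
  rintro _ ⟨p, hp, rfl⟩
  exact κ.mapsTo ⟨hp.1, Ioo_subset_Icc_self hp.2⟩

theorem K_base (d : S.D) {l : ℝ} {N : Set V}
    (κ : ConHomeo (S.F ×ˢ Icc (-1:ℝ) 1) N)
    (σ : ℝ) (z : ConHomeo S1 (S.ζ d)) {N' : Set V}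
    (K : ConHomeo (S1 ×ˢ (Icc (-1:ℝ) 1 ×ˢ Icc (-1:ℝ) 1)) N')
    (hK : ∀ p, K.toFun p = κ.toFun (S.ι d (z.toFun p.1) + (l * p.2.1) • S.n d, σ * p.2.2)) :
    K.toFun '' (S1 ×ˢ ({0} ×ˢ {0})) = (fun y => κ.toFun (y, 0)) '' (S.ι d '' S.ζ d) := by
  ext x
  constructor
  · rintro ⟨⟨θ, τ, t⟩, ⟨hθ, hτ, ht⟩, rfl⟩
    have h1 : τ = 0 := hτ
    have h2 : t = 0 := ht
    subst h1 h2
    refine ⟨_, mem_image_of_mem _ (z.mapsTo hθ), ?_⟩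
    rw [hK]
    simp
  · rintro ⟨_, ⟨u, hu, rfl⟩, rfl⟩
    refine ⟨(z.invFun u, 0, 0), ⟨z.mapsTo_inv hu, rfl, rfl⟩, ?_⟩
    rw [hK]
    simp [z.right_inv hu]

/-- a point of the collar which is on the rectangle copy -/
theorem disc_close {f : V → V} (d : S.D) {s : ℝ} {N : Set V}
    (κ : ConHomeo (S.F ×ˢ Icc (-1:ℝ) 1) N) {ε : V → ℝ} (hlip : ∀ x y, ε x ≤ ε y + ‖x - y‖ / 2)
    (hεs : ∀ y ∈ S.ι d '' Q0, ε y ≤ s / 4)
    (hκε : ∀ y ∈ S.F, ∀ t ∈ Icc (-1:ℝ) 1, ‖f (κ.toFun (y, t)) - y‖ ≤ ε y)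
    {γ : P2 → V} {δ : ℝ} (hγ : ∀ y ∈ Q0, ‖f (γ y) - S.ι d y‖ ≤ δ) (hδ : δ ≤ s / 4)
    {y : P2} (hy : y ∈ Q0) {w : V} (hw : w ∈ S.F) {t : ℝ} (ht : t ∈ Icc (-1:ℝ) 1)
    (h : γ y = κ.toFun (w, t)) : ‖w - S.ι d y‖ ≤ s := by
  have h1 := hκε w hw t ht
  have h2 := hγ y hy
  rw [h] at h2
  have h3 := hlip w (S.ι d y)
  have h4 := hεs _ (mem_image_of_mem _ hy)
  have h5 : ‖w - S.ι d y‖ ≤ ‖f (κ.toFun (w, t)) - w‖ + ‖f (κ.toFun (w, t)) - S.ι d y‖ := by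
    have := norm_sub_le (f (κ.toFun (w, t)) - S.ι d y) (f (κ.toFun (w, t)) - w)
    rw [sub_sub_sub_cancel_left] at this
    linarith
  linarith

/-- **The disc lemma applied to the disc `d`.** -/
theorem disc_core (hDisc : SpecDisc) {Ω : Set V} {f g : V → V} (hinv : IsInv Ω Λ f g)
    (d : S.D) {P Z : Set V} {m l s a β : ℝ} {M : Set P2} (hd : DConst S P d m l s a β M)
    {N : Set V} (κ : ConHomeo (S.F ×ˢ Icc (-1:ℝ) 1) N)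
    (hκo : IsOpen (κ.toFun '' (S.F ×ˢ Ioo (-1:ℝ) 1)))
    {ε : V → ℝ} (hlip : ∀ x y, ε x ≤ ε y + ‖x - y‖ / 2) (hεs : ∀ y ∈ S.ι d '' Q0, ε y ≤ s / 4)
    (hκε : ∀ y ∈ S.F, ∀ t ∈ Icc (-1:ℝ) 1, ‖f (κ.toFun (y, t)) - y‖ ≤ ε y)
    {O I : Set V} {σ : ℝ} (hσ : σ = 1 ∨ σ = -1) (hO : IsOpen O) (hI : IsOpen I)
    (hOI : Disjoint O I) (hU : O ∪ I = Ω \ κ.toFun '' (S.F ×ˢ {0}))
    (hside : ∀ y ∈ S.F, ∀ t ∈ Ioc (0:ℝ) 1, κ.toFun (y, σ * t) ∈ O ∧ κ.toFun (y, -(σ * t)) ∈ I)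
    (hA : ∀ z ∈ sideA S d, z ∈ Z → g z ∈ O) (hB : ∀ z ∈ sideB S d, z ∈ Z → g z ∈ I)
    (hZ0 : ∀ z, ‖z - S.ι d 0‖ ≤ a → z ∈ Z) (hZ1 : ∀ y ∈ S1, ∀ z, ‖z - S.ι d y‖ ≤ a → z ∈ Z)
    {D₀ : Set V} (γ : ConHomeo Q0 D₀) (hD₀ : D₀ ⊆ Ω) {δ : ℝ}
    (hγ : ∀ y ∈ Q0, ‖f (γ.toFun y) - S.ι d y‖ ≤ δ) (hδs : δ ≤ s / 4) (hδa : δ ≤ a) :
    ∃ D : Set V, ConBall 2 D ((fun y => κ.toFun (y, 0)) '' (S.ι d '' S.ζ d)) ∧
      D \ (fun y => κ.toFun (y, 0)) '' (S.ι d '' S.ζ d) ⊆ O ∧ D ⊆ D₀ ∪ N ∧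
      (∀ x ∈ D, ∃ y ∈ Q0, ‖f x - S.ι d y‖ ≤ m) ∧ γ.toFun '' M ⊆ D ∧
      ∀ y ∈ M, γ.toFun y ∉ N := by
  obtain ⟨z0⟩ := (S.Δ_ball d).conSphere
  let z : ConHomeo S1 (S.ζ d) := z0.symm
  obtain ⟨N', K, hN'N, hK⟩ := exists_K S d hd.l_pos hd.l_le κ σ hσ z
  have hKo := K_open S d hd.l_pos hd.l_le κ hκo σ hσ z K hK
  have hKb := K_base S d κ σ z K hK
  have hann : ∀ θ ∈ S1, ∀ τ ∈ Icc (-1:ℝ) 1, S.ι d (z.toFun θ) + (l * τ) • S.n d ∈ S.F :=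
    fun θ hθ τ hτ => annpt_mem S d hd.l_pos hd.l_le (z.mapsTo hθ) hτ
  have hσI : ∀ t ∈ Icc (-1:ℝ) 1, σ * t ∈ Icc (-1:ℝ) 1 := by
    intro t ht
    rcases hσ with rfl | rfl
    · rwa [one_mul]
    · exact ⟨by linarith [ht.2], by linarith [ht.1]⟩
  have hclose : ∀ y ∈ Q0, ∀ w ∈ S.F, ∀ t ∈ Icc (-1:ℝ) 1, γ.toFun y = κ.toFun (w, t) →
      ‖w - S.ι d y‖ ≤ s := fun y hy w hw t ht h =>
    disc_close S d κ hlip hεs hκε hγ hδs hy hw ht h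
  have hγΩ : ∀ y ∈ Q0, γ.toFun y ∈ Ω := fun y hy => hD₀ (γ.mapsTo hy)
  have hγfar : ∀ y ∈ M, γ.toFun y ∉ N := by
    intro y hy hN
    have hyQ := Δ_subQ S d (hd.M_sub hy).1
    have h1 := κ.mapsTo_inv hN
    have h2 : γ.toFun y = κ.toFun ((κ.invFun (γ.toFun y)).1, (κ.invFun (γ.toFun y)).2) :=
      (κ.right_inv hN).symm
    have h3 := hclose y hyQ _ h1.1 _ h1.2 h2
    have h4 := hd.far y hy _ h1.1
    linarith
  have hgf : ∀ y ∈ Q0, g (f (γ.toFun y)) = γ.toFun y := fun y hy => (hinv.1 _ (hγΩ y hy)).2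
  have h0O : γ.toFun 0 ∈ O := by
    rw [← hgf 0 zero_memQ]
    have h1 := (hγ 0 zero_memQ).trans hδa
    exact hA _ (hd.cen _ h1) (hZ0 _ h1)
  have hS1I : ∀ y ∈ S1, γ.toFun y ∈ I := by
    intro y hy
    have hyQ : y ∈ Q0 := sphere_subset_closedBall hy
    rw [← hgf y hyQ]
    have h1 := (hγ y hyQ).trans hδa
    exact hB _ (hd.bdr y hy _ h1) (hZ1 y hy _ h1)
  obtain ⟨D, hD1, hD2, hD3, hD4⟩ := hDisc O I N' D₀ K γ (S.ζ d) (S.Δ d) z hO hI hOI hKo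
    (by
      intro θ hθ τ hτ t ht
      rw [hK]
      exact (hside _ (hann θ hθ τ hτ) t ht).1)
    (by
      intro θ hθ τ hτ t ht
      rw [hK]
      have h1 := (hside _ (hann θ hθ τ hτ) (-t) ⟨by linarith [ht.2], by linarith [ht.1]⟩).2
      rwa [mul_neg, neg_neg] at h1)
    (S.Δ_ball d) (S.Δ_sub d) (S.zero_mem d).1 (S.zero_mem d).2
    (by
      intro y hy
      by_cases h1 : γ.toFun y ∈ κ.toFun '' (S.F ×ˢ {0})
      · right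
        obtain ⟨⟨w, t⟩, ⟨hw, ht⟩, h2⟩ := h1
        have ht0 : t = 0 := ht
        subst ht0
        have h3 := hclose y hy w hw 0 ⟨by norm_num, by norm_num⟩ h2.symm
        obtain ⟨u, hu, τ, hτ, rfl⟩ := hd.near w hw y hy h3
        refine ⟨(z.invFun u, τ, 0), ⟨z.mapsTo_inv hu, hτ, rfl⟩, ?_⟩
        rw [hK]
        show κ.toFun (S.ι d (z.toFun (z.invFun u)) + (l * τ) • S.n d, σ * 0) = _
        rw [z.right_inv hu, mul_zero, h2]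
      · left
        rw [hU]
        exact ⟨hγΩ y hy, h1⟩)
    (by
      intro y hy θ hθ τ hτ t ht h
      rw [hK] at h
      have h1 := hclose y hy _ (hann θ hθ τ hτ) _ (hσI t ht) h
      rw [norm_sub_rev] at h1
      exact hd.coll y hy _ (z.mapsTo hθ) τ h1)
    h0O (fun h => hγfar 0 hd.M_zero (hN'N h)) hS1I
  rw [hKb] at hD1 hD2
  refine ⟨D, hD1, hD2, ?_, ?_, ?_, hγfar⟩
  · intro x hx
    rcases hD3 hx with h1 | ⟨p, hp, rfl⟩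
    · exact Or.inl h1
    · right
      exact hN'N (K.mapsTo ⟨hp.1, hp.2.1, ⟨by linarith [hp.2.2.1], hp.2.2.2⟩⟩)
  · intro x hx
    rcases hD3 hx with h1 | ⟨⟨θ, τ, t⟩, ⟨hθ, hτ, ht⟩, rfl⟩
    · rw [← γ.image_eq] at h1
      obtain ⟨y, hy, rfl⟩ := h1
      exact ⟨y, hy, (hγ y hy).trans (hδa.trans hd.a_m)⟩
    · refine ⟨z.toFun θ, Δ_subQ S d (ζ_subΔ S d (z.mapsTo hθ)), ?_⟩
      rw [hK]
      set w := S.ι d (z.toFun θ) + (l * τ) • S.n d with hw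
      have ht' : t ∈ Icc (-1:ℝ) 1 := ⟨by linarith [ht.1], ht.2⟩
      have h1 := hκε w (hann θ hθ τ hτ) _ (hσI t ht')
      have h2 : ‖w - S.ι d (z.toFun θ)‖ ≤ m / 4 := by
        rw [hw, add_sub_cancel_left, norm_smul, Real.norm_eq_abs, abs_mul, abs_of_pos hd.l_pos]
        refine le_trans ?_ hd.l_m
        have h3 : |τ| ≤ 1 := abs_le.2 hτ
        have h4 : l * |τ| ≤ l * 1 := mul_le_mul_of_nonneg_left h3 hd.l_pos.le
        rw [mul_one] at h4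
        exact mul_le_mul_of_nonneg_right h4 (norm_nonneg _)
      have h3 := hlip w (S.ι d (z.toFun θ))
      have h4 := hεs _ (mem_image_of_mem _ (Δ_subQ S d (ζ_subΔ S d (z.mapsTo hθ))))
      have h5 := hd.s_m
      have h6 : ‖f (κ.toFun (w, σ * t)) - S.ι d (z.toFun θ)‖ ≤
          ‖f (κ.toFun (w, σ * t)) - w‖ + ‖w - S.ι d (z.toFun θ)‖ := by
        have := norm_add_le (f (κ.toFun (w, σ * t)) - w) (w - S.ι d (z.toFun θ))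
        rwa [sub_add_sub_cancel] at this
      linarith [hd.s_pos]
  · exact hD4 M (fun y hy => Δ_subQ S d (hd.M_sub hy).1) hd.M_conn hd.M_zero
      fun y hy h => hγfar y hy (hN'N h)

end Vale.Agent.P073.PA285
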