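import Vale.Agent.P073.PA285.HGeom

/-!
# P073, block MAIN: constants of the discs of a handle structure
-/

open Set Metric Topology Filter

namespace Vale.Agent.P073.PA285

open _root_.P073 _root_.P073.PA691 _root_.P073.PR720 Vale.Agent.P073.St

variable {Λ : Set V} (S : Handle Λ)

/-- the linear coordinates `(u, t)` of the point `ι d u + t n d` -/
theorem exists_coord (d : S.D) : ∃ G : V →L[ℝ] P2 × ℝ, ∀ (u : P2) (t : ℝ),
    G (S.ι d u + t • S.n d - S.ι d 0) = (u, t) := by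
  let L : P2 × ℝ →ₗ[ℝ] V :=
    { toFun := fun p => (S.ι d).toAffineMap.linear p.1 + p.2 • S.n d
      map_add' := fun p q => by
        simp only [Prod.fst_add, Prod.snd_add, map_add, add_smul]; abel
      map_smul' := fun c p => by
        simp only [Prod.smul_fst, Prod.smul_snd, map_smul, RingHom.id_apply, smul_add, smul_eq_mul,
          mul_smul] }
  have hι : ∀ u : P2, S.ι d u = S.ι d 0 + (S.ι d).toAffineMap.linear u := by
    intro u
    have := (S.ι d).toAffineMap.map_vadd 0 u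
    simp only [vadd_eq_add, add_zero] at this
    rw [add_comm]
    exact this
  have hL : Function.Injective L := by
    rw [← LinearMap.ker_eq_bot, LinearMap.ker_eq_bot']
    rintro ⟨u, t⟩ h
    have h1 : (S.ι d).toAffineMap.linear u + t • S.n d = 0 := h
    have h2 : S.ι d u + t • S.n d = S.ι d 0 := by
      rw [hι u, add_assoc, h1, add_zero]
    obtain ⟨h3, h4⟩ := S.n_ind d u 0 t h2
    rw [h3, h4]; rfl
  obtain ⟨G, hG⟩ := L.exists_leftInverse_of_injective (LinearMap.ker_eq_bot.2 hL)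
  refine ⟨LinearMap.toContinuousLinearMap G, fun u t => ?_⟩
  have h1 : S.ι d u + t • S.n d - S.ι d 0 = L (u, t) := by
    show S.ι d u + t • S.n d - S.ι d 0 = (S.ι d).toAffineMap.linear u + t • S.n d
    rw [hι u]; abel
  rw [h1]
  exact LinearMap.congr_fun hG (u, t)

/-- linear estimate -/
theorem exists_lin_est (d : S.D) : ∃ c > 0, ∀ (u u' : P2) (t t' : ℝ),
    c * ‖u - u'‖ ≤ ‖(S.ι d u + t • S.n d) - (S.ι d u' + t' • S.n d)‖ ∧
      c * |t - t'| ≤ ‖(S.ι d u + t • S.n d) - (S.ι d u' + t' • S.n d)‖ := by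
  obtain ⟨G, hG⟩ := exists_coord S d
  refine ⟨1 / (‖G‖ + 1), by positivity, fun u u' t t' => ?_⟩
  set w := (S.ι d u + t • S.n d) - (S.ι d u' + t' • S.n d) with hw
  have h1 : G w = (u - u', t - t') := by
    have : w = (S.ι d u + t • S.n d - S.ι d 0) - (S.ι d u' + t' • S.n d - S.ι d 0) := by
      rw [hw]; abel
    rw [this, map_sub, hG, hG]; rfl
  have h2 : ‖(u - u', t - t')‖ ≤ (‖G‖ + 1) * ‖w‖ := by
    rw [← h1]
    refine (G.le_opNorm w).trans ?_
    exact mul_le_mul_of_nonneg_right (by linarith) (norm_nonneg _)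
  have h3 : ‖u - u'‖ ≤ ‖(u - u', t - t')‖ := norm_fst_le (u - u', t - t')
  have h4 : |t - t'| ≤ ‖(u - u', t - t')‖ := norm_snd_le (u - u', t - t')
  constructor
  · rw [div_mul_eq_mul_div, one_mul, div_le_iff₀ (by positivity)]
    linarith
  · rw [div_mul_eq_mul_div, one_mul, div_le_iff₀ (by positivity)]
    linarith

/-- the open annulus in `F` around the boundary of the disc `d`, of height `l` -/
def ann (d : S.D) (l : ℝ) : Set V :=
  {x | ∃ y ∈ S.ζ d, ∃ t ∈ Ioo (-1:ℝ) 1, x = S.ι d y + (l * t) • S.n d}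

theorem ann_open (d : S.D) {l : ℝ} (hl : 0 < l) (hl1 : l ≤ 1) :
    ∃ U, IsOpen U ∧ U ∩ S.F = ann S d l := by
  obtain ⟨U, hU, hUF⟩ := S.Ann_open d
  obtain ⟨G, hG⟩ := exists_coord S d
  refine ⟨U ∩ {x | |(G (x - S.ι d 0)).2| < l}, hU.inter (isOpen_lt ?_ continuous_const), ?_⟩
  · exact (continuous_snd.comp (G.continuous.comp (continuous_id.sub continuous_const))).abs
  · ext x
    constructor
    · rintro ⟨⟨hxU, hxl⟩, hxF⟩
      have h1 : x ∈ U ∩ S.F := ⟨hxU, hxF⟩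
      rw [hUF] at h1
      obtain ⟨y, hy, t, ht, rfl⟩ := h1
      have h2 : |(G (S.ι d y + t • S.n d - S.ι d 0)).2| < l := hxl
      rw [hG] at h2
      refine ⟨y, hy, t / l, ?_, by rw [mul_div_cancel₀ _ hl.ne']⟩
      rw [mem_Ioo, ← abs_lt, abs_div, abs_of_pos hl, div_lt_one hl]
      exact h2
    · rintro ⟨y, hy, t, ht, rfl⟩
      have h1 : l * t ∈ Ioo (-1:ℝ) 1 := by
        rw [mem_Ioo, ← abs_lt, abs_mul, abs_of_pos hl]
        have h2 : |t| < 1 := abs_lt.2 ht
        nlinarith [abs_nonneg t]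
      have h3 : S.ι d y + (l * t) • S.n d ∈ U ∩ S.F := by
        rw [hUF]; exact ⟨y, hy, l * t, h1, rfl⟩
      refine ⟨⟨h3.1, ?_⟩, h3.2⟩
      show |(G (S.ι d y + (l * t) • S.n d - S.ι d 0)).2| < l
      rw [hG]
      show |l * t| < l
      rw [abs_mul, abs_of_pos hl]
      have h2 : |t| < 1 := abs_lt.2 ht
      nlinarith [abs_nonneg t]

theorem ann_near (hΛ : IsOpen Λ) (d : S.D) {l : ℝ} (hl : 0 < l) (hl1 : l ≤ 1) :
    ∃ δ > 0, ∀ w ∈ S.F, ∀ y ∈ Q0, ‖w - S.ι d y‖ ≤ δ → w ∈ ann S d l := by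
  obtain ⟨U, hU, hUF⟩ := ann_open S d hl hl1
  have hsub : S.ι d '' Q0 ⊆ Λ ∩ (closure (S.F \ U))ᶜ := by
    rintro _ ⟨y, hy, rfl⟩
    have hyΛ := S.Q_sub d (mem_image_of_mem _ hy)
    refine ⟨hyΛ, fun h => ?_⟩
    have h1 : S.ι d y ∈ S.F := F_closed S ⟨closure_mono sdiff_subset h, hyΛ⟩
    have h2 : S.ι d y ∉ U := by
      have : closure (S.F \ U) ⊆ Uᶜ :=
        closure_minimal (fun z hz => hz.2) hU.isClosed_compl
      exact this h
    have h3 : S.ι d y ∈ ann S d l :=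
      ⟨y, mem_ζ S d hy h1, 0, ⟨by norm_num, by norm_num⟩, by simp⟩
    rw [← hUF] at h3
    exact h2 h3.1
  obtain ⟨δ, hδ, hδ'⟩ := (isCompact_Q S d).exists_cthickening_subset_open
    (hΛ.inter isClosed_closure.isOpen_compl) hsub
  refine ⟨δ, hδ, fun w hw y hy hwy => ?_⟩
  have h1 : w ∈ cthickening δ (S.ι d '' Q0) :=
    mem_cthickening_of_dist_le w (S.ι d y) δ _ (mem_image_of_mem _ hy) (by rwa [dist_eq_norm])
  have h2 := (hδ' h1).2
  rw [← hUF]
  refine ⟨?_, hw⟩
  by_contra hwU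
  exact h2 (subset_closure ⟨hw, hwU⟩)

/-- the side of the centre of the disc -/
def sideA (d : S.D) : Set V := {z | z ∈ Λ ∧ z ∉ S.F ∧ (S.out d ↔ z ∉ S.H)}

/-- the side of the boundary of the square -/
def sideB (d : S.D) : Set V := {z | z ∈ Λ ∧ z ∉ S.F ∧ (S.out d ↔ z ∈ S.H)}

theorem isOpen_diff_H (hΛ : IsOpen Λ) : IsOpen (Λ \ S.H) := by
  have : Λ \ S.H = Λ \ closure S.H := by
    ext z
    constructor
    · rintro ⟨h1, h2⟩
      exact ⟨h1, fun h3 => h2 (S.H_closed ⟨h3, h1⟩)⟩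
    · rintro ⟨h1, h2⟩
      exact ⟨h1, fun h3 => h2 (subset_closure h3)⟩
  rw [this]
  exact hΛ.sdiff isClosed_closure

theorem isOpen_sideA (hΛ : IsOpen Λ) (d : S.D) : IsOpen (sideA S d) := by
  by_cases hd : S.out d
  · have : sideA S d = Λ \ S.H := by
      ext z
      exact ⟨fun h => ⟨h.1, h.2.2.1 hd⟩, fun h => ⟨h.1, notMem_F_of_notMem S h.2,
        fun _ => h.2, fun _ => hd⟩⟩
    rw [this]; exact isOpen_diff_H S hΛ
  · have : sideA S d = interior S.H := by
      ext z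
      constructor
      · rintro ⟨h1, h2, h3⟩
        exact mem_interior_of S (by by_contra h; exact hd (h3.2 h)) h2
      · intro h
        refine ⟨S.H_sub (interior_subset h), notMem_F_of_interior S h, fun h' => absurd h' hd,
          fun h' => absurd (interior_subset h) h'⟩
    rw [this]; exact isOpen_interior

theorem isOpen_sideB (hΛ : IsOpen Λ) (d : S.D) : IsOpen (sideB S d) := by
  by_cases hd : S.out d
  · have : sideB S d = interior S.H := by
      ext z
      constructor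
      · rintro ⟨h1, h2, h3⟩
        exact mem_interior_of S (h3.1 hd) h2
      · intro h
        exact ⟨S.H_sub (interior_subset h), notMem_F_of_interior S h, fun _ => interior_subset h,
          fun _ => hd⟩
    rw [this]; exact isOpen_interior
  · have : sideB S d = Λ \ S.H := by
      ext z
      exact ⟨fun h => ⟨h.1, fun h' => hd (h.2.2.2 h')⟩, fun h => ⟨h.1, notMem_F_of_notMem S h.2,
        fun h' => absurd h' hd, fun h' => absurd h' h.2⟩⟩
    rw [this]; exact isOpen_diff_H S hΛ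

theorem zero_sideA (d : S.D) : S.ι d 0 ∈ sideA S d := by
  have h0 := S.Q_sub d (mem_image_of_mem _ zero_memQ)
  refine ⟨h0, ι_zero_notMem_F S d, ?_, ?_⟩
  · exact fun hd => (S.out_in d hd).1 0 (S.zero_mem d).1 (S.zero_mem d).2
  · intro h
    by_contra hd
    exact h (interior_subset ((S.in_in d hd).1 0 (S.zero_mem d).1 (S.zero_mem d).2))

theorem S1_notMem_Δ (d : S.D) {y : P2} (hy : y ∈ S1) : y ∉ S.Δ d := fun h => by
  have h1 := S.Δ_sub d h
  rw [mem_ball_zero_iff] at h1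
  rw [mem_sphere_zero_iff_norm] at hy
  linarith

theorem S1_sideB (d : S.D) {y : P2} (hy : y ∈ S1) : S.ι d y ∈ sideB S d := by
  have hyQ : y ∈ Q0 := sphere_subset_closedBall hy
  have hyΔ := S1_notMem_Δ S d hy
  refine ⟨S.Q_sub d (mem_image_of_mem _ hyQ), fun h => hyΔ (ζ_subΔ S d (mem_ζ S d hyQ h)), ?_, ?_⟩
  · exact fun hd => interior_subset ((S.out_in d hd).2 y hyQ hyΔ)
  · intro h
    by_contra hd
    exact (S.in_in d hd).2 y hyQ hyΔ h

/-- compact connected exhaustion of an open disc -/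
theorem exists_exhaust {Δ ζ : Set P2} (hΔ : ConBall 2 Δ ζ) {C : Set P2} (hC : IsCompact C)
    (hCΔ : C ⊆ Δ \ ζ) (hne : C.Nonempty) :
    ∃ M ⊆ Δ \ ζ, IsCompact M ∧ IsPreconnected M ∧ C ⊆ interior M := by
  obtain ⟨hBC, φ, hφ⟩ := hΔ
  have hKc : IsCompact (φ.toFun '' C) :=
    hC.image_of_continuousOn (φ.cont.mono (hCΔ.trans sdiff_subset))
  have hKb : φ.toFun '' C ⊆ ball 0 1 := by
    rintro _ ⟨x, hx, rfl⟩
    have h2 : φ.toFun x ∈ closedBall (0 : Fin 2 → ℝ) 1 := φ.mapsTo (hCΔ hx).1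
    rw [mem_ball_zero_iff]
    rcases (mem_closedBall_zero_iff.1 h2).lt_or_eq with h3 | h3
    · exact h3
    · exfalso
      have h4 : φ.toFun x ∈ φ.toFun '' ζ := by rw [hφ]; exact mem_sphere_zero_iff_norm.2 h3
      obtain ⟨b, hb, hbx⟩ := h4
      exact (hCΔ hx).2 (φ.injOn (hBC hb) (hCΔ hx).1 hbx ▸ hb)
  obtain ⟨z, hz, hmax⟩ := hKc.exists_isMaxOn (hne.image _) continuous_norm.continuousOn
  have hz1 : ‖z‖ < 1 := mem_ball_zero_iff.1 (hKb hz)
  obtain ⟨r, hr, hr1⟩ := exists_between hz1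
  have hr0 : 0 < r := (norm_nonneg z).trans_lt hr
  have hKr : φ.toFun '' C ⊆ ball 0 r := fun w hw => by
    rw [mem_ball_zero_iff]
    exact (hmax hw).trans_lt hr
  have hsub : closedBall (0 : P2) r ⊆ closedBall 0 1 := closedBall_subset_closedBall hr1.le
  refine ⟨φ.invFun '' closedBall 0 r, ?_, ?_, ?_, ?_⟩
  · rintro _ ⟨w, hw, rfl⟩
    refine ⟨φ.mapsTo_inv (hsub hw), fun h => ?_⟩
    have h4 : φ.toFun (φ.invFun w) ∈ φ.toFun '' ζ := mem_image_of_mem _ h
    rw [φ.right_inv (hsub hw), hφ, mem_sphere_zero_iff_norm] at h4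
    rw [mem_closedBall_zero_iff, h4] at hw
    linarith
  · exact (isCompact_closedBall _ _).image_of_continuousOn (φ.cont_inv.mono hsub)
  · exact (convex_closedBall _ _).isPreconnected.image _ (φ.cont_inv.mono hsub)
  · have hopen : IsOpen (φ.invFun '' ball 0 r) :=
      Sep.isOpen_image_of_injOn isOpen_ball
        (φ.cont_inv.mono (ball_subset_closedBall.trans hsub))
        (φ.right_inv.injOn.mono (ball_subset_closedBall.trans hsub))
    refine Subset.trans ?_ (interior_maximal (image_mono ball_subset_closedBall) hopen)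
    intro x hx
    exact ⟨φ.toFun x, hKr (mem_image_of_mem _ hx), φ.left_inv (hCΔ hx).1⟩

/-- The constants of the disc `d`: `l` height of the annulus, `s` closeness, `a` radius of the
far sets, `β` closeness for the exact crossings, `M` a compact connected part of the open disc. -/
structure DConst (P : Set V) (d : S.D) (m l s a β : ℝ) (M : Set P2) : Prop where
  l_pos : 0 < l
  l_le : l ≤ 1
  l_m : l * ‖S.n d‖ ≤ m / 4
  s_pos : 0 < s
  s_m : s ≤ m
  a_pos : 0 < a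
  a_m : a ≤ m
  β_pos : 0 < β
  M_sub : M ⊆ S.Δ d \ S.ζ d
  M_conn : IsPreconnected M
  M_zero : (0 : P2) ∈ M
  near : ∀ w ∈ S.F, ∀ y ∈ Q0, ‖w - S.ι d y‖ ≤ s → w ∈ ann S d l
  coll : ∀ y ∈ Q0, ∀ u ∈ S.ζ d, ∀ τ : ℝ, ‖S.ι d y - (S.ι d u + (l * τ) • S.n d)‖ ≤ s →
    τ ∈ Ioo (-1:ℝ) 1 ∧ (0 : P2) ∉ segment ℝ y u
  far : ∀ y ∈ M, ∀ w ∈ S.F, s < ‖w - S.ι d y‖
  cen : ∀ z, ‖z - S.ι d 0‖ ≤ a → z ∈ sideA S d
  bdr : ∀ y ∈ S1, ∀ z, ‖z - S.ι d y‖ ≤ a → z ∈ sideB S d
  exact : ∀ u ∈ Q0, ∀ v ∈ S.Δ d, S.ι d v ∈ P → ‖S.ι d v - S.ι d u‖ ≤ β → u ∈ M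

theorem exists_DConst (hΛ : IsOpen Λ) {P : Set V} (hPΛ : P ⊆ Λ) (hPcl : closure P ∩ Λ ⊆ P)
    (hPH : ∀ z ∈ P, z ∉ S.H) (d : S.D) {m : ℝ} (hm : 0 < m) :
    ∃ l s a β M, DConst S P d m l s a β M := by
  classical
  -- the height
  obtain ⟨l, hl, hl1, hlm⟩ : ∃ l : ℝ, 0 < l ∧ l ≤ 1 ∧ l * ‖S.n d‖ ≤ m / 4 := by
    refine ⟨min 1 (m / 4 / (‖S.n d‖ + 1)), lt_min one_pos (by positivity), min_le_left _ _, ?_⟩
    have h1 : min 1 (m / 4 / (‖S.n d‖ + 1)) ≤ m / 4 / (‖S.n d‖ + 1) := min_le_right _ _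
    have h2 : min 1 (m / 4 / (‖S.n d‖ + 1)) * ‖S.n d‖ ≤ m / 4 / (‖S.n d‖ + 1) * ‖S.n d‖ :=
      mul_le_mul_of_nonneg_right h1 (norm_nonneg _)
    refine h2.trans ?_
    rw [div_mul_eq_mul_div, div_le_iff₀ (by positivity)]
    nlinarith [norm_nonneg (S.n d)]
  obtain ⟨δ, hδ, hnear⟩ := ann_near S hΛ d hl hl1
  obtain ⟨c, hc, hlin⟩ := exists_lin_est S d
  -- the distance of `ζ` to `0`
  obtain ⟨r, hr, hrζ⟩ : ∃ r > 0, ∀ u ∈ S.ζ d, r ≤ ‖u‖ := by
    have hcomp : IsCompact (S.ζ d) := (S.Δ_ball d).isCompact_bdry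
    rcases (S.ζ d).eq_empty_or_nonempty with he | hne
    · exact ⟨1, one_pos, fun u hu => by rw [he] at hu; exact absurd hu (notMem_empty u)⟩
    · obtain ⟨u₀, hu₀, hmin⟩ := hcomp.exists_isMinOn hne continuous_norm.continuousOn
      refine ⟨‖u₀‖, norm_pos_iff.2 fun h => (S.zero_mem d).2 (h ▸ hu₀), fun u hu => hmin hu⟩
  -- the exhaustion
  have hCc : IsCompact ({u | u ∈ S.Δ d ∧ S.ι d u ∈ P} ∪ {0}) := by
    refine IsCompact.union ?_ isCompact_singleton
    refine (S.Δ_ball d).isCompact.of_isClosed_subset ?_ fun u hu => hu.1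
    apply isClosed_of_closure_subset
    intro u hu
    have h1 : u ∈ S.Δ d :=
      (S.Δ_ball d).isClosed.closure_subset (closure_mono (fun v hv => hv.1) hu)
    refine ⟨h1, hPcl ⟨?_, S.Q_sub d (mem_image_of_mem _ (Δ_subQ S d h1))⟩⟩
    have h2 : S.ι d u ∈ closure (S.ι d '' {u | u ∈ S.Δ d ∧ S.ι d u ∈ P}) :=
      image_closure_subset_closure_image (S.ι d).continuous (mem_image_of_mem _ hu)
    refine closure_mono ?_ h2
    rintro _ ⟨v, hv, rfl⟩
    exact hv.2
  have hCsub : {u | u ∈ S.Δ d ∧ S.ι d u ∈ P} ∪ {0} ⊆ S.Δ d \ S.ζ d := by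
    rintro u (hu | hu)
    · exact ⟨hu.1, fun h => hPH _ hu.2 (F_sub_H S (S.ζ_sub d (mem_image_of_mem _ h)))⟩
    · rw [mem_singleton_iff.1 hu]; exact S.zero_mem d
  obtain ⟨M, hMsub, hMc, hMconn, hCM⟩ := exists_exhaust (S.Δ_ball d) hCc hCsub ⟨0, Or.inr rfl⟩
  -- distance of `M` to `F`
  obtain ⟨e, he, hfar⟩ : ∃ e > 0, ∀ y ∈ M, ∀ w ∈ S.F, e < ‖w - S.ι d y‖ := by
    have h1 : S.ι d '' M ⊆ Λ ∩ (closure S.F)ᶜ := by
      rintro _ ⟨y, hy, rfl⟩
      have hyQ := Δ_subQ S d (hMsub hy).1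
      have hyΛ := S.Q_sub d (mem_image_of_mem _ hyQ)
      exact ⟨hyΛ, fun h => (hMsub hy).2 (mem_ζ S d hyQ (F_closed S ⟨h, hyΛ⟩))⟩
    obtain ⟨e, he, he'⟩ := (hMc.image (S.ι d).continuous).exists_cthickening_subset_open
      (hΛ.inter isClosed_closure.isOpen_compl) h1
    refine ⟨e, he, fun y hy w hw => ?_⟩
    by_contra hle
    push Not at hle
    have h2 : w ∈ cthickening e (S.ι d '' M) :=
      mem_cthickening_of_dist_le w (S.ι d y) e _ (mem_image_of_mem _ hy) (by rwa [dist_eq_norm])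
    exact (he' h2).2 (subset_closure hw)
  -- far sets
  obtain ⟨a₁, ha₁, hcen⟩ : ∃ a > 0, ∀ z, ‖z - S.ι d 0‖ ≤ a → z ∈ sideA S d := by
    obtain ⟨a, ha, ha'⟩ := Metric.isOpen_iff.1 (isOpen_sideA S hΛ d) _ (zero_sideA S d)
    refine ⟨a / 2, by positivity, fun z hz => ha' ?_⟩
    rw [mem_ball, dist_eq_norm]
    linarith
  obtain ⟨a₂, ha₂, hbdr⟩ : ∃ a > 0, ∀ y ∈ S1, ∀ z, ‖z - S.ι d y‖ ≤ a → z ∈ sideB S d := by
    have h1 : S.ι d '' S1 ⊆ sideB S d := by
      rintro _ ⟨y, hy, rfl⟩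
      exact S1_sideB S d hy
    obtain ⟨a, ha, ha'⟩ := ((isCompact_sphere (0 : P2) 1).image
      (S.ι d).continuous).exists_cthickening_subset_open (isOpen_sideB S hΛ d) h1
    exact ⟨a, ha, fun y hy z hz => ha' (mem_cthickening_of_dist_le z (S.ι d y) a _
      (mem_image_of_mem _ hy) (by rwa [dist_eq_norm]))⟩
  -- exactness
  obtain ⟨β, hβ, hex⟩ : ∃ β > 0, ∀ u ∈ Q0, ∀ v ∈ S.Δ d, S.ι d v ∈ P →
      ‖S.ι d v - S.ι d u‖ ≤ β → u ∈ M := by
    obtain ⟨b, hb, hb'⟩ := hCc.exists_cthickening_subset_open isOpen_interior hCM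
    refine ⟨c * b, by positivity, fun u _ v hv hvP huv => ?_⟩
    have h1 := (hlin v u 0 0).1
    simp only [zero_smul, add_zero] at h1
    have h2 : ‖v - u‖ ≤ b := le_of_mul_le_mul_left (h1.trans huv) hc
    refine interior_subset (hb' (mem_cthickening_of_dist_le u v b _ (Or.inl ⟨hv, hvP⟩) ?_))
    rw [dist_comm, dist_eq_norm]; exact h2
  -- the closeness
  refine ⟨l, min (min δ m) (min e (min (c * l / 2) (c * r / 2))), min m (min a₁ a₂), β, M, ?_⟩
  have hs1 : min (min δ m) (min e (min (c * l / 2) (c * r / 2))) ≤ c * l / 2 :=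
    (min_le_right _ _).trans ((min_le_right _ _).trans (min_le_left _ _))
  have hs2 : min (min δ m) (min e (min (c * l / 2) (c * r / 2))) ≤ c * r / 2 :=
    (min_le_right _ _).trans ((min_le_right _ _).trans (min_le_right _ _))
  exact
    { l_pos := hl
      l_le := hl1
      l_m := hlm
      s_pos := lt_min (lt_min hδ hm) (lt_min he (lt_min (by positivity) (by positivity)))
      s_m := (min_le_left _ _).trans (min_le_right _ _)
      a_pos := lt_min hm (lt_min ha₁ ha₂)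
      a_m := min_le_left _ _
      β_pos := hβ
      M_sub := hMsub
      M_conn := hMconn
      M_zero := interior_subset (hCM (Or.inr rfl))
      near := fun w hw y hy h => hnear w hw y hy (h.trans ((min_le_left _ _).trans (min_le_left _ _)))
      coll := by
        intro y hy u hu τ h
        obtain ⟨h1, h2⟩ := hlin y u 0 (l * τ)
        simp only [zero_smul, add_zero, zero_sub, abs_neg] at h1 h2
        have h3 : c * |l * τ| ≤ c * l / 2 := h2.trans (h.trans hs1)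
        have h4 : c * ‖y - u‖ ≤ c * r / 2 := h1.trans (h.trans hs2)
        constructor
        · rw [mem_Ioo, ← abs_lt]
          rw [abs_mul, abs_of_pos hl] at h3
          have h5 : 0 < c * l := by positivity
          by_contra h6
          push Not at h6
          nlinarith
        · intro h0
          rw [segment_eq_image'] at h0
          obtain ⟨θ, hθ, hθ0⟩ := h0
          have h5 : u = (1 - θ) • (u - y) := by
            have : y + θ • (u - y) = 0 := hθ0
            have h6 : (1 - θ) • (u - y) = u - (y + θ • (u - y)) := by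
              rw [sub_smul, one_smul]; abel
            rw [h6, this, sub_zero]
          have h7 : ‖u‖ ≤ ‖y - u‖ := by
            calc ‖u‖ = ‖(1 - θ) • (u - y)‖ := by rw [← h5]
              _ = (1 - θ) * ‖u - y‖ := by
                rw [norm_smul, Real.norm_of_nonneg (by linarith [hθ.2])]
              _ ≤ 1 * ‖u - y‖ :=
                mul_le_mul_of_nonneg_right (by linarith [hθ.1]) (norm_nonneg _)
              _ = ‖y - u‖ := by rw [one_mul, norm_sub_rev]
          have h8 := hrζ u hu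
          nlinarith
      far := fun y hy w hw => (lt_of_le_of_lt ((min_le_right _ _).trans (min_le_left _ _))
        (hfar y hy w hw))
      cen := fun z hz => hcen z (hz.trans ((min_le_right _ _).trans (min_le_left _ _)))
      bdr := fun y hy z hz => hbdr y hy z (hz.trans ((min_le_right _ _).trans (min_le_right _ _)))
      exact := hex }

end Vale.Agent.P073.PA285
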