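import Mathlib.Topology.Connected.Basic
import Mathlib.Topology.Connected.Clopen
import Mathlib.Topology.LocallyFinite

/-!
# P073: removing disjoint open cells with connected boundaries from a connected set
-/

open Set Topology Filter

namespace Vale.Agent.P073.PA285

/-- relatively closed sets and connectedness -/
theorem rel_closed_partition {α : Type*} [TopologicalSpace α] {Z A B : Set α}
    (hZ : IsPreconnected Z) (hcov : Z ⊆ A ∪ B) (hA : closure A ∩ Z ⊆ A) (hB : closure B ∩ Z ⊆ B)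
    (hd : Disjoint A B) (hAne : (Z ∩ A).Nonempty) : Z ⊆ A := by
  by_contra hZA
  obtain ⟨z, hz, hzA⟩ := not_subset.1 hZA
  have hzB : z ∈ B := (hcov hz).resolve_left hzA
  obtain ⟨w, hwZ, hw1, hw2⟩ := isPreconnected_closed_iff.1 hZ (closure A) (closure B)
    isClosed_closure isClosed_closure (hcov.trans (union_subset_union subset_closure subset_closure))
    (hAne.mono (inter_subset_inter_right _ subset_closure)) ⟨z, hz, subset_closure hzB⟩
  exact disjoint_left.1 hd (hA ⟨hw1, hwZ⟩) (hB ⟨hw2, hwZ⟩)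

/-- a locally finite union of closed sets -/
theorem closure_biUnion_lf {α : Type*} [TopologicalSpace α] {ι : Type*} {C : ι → Set α} {Z : Set α}
    (hCc : ∀ i, IsClosed (C i)) (hlf : ∀ z ∈ Z, ∃ W ∈ 𝓝 z, {i | (C i ∩ W).Nonempty}.Finite)
    (s : Set ι) : closure (⋃ i ∈ s, C i) ∩ Z ⊆ ⋃ i ∈ s, C i := by
  rintro z ⟨hcl, hz⟩
  obtain ⟨U, hU, hfin⟩ := hlf z hz
  have hfin' : {i | i ∈ s ∧ (C i ∩ U).Nonempty}.Finite := hfin.subset fun i hi => hi.2
  have h1 : z ∈ closure (⋃ i ∈ {i | i ∈ s ∧ (C i ∩ U).Nonempty}, C i) := by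
    rw [mem_closure_iff_nhds] at hcl ⊢
    intro t ht
    obtain ⟨y, ⟨hyt, hyU⟩, hyA⟩ := hcl (t ∩ U) (inter_mem ht hU)
    obtain ⟨i, his, hi⟩ := mem_iUnion₂.1 hyA
    exact ⟨y, hyt, mem_biUnion (show i ∈ {i | i ∈ s ∧ (C i ∩ U).Nonempty} from
      ⟨his, y, hi, hyU⟩) hi⟩
  rw [(hfin'.isClosed_biUnion fun i _ => hCc i).closure_eq] at h1
  obtain ⟨i, hi, hzi⟩ := mem_iUnion₂.1 h1
  exact mem_biUnion hi.1 hzi

/-- **Puncturing lemma**: `Z` connected, `C i ⊆ Z` closed, locally finite, `U i ⊆ C i` disjoint from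
the other `C j`, with `C i \ U i` connected.  Then `Z \ ⋃ i, U i` is connected, if it is closed in
`Z`. -/
theorem punct {α : Type*} [TopologicalSpace α] {Z : Set α} (hZ : IsPreconnected Z) {ι : Type*}
    {U C : ι → Set α} (hCZ : ∀ i, C i ⊆ Z) (hCc : ∀ i, IsClosed (C i))
    (hlf : ∀ z ∈ Z, ∃ W ∈ 𝓝 z, {i | (C i ∩ W).Nonempty}.Finite) (hUC : ∀ i, U i ⊆ C i)
    (hdis : ∀ i j, i ≠ j → Disjoint (U i) (C j)) (hfr : ∀ i, IsPreconnected (C i \ U i))
    (hY : closure (Z \ ⋃ i, U i) ∩ Z ⊆ Z \ ⋃ i, U i) : IsPreconnected (Z \ ⋃ i, U i) := by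
  classical
  set Y := Z \ ⋃ i, U i with hYdef
  rw [isPreconnected_closed_iff]
  intro t t' ht ht' hcov hne hne'
  by_contra hemp
  rw [not_nonempty_iff_eq_empty] at hemp
  have hfrY : ∀ i, C i \ U i ⊆ Y := by
    intro i z hz
    refine ⟨hCZ i hz.1, fun h => ?_⟩
    obtain ⟨j, hj⟩ := mem_iUnion.1 h
    by_cases hij : j = i
    · subst hij; exact hz.2 hj
    · exact disjoint_left.1 (hdis j i hij) hj hz.1
  have hdt : ∀ z ∈ Y, z ∈ t → z ∉ t' := fun z hz h1 h2 => by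
    have : z ∈ Y ∩ (t ∩ t') := ⟨hz, h1, h2⟩
    rw [hemp] at this
    exact this
  have hside : ∀ i, C i \ U i ⊆ t ∨ C i \ U i ⊆ t' := by
    intro i
    by_cases h1 : ((C i \ U i) ∩ t).Nonempty
    · by_cases h2 : ((C i \ U i) ∩ t').Nonempty
      · exfalso
        obtain ⟨z, hz, hzt, hzt'⟩ := isPreconnected_closed_iff.1 (hfr i) t t' ht ht'
          ((hfrY i).trans hcov) h1 h2
        exact hdt z (hfrY i hz) hzt hzt'
      · left
        intro z hz
        rcases hcov (hfrY i hz) with h | h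
        · exact h
        · exact absurd ⟨z, hz, h⟩ h2
    · right
      intro z hz
      rcases hcov (hfrY i hz) with h | h
      · exact absurd ⟨z, hz, h⟩ h1
      · exact h
  let IA : Set ι := {i | C i \ U i ⊆ t}
  let IB : Set ι := {i | ¬ C i \ U i ⊆ t}
  have hIB : ∀ i ∈ IB, C i \ U i ⊆ t' := fun i hi => (hside i).resolve_left hi
  set A' := (Y ∩ t) ∪ ⋃ i ∈ IA, C i with hA'
  set B' := (Y ∩ t') ∪ ⋃ i ∈ IB, C i with hB'
  have hcl : ∀ (u : Set α), IsClosed u → ∀ s : Set ι,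
      closure ((Y ∩ u) ∪ ⋃ i ∈ s, C i) ∩ Z ⊆ (Y ∩ u) ∪ ⋃ i ∈ s, C i := by
    rintro u hu s z ⟨hz, hzZ⟩
    rw [closure_union] at hz
    rcases hz with hz | hz
    · left
      exact ⟨hY ⟨closure_mono inter_subset_left hz, hzZ⟩,
        hu.closure_subset (closure_mono inter_subset_right hz)⟩
    · exact Or.inr (closure_biUnion_lf hCc hlf s ⟨hz, hzZ⟩)
  have hcov' : Z ⊆ A' ∪ B' := by
    intro z hz
    by_cases hzU : z ∈ ⋃ i, U i
    · obtain ⟨i, hi⟩ := mem_iUnion.1 hzU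
      by_cases hiA : C i \ U i ⊆ t
      · exact Or.inl (Or.inr (mem_biUnion (show i ∈ IA from hiA) (hUC i hi)))
      · exact Or.inr (Or.inr (mem_biUnion (show i ∈ IB from hiA) (hUC i hi)))
    · have hzY : z ∈ Y := ⟨hz, hzU⟩
      rcases hcov hzY with h | h
      · exact Or.inl (Or.inl ⟨hzY, h⟩)
      · exact Or.inr (Or.inl ⟨hzY, h⟩)
  -- a point of `Y` in `C i` is in `C i \ U i`
  have hYC : ∀ i, ∀ z ∈ Y, z ∈ C i → z ∈ C i \ U i := fun i z hz hzC =>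
    ⟨hzC, fun h => hz.2 (mem_iUnion.2 ⟨i, h⟩)⟩
  have hdisj : Disjoint A' B' := by
    rw [disjoint_left]
    rintro z (hzA | hzA) (hzB | hzB)
    · exact hdt z hzA.1 hzA.2 hzB.2
    · obtain ⟨i, hi, hzi⟩ := mem_iUnion₂.1 hzB
      exact hdt z hzA.1 hzA.2 (hIB i hi (hYC i z hzA.1 hzi))
    · obtain ⟨i, hi, hzi⟩ := mem_iUnion₂.1 hzA
      exact hdt z hzB.1 (hi (hYC i z hzB.1 hzi)) hzB.2
    · obtain ⟨i, hi, hzi⟩ := mem_iUnion₂.1 hzA
      obtain ⟨j, hj, hzj⟩ := mem_iUnion₂.1 hzB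
      have hij : i ≠ j := by
        rintro rfl
        exact hj hi
      have hzi' : z ∈ C i \ U i := ⟨hzi, fun h => disjoint_left.1 (hdis i j hij) h hzj⟩
      have hzj' : z ∈ C j \ U j := ⟨hzj, fun h => disjoint_left.1 (hdis j i hij.symm) h hzi⟩
      exact hdt z (hfrY i hzi') (hi hzi') (hIB j hj hzj')
  obtain ⟨z, hzY, hzt⟩ := hne
  obtain ⟨w, hwY, hwt⟩ := hne'
  have hsub := rel_closed_partition hZ hcov' (hcl t ht IA) (hcl t' ht' IB) hdisj
    ⟨z, hzY.1, Or.inl ⟨hzY, hzt⟩⟩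
  exact disjoint_left.1 hdisj (hsub hwY.1) (Or.inl ⟨hwY, hwt⟩)

end Vale.Agent.P073.PA285
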