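import Vale.Agent.P073.Sep

/-!
# P073, block SEP: separation in an arbitrary open set

`sep_rho` is `Sep.sep_open` for an arbitrary open set `Ω` (not necessarily bounded, possibly the
whole space): the distance to the complement is replaced by a 1-Lipschitz function `ρ` which is
positive exactly on `Ω` and has bounded superlevel sets (`exists_rho`).
-/

open Set Topology Metric

namespace Vale.Agent.P073.PA285

open Vale.Agent.P073.Sep

variable {n : ℕ}

/-- a 1-Lipschitz function, positive exactly on `Ω`, with compact superlevel sets -/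
structure Rho (Ω : Set (Fin n → ℝ)) (ρ : (Fin n → ℝ) → ℝ) : Prop where
  lip : ∀ x y, ρ x ≤ ρ y + ‖x - y‖
  pos : ∀ x ∈ Ω, 0 < ρ x
  off : ∀ x, x ∉ Ω → ρ x ≤ 0
  bdd : ∀ d, 0 < d → Bornology.IsBounded {x | d ≤ ρ x}

theorem Rho.continuous {Ω : Set (Fin n → ℝ)} {ρ : (Fin n → ℝ) → ℝ} (h : Rho Ω ρ) :
    Continuous ρ := by
  have : LipschitzWith 1 ρ := by
    refine LipschitzWith.of_le_add fun x y => ?_
    rw [dist_eq_norm]
    exact h.lip x y
  exact this.continuous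

theorem Rho.compact {Ω : Set (Fin n → ℝ)} {ρ : (Fin n → ℝ) → ℝ} (h : Rho Ω ρ) {d : ℝ}
    (hd : 0 < d) : IsCompact {x | d ≤ ρ x} :=
  isCompact_of_isClosed_isBounded (isClosed_le continuous_const h.continuous) (h.bdd d hd)

theorem Rho.subset {Ω : Set (Fin n → ℝ)} {ρ : (Fin n → ℝ) → ℝ} (h : Rho Ω ρ) {d : ℝ}
    (hd : 0 < d) : {x | d ≤ ρ x} ⊆ Ω := fun x hx => by
  by_contra hxΩ
  have h1 := h.off x hxΩ
  have h2 : d ≤ ρ x := hx
  linarith

theorem exists_rho {Ω : Set (Fin n → ℝ)} (hΩ : IsOpen Ω) : ∃ ρ, Rho Ω ρ := by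
  classical
  obtain ⟨δ, hδl, hδp, hδo⟩ : ∃ δ : (Fin n → ℝ) → ℝ, (∀ x y, δ x ≤ δ y + ‖x - y‖) ∧
      (∀ x ∈ Ω, 0 < δ x) ∧ ∀ x, x ∉ Ω → δ x ≤ 0 := by
    by_cases hne : (Ωᶜ).Nonempty
    · refine ⟨fun x => infDist x Ωᶜ, fun x y => ?_, fun x hx => ?_, fun x hx => ?_⟩
      · rw [← dist_eq_norm]
        exact infDist_le_infDist_add_dist
      · exact (hΩ.isClosed_compl.notMem_iff_infDist_pos hne).1 fun h => h hx
      · exact (infDist_zero_of_mem hx).le
    · refine ⟨fun _ => 1, fun x y => ?_, fun _ _ => one_pos, fun x hx => ?_⟩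
      · have := norm_nonneg (x - y)
        linarith
      · exact absurd ⟨x, hx⟩ hne
  refine ⟨fun x => min (δ x) (1 / (1 + ‖x‖)), ⟨fun x y => ?_, fun x hx => ?_, fun x hx => ?_,
    fun d hd => ?_⟩⟩
  · have h1 : 1 / (1 + ‖x‖) ≤ 1 / (1 + ‖y‖) + ‖x - y‖ := by
      have hx := norm_nonneg x
      have hy := norm_nonneg y
      have h2 : ‖y‖ ≤ ‖x‖ + ‖x - y‖ := by
        have := norm_sub_norm_le y x
        rw [norm_sub_rev] at this
        linarith
      rw [div_le_iff₀ (by positivity), add_mul, div_mul_eq_mul_div, one_mul]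
      have h3 : (1 + ‖x‖) / (1 + ‖y‖) ≥ 1 - ‖x - y‖ := by
        rw [ge_iff_le, le_div_iff₀ (by positivity)]
        nlinarith [norm_nonneg (x - y)]
      nlinarith [norm_nonneg (x - y)]
    have h4 := hδl x y
    rw [← min_add_add_right]
    exact min_le_min h4 h1
  · exact lt_min (hδp x hx) (by positivity)
  · exact (min_le_left _ _).trans (hδo x hx)
  · refine (isBounded_closedBall (x := (0 : Fin n → ℝ)) (r := 1 / d)).subset ?_
    intro x hx
    have h1 : d ≤ 1 / (1 + ‖x‖) := le_trans hx (min_le_right _ _)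
    rw [mem_closedBall_zero_iff]
    have hx := norm_nonneg x
    rw [le_div_iff₀ (by positivity)] at h1 ⊢
    nlinarith

/-- **Separation lemma in an open set `Ω`.** -/
theorem sep_rho {Ω X T : Set (Fin n → ℝ)} {ρ : (Fin n → ℝ) → ℝ} (hρ : Rho Ω ρ)
    (hXc : closure X ∩ Ω ⊆ X) (hTc : closure T ∩ Ω ⊆ T) (hTX : T ⊆ X)
    (hfr : frontier X ∩ Ω ⊆ T) {G : (Fin n → ℝ) → (Fin n → ℝ)} (hG : ContinuousOn G T)
    (hG2 : ∀ t ∈ T, 2 * ‖G t - t‖ ≤ ρ t)
    {x y : Fin n → ℝ} (hx : x ∈ X) (hy : y ∉ X)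
    (hxT : ∀ t ∈ T, ‖G t - t‖ < ‖t - x‖) (hyT : ∀ t ∈ T, ‖G t - t‖ < ‖t - y‖) :
    ¬ JoinedIn (Ω \ G '' T) x y := by
  rintro ⟨γ, hγ⟩
  have hρc : Continuous ρ := hρ.continuous
  have hρpos : ∀ v ∈ Ω, 0 < ρ v := hρ.pos
  have hρΩ : ∀ v, 0 < ρ v → v ∈ Ω := by
    intro v hv
    by_contra h
    have : ρ v ≤ 0 := hρ.off v h
    linarith
  -- minimum of `ρ` along the path
  obtain ⟨d, hd0, hd⟩ : ∃ d : ℝ, 0 < d ∧ ∀ s, 4 * d ≤ ρ (γ s) := by
    obtain ⟨s0, -, hs0⟩ := isCompact_univ.exists_isMinOn (univ_nonempty (α := unitInterval))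
      (hρc.comp γ.continuous).continuousOn
    refine ⟨ρ (γ s0) / 4, by have := hρpos _ (hγ s0).1; positivity, fun s => ?_⟩
    have := hs0 (mem_univ s)
    simp only [mem_ofPred_eq, Function.comp] at this
    linarith
  -- the compact piece
  set K : Set (Fin n → ℝ) := {v | d ≤ ρ v} with hK
  have hKcl : IsClosed K := isClosed_le continuous_const hρc
  have hKΩ : K ⊆ Ω := fun v hv => hρΩ v (hd0.trans_le hv)
  have hKc : IsCompact K := hρ.compact hd0
  set X' := X ∩ K with hX'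
  have hX'c : IsCompact X' := by
    refine hKc.of_isClosed_subset ?_ inter_subset_right
    apply isClosed_of_closure_subset
    intro v hv
    have h1 : v ∈ closure X := closure_mono inter_subset_left hv
    have h2 : v ∈ K := hKcl.closure_subset (closure_mono inter_subset_right hv)
    exact ⟨hXc ⟨h1, hKΩ h2⟩, h2⟩
  set T' := (T ∩ K) ∪ (X ∩ {v | ρ v = d}) with hT'
  have hT'c : IsClosed T' := by
    apply IsClosed.union
    · apply isClosed_of_closure_subset
      intro v hv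
      have h1 : v ∈ closure T := closure_mono inter_subset_left hv
      have h2 : v ∈ K := hKcl.closure_subset (closure_mono inter_subset_right hv)
      exact ⟨hTc ⟨h1, hKΩ h2⟩, h2⟩
    · apply isClosed_of_closure_subset
      intro v hv
      have h1 : v ∈ closure X := closure_mono inter_subset_left hv
      have h2 : v ∈ {v | ρ v = d} :=
        (isClosed_eq hρc continuous_const).closure_subset (closure_mono inter_subset_right hv)
      have h3 : v ∈ K := by
        have : ρ v = d := h2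
        simp only [hK, mem_ofPred_eq, this, le_refl]
      exact ⟨hXc ⟨h1, hKΩ h3⟩, h2⟩
  have hT'X : T' ⊆ X' := by
    rintro v (hv | hv)
    · exact ⟨hTX hv.1, hv.2⟩
    · refine ⟨hv.1, ?_⟩
      have : ρ v = d := hv.2
      simp only [hK, mem_ofPred_eq, this, le_refl]
  have hfrK : frontier K ⊆ {v | ρ v = d} := by
    have := frontier_le_subset_eq (continuous_const (y := d)) hρc
    intro v hv
    exact (this hv).symm
  have hfr' : frontier X' ⊆ T' := by
    intro v hv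
    rcases frontier_inter_subset X K hv with h | h
    · have h2 : v ∈ K := hKcl.closure_subset h.2
      exact Or.inl ⟨hfr ⟨h.1, hKΩ h2⟩, h2⟩
    · have h2 : ρ v = d := hfrK h.2
      have h3 : v ∈ K := by simp only [hK, mem_ofPred_eq, h2, le_refl]
      exact Or.inr ⟨hXc ⟨h.1, hKΩ h3⟩, h2⟩
  -- the modified map
  classical
  set χ : (Fin n → ℝ) → ℝ := fun v => max 0 (min 1 (ρ v / d - 1)) with hχ
  have hχc : Continuous χ :=
    continuous_const.max (continuous_const.min ((hρc.div_const d).sub continuous_const))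
  have hχ0 : ∀ v, 0 ≤ χ v := fun v => le_max_left _ _
  have hχ1 : ∀ v, χ v ≤ 1 := fun v => max_le zero_le_one (min_le_left _ _)
  have hχd : ∀ v, ρ v = d → χ v = 0 := by
    intro v hv
    simp only [hχ, hv, div_self hd0.ne', sub_self]
    simp
  have hχ2 : ∀ v, 2 * d ≤ ρ v → χ v = 1 := by
    intro v hv
    have : 1 ≤ ρ v / d - 1 := by
      have : 2 ≤ ρ v / d := by rwa [le_div_iff₀ hd0]
      linarith
    simp only [hχ, min_eq_left this]
    simp
  set G' : (Fin n → ℝ) → (Fin n → ℝ) := fun v => if v ∈ T then v + χ v • (G v - v) else v with hG'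
  have hG'T : ∀ v ∈ T, G' v = v + χ v • (G v - v) := fun v hv => by simp [hG', hv]
  have hG'd : ∀ v, ρ v = d → G' v = v := by
    intro v hv
    by_cases h : v ∈ T
    · rw [hG'T v h, hχd v hv]; simp
    · simp [hG', h]
  have hG'c : ContinuousOn G' T' := by
    apply ContinuousOn.union_of_isClosed
    · have h1 : ContinuousOn (fun v => v + χ v • (G v - v)) (T ∩ K) :=
        continuousOn_id.add (hχc.continuousOn.smul
          ((hG.mono inter_subset_left).sub continuousOn_id))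
      exact h1.congr fun v hv => hG'T v hv.1
    · exact continuousOn_id.congr fun v hv => hG'd v hv.2
    · apply isClosed_of_closure_subset
      intro v hv
      have h1 : v ∈ closure T := closure_mono inter_subset_left hv
      have h2 : v ∈ K := hKcl.closure_subset (closure_mono inter_subset_right hv)
      exact ⟨hTc ⟨h1, hKΩ h2⟩, h2⟩
    · apply isClosed_of_closure_subset
      intro v hv
      have h1 : v ∈ closure X := closure_mono inter_subset_left hv
      have h2 : v ∈ {v | ρ v = d} :=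
        (isClosed_eq hρc continuous_const).closure_subset (closure_mono inter_subset_right hv)
      have h3 : v ∈ K := by
        have : ρ v = d := h2
        simp only [hK, mem_ofPred_eq, this, le_refl]
      exact ⟨hXc ⟨h1, hKΩ h3⟩, h2⟩
  have hxd : 4 * d ≤ ρ x := by simpa using hd 0
  have hyd : 4 * d ≤ ρ y := by simpa using hd 1
  have hmove : ∀ v ∈ T, ‖G' v - v‖ ≤ ‖G v - v‖ := by
    intro v hv
    rw [hG'T v hv, add_sub_cancel_left, norm_smul, Real.norm_eq_abs, abs_of_nonneg (hχ0 v)]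
    calc χ v * ‖G v - v‖ ≤ 1 * ‖G v - v‖ := mul_le_mul_of_nonneg_right (hχ1 v) (norm_nonneg _)
      _ = _ := one_mul _
  have hlt : ∀ z : Fin n → ℝ, 4 * d ≤ ρ z → (∀ t ∈ T, ‖G t - t‖ < ‖t - z‖) →
      ∀ t ∈ T', ‖G' t - t‖ < ‖t - z‖ := by
    intro z hz hzT t ht
    rcases ht with ht | ht
    · exact (hmove t ht.1).trans_lt (hzT t ht.1)
    · rw [hG'd t ht.2, sub_self, norm_zero, norm_pos_iff, sub_ne_zero]
      rintro rfl
      have : ρ t = d := ht.2
      linarith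
  have hxX' : x ∈ X' := ⟨hx, by simp only [hK, mem_ofPred_eq]; linarith⟩
  have hyX' : y ∉ X' := fun h => hy h.1
  refine sep hX'c hT'c hT'X hfr' hG'c hxX' hyX' (hlt x hxd hxT) (hlt y hyd hyT) ⟨γ, fun s => ?_⟩
  rintro ⟨t, ht, hts⟩
  rcases ht with ht | ht
  · -- `t ∈ T ∩ K`
    by_cases h2 : 2 * d ≤ ρ t
    · have : G' t = G t := by rw [hG'T t ht.1, hχ2 t h2]; simp
      exact (hγ s).2 ⟨t, ht.1, by rw [← this, hts]⟩
    · push Not at h2
      have h3 : ‖G' t - t‖ ≤ d := by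
        have := hG2 t ht.1
        have h4 := hmove t ht.1
        linarith
      have h4 : ρ (γ s) ≤ ρ t + ‖γ s - t‖ := hρ.lip _ _
      rw [← hts] at h4
      have h5 := hd s
      rw [← hts] at h5
      linarith
  · have h1 : ρ t = d := ht.2
    rw [hG'd t h1] at hts
    have h5 := hd s
    rw [← hts] at h5
    linarith

/-- a small perturbation of the identity of a relatively closed set has relatively closed image -/
theorem closed_image {Ω T : Set (Fin n → ℝ)} {ρ : (Fin n → ℝ) → ℝ} (hρ : Rho Ω ρ)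
    (hTc : closure T ∩ Ω ⊆ T) {G : (Fin n → ℝ) → (Fin n → ℝ)} (hG : ContinuousOn G T)
    (hG2 : ∀ t ∈ T, 2 * ‖G t - t‖ ≤ ρ t) : closure (G '' T) ∩ Ω ⊆ G '' T := by
  rintro w ⟨hw, hwΩ⟩
  set d := ρ w with hd
  have hd0 : 0 < d := hρ.pos w hwΩ
  -- the compact piece
  set K : Set (Fin n → ℝ) := {v | d / 4 ≤ ρ v} with hK
  have hKc : IsCompact K := hρ.compact (by positivity)
  have hKΩ : K ⊆ Ω := hρ.subset (by positivity)
  have hTK : IsCompact (T ∩ K) := by
    refine hKc.of_isClosed_subset ?_ inter_subset_right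
    apply isClosed_of_closure_subset
    intro v hv
    have h1 : v ∈ closure T := closure_mono inter_subset_left hv
    have h2 : v ∈ K := hKc.isClosed.closure_subset (closure_mono inter_subset_right hv)
    exact ⟨hTc ⟨h1, hKΩ h2⟩, h2⟩
  have hcl : IsClosed (G '' (T ∩ K)) :=
    (hTK.image_of_continuousOn (hG.mono inter_subset_left)).isClosed
  have hwc : w ∈ closure (G '' (T ∩ K)) := by
    rw [mem_closure_iff_nhds] at hw ⊢
    intro U hU
    have hU' : U ∩ {v | d / 2 < ρ v} ∈ 𝓝 w :=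
      Filter.inter_mem hU ((isOpen_lt continuous_const hρ.continuous).mem_nhds (by
        show d / 2 < ρ w
        rw [← hd]; linarith))
    obtain ⟨_, ⟨hv1, hv2⟩, ⟨t, ht, rfl⟩⟩ := hw _ hU'
    refine ⟨G t, hv1, t, ⟨ht, ?_⟩, rfl⟩
    show d / 4 ≤ ρ t
    have h1 := hρ.lip (G t) t
    have h2 := hG2 t ht
    have h3 : d / 2 < ρ (G t) := hv2
    linarith
  rw [hcl.closure_eq] at hwc
  exact image_mono inter_subset_left hwc

/-- **Separation by a level set**: `F = {φ = t}`. -/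
theorem sep_level {Λ : Set (Fin n → ℝ)} (hΛ : IsOpen Λ) {ρ : (Fin n → ℝ) → ℝ} (hρ : Rho Λ ρ)
    {φ : (Fin n → ℝ) → ℝ} (hφ : ContinuousOn φ Λ) {t : ℝ} {G : (Fin n → ℝ) → (Fin n → ℝ)}
    (hG : ContinuousOn G {z ∈ Λ | φ z = t})
    (hG2 : ∀ z ∈ Λ, φ z = t → 2 * ‖G z - z‖ ≤ ρ z)
    {x y : Fin n → ℝ} (hxΛ : x ∈ Λ) (hx : φ x < t) (hy : t < φ y)
    (hxT : ∀ z ∈ Λ, φ z = t → ‖G z - z‖ < ‖z - x‖)
    (hyT : ∀ z ∈ Λ, φ z = t → ‖G z - z‖ < ‖z - y‖)
    {B : Set (Fin n → ℝ)} (hB : IsPreconnected B) (hBΛ : B ⊆ Λ)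
    (hBG : Disjoint B (G '' {z ∈ Λ | φ z = t})) (hxB : x ∈ B) : y ∉ B := by
  intro hyB
  have hXc : closure {z ∈ Λ | φ z ≤ t} ∩ Λ ⊆ {z ∈ Λ | φ z ≤ t} := by
    rintro z ⟨hz, hzΛ⟩
    refine ⟨hzΛ, ?_⟩
    by_contra hlt
    push Not at hlt
    have h1 : ∀ᶠ w in 𝓝 z, t < φ w :=
      (hφ.continuousAt (hΛ.mem_nhds hzΛ)).eventually (lt_mem_nhds hlt)
    obtain ⟨w, hw1, hw2⟩ := mem_closure_iff_nhds.1 hz _ h1
    have h3 : φ w ≤ t := hw2.2
    have h4 : t < φ w := hw1
    linarith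
  have hTc : closure {z ∈ Λ | φ z = t} ∩ Λ ⊆ {z ∈ Λ | φ z = t} := by
    rintro z ⟨hz, hzΛ⟩
    refine ⟨hzΛ, ?_⟩
    by_contra hne
    have h1 : ∀ᶠ w in 𝓝 z, φ w ≠ t :=
      (hφ.continuousAt (hΛ.mem_nhds hzΛ)).eventually_ne hne
    obtain ⟨w, hw1, hw2⟩ := mem_closure_iff_nhds.1 hz _ h1
    exact hw1 hw2.2
  have hfr : frontier {z ∈ Λ | φ z ≤ t} ∩ Λ ⊆ {z ∈ Λ | φ z = t} := by
    rintro z ⟨hz, hzΛ⟩
    have h1 := hXc ⟨hz.1, hzΛ⟩
    refine ⟨hzΛ, le_antisymm h1.2 ?_⟩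
    by_contra hlt
    push Not at hlt
    apply hz.2
    rw [mem_interior_iff_mem_nhds]
    have h2 : ∀ᶠ w in 𝓝 z, φ w < t :=
      (hφ.continuousAt (hΛ.mem_nhds hzΛ)).eventually (gt_mem_nhds hlt)
    filter_upwards [h2, hΛ.mem_nhds hzΛ] with w hw hwΛ
    exact ⟨hwΛ, hw.le⟩
  have hcl := closed_image hρ hTc hG fun z hz => hG2 z hz.1 hz.2
  have hopen : IsOpen (Λ \ G '' {z ∈ Λ | φ z = t}) := by
    have : Λ \ G '' {z ∈ Λ | φ z = t} = Λ \ closure (G '' {z ∈ Λ | φ z = t}) := by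
      ext z
      constructor
      · rintro ⟨h1, h2⟩
        exact ⟨h1, fun h3 => h2 (hcl ⟨h3, h1⟩)⟩
      · rintro ⟨h1, h2⟩
        exact ⟨h1, fun h3 => h2 (subset_closure h3)⟩
    rw [this]
    exact hΛ.sdiff isClosed_closure
  refine sep_rho hρ hXc hTc (fun z hz => ⟨hz.1, hz.2.le⟩) hfr hG
    (fun z hz => hG2 z hz.1 hz.2) (x := x) (y := y) ⟨hxΛ, hx.le⟩ (fun h => ?_)
    (fun z hz => hxT z hz.1 hz.2) (fun z hz => hyT z hz.1 hz.2)
    (joinedIn_of_preconn hopen hB (fun b hb => ⟨hBΛ hb, fun h => disjoint_left.1 hBG hb h⟩)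
      hxB hyB)
  have : φ y ≤ t := h.2
  linarith

/-- A positive continuous function on `Λ`, which on `F = {φ = t}` is at most half of `ρ` and at
most the distance to a locally finite set `D` disjoint from `F`. -/
theorem exists_eps {Λ : Set (Fin n → ℝ)} {ρ : (Fin n → ℝ) → ℝ} (hρ : Rho Λ ρ)
    {F : Set (Fin n → ℝ)} (hF : closure F ∩ Λ ⊆ F)
    {D : Set (Fin n → ℝ)} (hD : ∀ z ∈ Λ, ∃ U ∈ 𝓝 z, (D ∩ U).Finite)
    (hDF : Disjoint D F) :
    ∃ ε : (Fin n → ℝ) → ℝ, Continuous ε ∧ (∀ z ∈ Λ, 0 < ε z) ∧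
      ∀ z ∈ F, 2 * ε z ≤ ρ z ∧ ∀ d ∈ D, ε z ≤ ‖z - d‖ := by
  have hDc : ∀ z ∈ Λ, z ∈ closure D → z ∈ D := by
    intro z hz hzD
    obtain ⟨U, hU, hfin⟩ := hD z hz
    have h1 : z ∈ closure (D ∩ U) := by
      rw [mem_closure_iff_nhds] at hzD ⊢
      intro t ht
      obtain ⟨w, hw1, hw2⟩ := hzD _ (Filter.inter_mem ht hU)
      exact ⟨w, hw1.1, hw2, hw1.2⟩
    rw [hfin.isClosed.closure_eq] at h1
    exact h1.1
  -- distance functions with value one for the empty set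
  have key : ∀ S : Set (Fin n → ℝ), ∃ δ : (Fin n → ℝ) → ℝ, Continuous δ ∧
      (∀ z, z ∉ closure S → 0 < δ z) ∧ (∀ z, 0 ≤ δ z) ∧ (∀ z ∈ S, δ z = 0) ∧
      ∀ z, ∀ d ∈ S, δ z ≤ ‖z - d‖ := by
    intro S
    by_cases hne : S.Nonempty
    · refine ⟨fun z => infDist z S, continuous_infDist_pt _, fun z hz => ?_,
        fun z => infDist_nonneg, fun z hz => infDist_zero_of_mem hz, fun z d hd => ?_⟩
      · show 0 < infDist z S
        rw [← infDist_closure]
        exact (isClosed_closure.notMem_iff_infDist_pos hne.closure).1 hz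
      · rw [← dist_eq_norm]; exact infDist_le_dist_of_mem hd
    · refine ⟨fun _ => 1, continuous_const, fun _ _ => one_pos, fun _ => zero_le_one,
        fun z hz => absurd ⟨z, hz⟩ hne, fun z d hd => absurd ⟨d, hd⟩ hne⟩
  obtain ⟨δD, hD1, hD2, hD3, hD4, hD5⟩ := key D
  obtain ⟨δF, hF1, hF2, hF3, hF4, -⟩ := key F
  refine ⟨fun z => min (ρ z / 2) (max (δD z) (δF z)),
    (hρ.continuous.div_const 2).min (hD1.max hF1), fun z hz => ?_, fun z hz => ?_⟩
  · refine lt_min (by have := hρ.pos z hz; positivity) ?_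
    by_cases hzF : z ∈ closure F
    · have h1 : z ∈ F := hF ⟨hzF, hz⟩
      have h2 : z ∉ closure D := fun h => disjoint_left.1 hDF (hDc z hz h) h1
      exact lt_max_of_lt_left (hD2 z h2)
    · exact lt_max_of_lt_right (hF2 z hzF)
  · constructor
    · have : min (ρ z / 2) (max (δD z) (δF z)) ≤ ρ z / 2 := min_le_left _ _
      linarith
    · intro d hd
      refine (min_le_right _ _).trans ?_
      rw [hF4 z hz, max_eq_left (hD3 z)]
      exact hD5 z d hd

end Vale.Agent.P073.PA285
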