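import Vale.Agent.P073.PR720.Cx
import Vale.Agent.P073.PA285.SepR

/-!
# P073: choice of size functions from local conditions
-/

open Set Metric Topology Filter

namespace Vale.Agent.P073.PA285

open _root_.P073.PR720

section

variable {E : Type*} [NormedAddCommGroup E]

/-- a local condition on sizes at the point `y` -/
def LocAt (P : E → ℝ → Prop) (y : E) : Prop :=
  ∃ δ > 0, ∀ᶠ y' in 𝓝 y, ∀ s, 0 < s → s ≤ δ → P y' s

/-- a local condition on sizes -/
def Loc (Λ : Set E) (P : E → ℝ → Prop) : Prop := ∀ y ∈ Λ, LocAt P y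

theorem LocAt.and {P Q : E → ℝ → Prop} {y : E} (hP : LocAt P y) (hQ : LocAt Q y) :
    LocAt (fun y s => P y s ∧ Q y s) y := by
  obtain ⟨δ, hδ, h1⟩ := hP
  obtain ⟨δ', hδ', h2⟩ := hQ
  refine ⟨min δ δ', lt_min hδ hδ', ?_⟩
  filter_upwards [h1, h2] with z hz hz' s hs hsδ
  exact ⟨hz s hs (hsδ.trans (min_le_left _ _)), hz' s hs (hsδ.trans (min_le_right _ _))⟩

theorem Loc.and {Λ : Set E} {P Q : E → ℝ → Prop} (hP : Loc Λ P) (hQ : Loc Λ Q) :
    Loc Λ fun y s => P y s ∧ Q y s := fun y hy => (hP y hy).and (hQ y hy)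

/-- **Size functions**: a local condition is satisfied by a positive Lipschitz function. -/
theorem exists_size {Λ : Set E} {P : E → ℝ → Prop} (h : Loc Λ P) :
    ∃ ε : E → ℝ, (∀ x y, ε x ≤ ε y + ‖x - y‖ / 2) ∧ (∀ y, 0 ≤ ε y) ∧ (∀ y ∈ Λ, 0 < ε y) ∧
      (∀ y, ε y ≤ 1) ∧ ∀ y s, 0 < s → s ≤ ε y → P y s := by
  classical
  let T : E → Set ℝ := fun y => {r | ∃ z s, 0 < s ∧ (¬ P z s ∨ s = 1) ∧ r = s + ‖y - z‖}
  have hne : ∀ y, (1 : ℝ) ∈ T y := fun y => ⟨y, 1, one_pos, Or.inr rfl, by simp⟩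
  have h0 : ∀ y, ∀ r ∈ T y, 0 ≤ r := by
    rintro y r ⟨z, s, hs, -, rfl⟩
    positivity
  have hbdd : ∀ y, BddBelow (T y) := fun y => ⟨0, fun r hr => h0 y r hr⟩
  refine ⟨fun y => sInf (T y) / 2, ?_, ?_, ?_, ?_, ?_⟩
  · intro x y
    have : sInf (T x) - ‖x - y‖ ≤ sInf (T y) := by
      refine le_csInf ⟨1, hne y⟩ ?_
      rintro r ⟨z, s, hs, hz, rfl⟩
      have h1 : s + ‖x - z‖ ∈ T x := ⟨z, s, hs, hz, rfl⟩
      have h2 := csInf_le (hbdd x) h1
      have h3 : ‖x - z‖ ≤ ‖x - y‖ + ‖y - z‖ := by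
        have := norm_add_le (x - y) (y - z)
        rwa [sub_add_sub_cancel] at this
      linarith
    linarith
  · intro y
    have := Real.sInf_nonneg (h0 y)
    positivity
  · intro y hy
    obtain ⟨δ, hδ, hloc⟩ := h y hy
    obtain ⟨r, hr, hball⟩ := Metric.eventually_nhds_iff.1 hloc
    have : min (min δ r) 1 ≤ sInf (T y) := by
      refine le_csInf ⟨1, hne y⟩ ?_
      rintro _ ⟨z, s, hs, hz, rfl⟩
      by_cases hzr : dist z y < r
      · rcases hz with hz | hz
        · have : δ < s := by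
            by_contra hle
            push Not at hle
            exact hz (hball hzr s hs hle)
          exact ((min_le_left _ _).trans (min_le_left _ _)).trans
            (by linarith [norm_nonneg (y - z)])
        · exact (min_le_right _ _).trans (by rw [hz]; linarith [norm_nonneg (y - z)])
      · push Not at hzr
        rw [dist_comm, dist_eq_norm] at hzr
        exact ((min_le_left _ _).trans (min_le_right _ _)).trans (by linarith)
    have h2 : 0 < min (min δ r) 1 := lt_min (lt_min hδ hr) one_pos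
    linarith
  · intro y
    have h1 := csInf_le (hbdd y) (hne y)
    linarith
  · intro y s hs hsy
    by_contra hP
    have h1 : s ∈ T y := ⟨y, s, hs, Or.inl hP, by simp⟩
    have h2 := csInf_le (hbdd y) h1
    linarith

theorem size_continuous {ε : E → ℝ} (h : ∀ x y, ε x ≤ ε y + ‖x - y‖ / 2) : Continuous ε := by
  have : LipschitzWith (1 / 2) ε := by
    refine LipschitzWith.of_le_add_mul _ fun x y => ?_
    have := h x y
    rw [dist_eq_norm]
    have h2 : ((1 / 2 : NNReal) : ℝ) = 1 / 2 := by norm_num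
    rw [h2]
    linarith
  exact this.continuous

/-- condition `s ≤ u y` for a positive continuous function -/
theorem Loc.of_cont {Λ : Set E} (hΛ : IsOpen Λ) {u : E → ℝ} (hu : ContinuousOn u Λ)
    (hp : ∀ y ∈ Λ, 0 < u y) : Loc Λ fun y s => s < u y := by
  intro y hy
  refine ⟨u y / 2, by have := hp y hy; positivity, ?_⟩
  have h1 : ∀ᶠ y' in 𝓝 y, u y / 2 < u y' :=
    (hu.continuousAt (hΛ.mem_nhds hy)).eventually (lt_mem_nhds (by have := hp y hy; linarith))
  filter_upwards [h1] with z hz s _ hs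
  linarith

/-- a constant bound -/
theorem LocAt.const {ω : ℝ} (hω : 0 < ω) (y : E) : LocAt (fun (_ : E) s => s ≤ ω) y :=
  ⟨ω, hω, Eventually.of_forall fun _ _ _ h => h⟩

/-- a locally finite family of local conditions -/
theorem Loc.forall_LF {Λ : Set E} {ι : Type*} {A : ι → Set E} (hA : LF A Λ)
    (hcl : ∀ i, closure (A i) ∩ Λ ⊆ A i) {P : ι → E → ℝ → Prop}
    (h : ∀ i, ∀ y ∈ A i, y ∈ Λ → LocAt (P i) y) :
    Loc Λ fun y s => ∀ i, y ∈ A i → P i y s := by
  classical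
  intro y hy
  obtain ⟨U, hU, hfin⟩ := hA y hy
  -- for each `i` there is a bound
  have key : ∀ i, LocAt (fun y' s => y' ∈ A i → P i y' s) y := by
    intro i
    by_cases hyi : y ∈ A i
    · obtain ⟨δ, hδ, h1⟩ := h i y hyi hy
      exact ⟨δ, hδ, h1.mono fun z hz s hs hsδ _ => hz s hs hsδ⟩
    · refine ⟨1, one_pos, ?_⟩
      have : y ∉ closure (A i) := fun hc => hyi (hcl i ⟨hc, hy⟩)
      filter_upwards [isClosed_closure.isOpen_compl.mem_nhds this] with z hz s _ _ hzi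
      exact absurd (subset_closure hzi) hz
  choose δ hδ hloc using key
  rcases {i | (A i ∩ U).Nonempty}.eq_empty_or_nonempty with he | hne
  · refine ⟨1, one_pos, ?_⟩
    filter_upwards [hU] with z hz s _ _ i hi
    exact absurd (show i ∈ {i | (A i ∩ U).Nonempty} from ⟨z, hi, hz⟩) (by rw [he]; simp)
  · obtain ⟨i₀, -, hmin⟩ := hfin.exists_minimalFor δ _ hne
    have hmin' : ∀ i ∈ {i | (A i ∩ U).Nonempty}, δ i₀ ≤ δ i := fun i hi => by
      rcases le_total (δ i) (δ i₀) with h1 | h1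
      · exact hmin hi h1
      · exact h1
    refine ⟨δ i₀, hδ i₀, ?_⟩
    have hall : ∀ᶠ y' in 𝓝 y, ∀ i ∈ {i | (A i ∩ U).Nonempty}, ∀ s, 0 < s → s ≤ δ i →
        y' ∈ A i → P i y' s := by
      rw [eventually_all_finite hfin]
      exact fun i _ => hloc i
    filter_upwards [hall, hU] with z hz hzU s hs hsδ i hi
    have hmem : i ∈ {i | (A i ∩ U).Nonempty} := ⟨z, hi, hzU⟩
    exact hz i hmem s hs (hsδ.trans (hmin' i hmem)) hi

/-- distance to a relatively closed set -/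
theorem LocAt.far {Λ : Set E} {B : Set E} (hB : closure B ∩ Λ ⊆ B) {y : E} (hy : y ∈ Λ)
    (hyB : y ∉ B) : LocAt (fun y' s => ∀ z ∈ B, s < ‖z - y'‖) y := by
  have h1 : y ∉ closure B := fun h => hyB (hB ⟨h, hy⟩)
  obtain ⟨r, hr, hball⟩ := Metric.isOpen_iff.1 isClosed_closure.isOpen_compl y h1
  refine ⟨r / 3, by positivity, ?_⟩
  filter_upwards [ball_mem_nhds y (show 0 < r / 2 by positivity)] with w hw s _ hs z hz
  by_contra hle
  push Not at hle
  refine hball ?_ (subset_closure hz)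
  rw [mem_ball] at hw ⊢
  have h2 := dist_triangle z w y
  rw [dist_eq_norm z w] at h2
  linarith

/-- distance of `g y` to a set -/
theorem LocAt.far_map {F : Type*} [NormedAddCommGroup F] {g : E → F} {B : Set F} {y : E}
    (hg : ContinuousAt g y) (hyB : g y ∉ closure B) :
    LocAt (fun y' s => ∀ z ∈ B, s < ‖g y' - z‖) y := by
  obtain ⟨r, hr, hball⟩ := Metric.isOpen_iff.1 isClosed_closure.isOpen_compl _ hyB
  refine ⟨r / 3, by positivity, ?_⟩
  filter_upwards [hg (ball_mem_nhds (g y) (show 0 < r / 2 by positivity))] with w hw s _ hs z hz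
  by_contra hle
  push Not at hle
  refine hball ?_ (subset_closure hz)
  have hw' : dist (g w) (g y) < r / 2 := hw
  rw [mem_ball]
  have h2 := dist_triangle z (g w) (g y)
  rw [dist_comm z (g w), dist_eq_norm (g w) z] at h2
  linarith

/-- locally finite families and compact sets -/
theorem LF.finite_compact {ι : Type*} {A : ι → Set E} {W K : Set E} (h : LF A W)
    (hK : IsCompact K) (hKW : K ⊆ W) : {i | (A i ∩ K).Nonempty}.Finite := by
  classical
  choose! U hU hfin using h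
  obtain ⟨t, ht, hKt⟩ := hK.elim_nhds_subcover U fun x hx => hU x (hKW hx)
  refine (t.finite_toSet.biUnion fun x hx => hfin x (hKW (ht x hx))).subset ?_
  rintro i ⟨z, hzi, hzK⟩
  obtain ⟨x, hx, hzx⟩ := mem_iUnion₂.1 (hKt hzK)
  exact mem_iUnion₂.2 ⟨x, hx, ⟨z, hzi, hzx⟩⟩

/-- locally finite union of relatively closed sets -/
theorem LF.rc_iUnion {ι : Type*} {A : ι → Set E} {W : Set E} (h : LF A W)
    (hA : ∀ i, closure (A i) ∩ W ⊆ A i) : closure (⋃ i, A i) ∩ W ⊆ ⋃ i, A i := by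
  rintro z ⟨hcl, hz⟩
  obtain ⟨U, hU, hfin⟩ := h z hz
  have h1 : z ∈ closure (⋃ i ∈ {i | (A i ∩ U).Nonempty}, A i) := by
    rw [mem_closure_iff_nhds] at hcl ⊢
    intro t ht
    obtain ⟨y, ⟨hyt, hyU⟩, hyA⟩ := hcl (t ∩ U) (inter_mem ht hU)
    obtain ⟨i, hi⟩ := mem_iUnion.1 hyA
    exact ⟨y, hyt, mem_biUnion (show i ∈ {i | (A i ∩ U).Nonempty} from ⟨y, hi, hyU⟩) hi⟩
  rw [hfin.closure_biUnion] at h1
  obtain ⟨i, -, hi⟩ := mem_iUnion₂.1 h1
  exact mem_iUnion.2 ⟨i, hA i ⟨hi, hz⟩⟩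

end

section

variable {n : ℕ}

/-- thickenings of a locally finite family by a size function below `Rho` are locally finite -/
theorem LF.thicken {ι : Type*} {Λ : Set (Fin n → ℝ)} {ρ : (Fin n → ℝ) → ℝ} (hρ : Rho Λ ρ)
    {A : ι → Set (Fin n → ℝ)} (hA : LF A Λ) {ε : (Fin n → ℝ) → ℝ}
    (hε : ∀ i, ∀ y ∈ A i, 2 * ε y ≤ ρ y) :
    LF (fun i => {z | ∃ y ∈ A i, ‖z - y‖ ≤ ε y}) Λ := by
  intro z₀ hz₀
  have h0 := hρ.pos z₀ hz₀
  set c := ρ z₀ with hc
  have hK := hρ.compact (show 0 < c / 4 by positivity)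
  have hKΛ := hρ.subset (show 0 < c / 4 by positivity)
  refine ⟨{z | c / 2 < ρ z}, (isOpen_lt continuous_const hρ.continuous).mem_nhds (by
    show c / 2 < ρ z₀
    rw [← hc]; linarith), (LF.finite_compact hA hK hKΛ).subset ?_⟩
  rintro i ⟨z, ⟨y, hy, hzy⟩, hz⟩
  refine ⟨y, hy, ?_⟩
  show c / 4 ≤ ρ y
  have h1 := hρ.lip z y
  have h2 := hε i y hy
  have h3 : c / 2 < ρ z := hz
  linarith

end

end Vale.Agent.P073.PA285
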