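import Vale.Agent.P073.PA691.Spec
import Vale.Agent.P073.PA285.Punct
import Vale.Agent.P073.PA285.Size
import Vale.Agent.P073.PA285.Asm

/-!
# P073, block MAIN: geometry of a handle structure
-/

open Set Metric Topology Filter

namespace Vale.Agent.P073.PA285

open _root_.P073 _root_.P073.PA691 _root_.P073.PR720 Vale.Agent.P073.St

/-- a conical sphere of positive dimension is connected -/
theorem conSphere_isPreconnected {E : Type*} [NormedAddCommGroup E] [NormedSpace ℝ E] {n : ℕ}
    (hn : 1 ≤ n) {B : Set E} (h : ConSphere n B) : IsPreconnected B := by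
  obtain ⟨φ⟩ := h
  have hrank : 1 < Module.rank ℝ (Fin (n + 1) → ℝ) := by
    rw [rank_fin_fun]; exact_mod_cast (by omega : 1 < n + 1)
  have h1 : IsConnected (sphere (0 : Fin (n + 1) → ℝ) 1) := isConnected_sphere hrank 0 zero_le_one
  rw [← φ.symm.image_eq]
  exact h1.isPreconnected.image _ φ.cont_inv

variable {Λ : Set V} (S : Handle Λ)

theorem F_subΛ : S.F ⊆ Λ := by
  rw [← S.H_frontier]; exact inter_subset_right

theorem F_sub_H : S.F ⊆ S.H := by
  intro z hz
  rw [← S.H_frontier] at hz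
  exact S.H_closed ⟨hz.1.1, hz.2⟩

theorem F_closed : closure S.F ∩ Λ ⊆ S.F := by
  rintro z ⟨hz, hzΛ⟩
  rw [← S.H_frontier]
  refine ⟨?_, hzΛ⟩
  have h1 : closure S.F ⊆ frontier S.H :=
    closure_minimal (S.H_frontier ▸ inter_subset_left) isClosed_frontier
  exact h1 hz

theorem notMem_F_of_interior {z : V} (hz : z ∈ interior S.H) : z ∉ S.F := by
  intro h
  rw [← S.H_frontier] at h
  exact h.1.2 hz

theorem notMem_F_of_notMem {z : V} (hz : z ∉ S.H) : z ∉ S.F := fun h => hz (F_sub_H S h)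

theorem mem_interior_of {z : V} (hz : z ∈ S.H) (hzF : z ∉ S.F) : z ∈ interior S.H := by
  by_contra h
  refine hzF ?_
  rw [← S.H_frontier]
  exact ⟨⟨subset_closure hz, h⟩, S.H_sub hz⟩

/-- the points of `Q0` on `F` are on the circle `ζ` -/
theorem mem_ζ (d : S.D) {y : P2} (hy : y ∈ Q0) (h : S.ι d y ∈ S.F) : y ∈ S.ζ d := by
  by_contra hyζ
  by_cases hd : S.out d
  · by_cases hyΔ : y ∈ S.Δ d
    · exact notMem_F_of_notMem S ((S.out_in d hd).1 y hyΔ hyζ) h
    · exact notMem_F_of_interior S ((S.out_in d hd).2 y hy hyΔ) h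
  · by_cases hyΔ : y ∈ S.Δ d
    · exact notMem_F_of_interior S ((S.in_in d hd).1 y hyΔ hyζ) h
    · exact notMem_F_of_notMem S ((S.in_in d hd).2 y hy hyΔ) h

theorem Δ_subQ (d : S.D) : S.Δ d ⊆ Q0 := (S.Δ_sub d).trans ball_subset_closedBall

theorem ζ_subΔ (d : S.D) : S.ζ d ⊆ S.Δ d := (S.Δ_ball d).1

theorem zero_memQ : (0 : P2) ∈ Q0 := mem_closedBall_self zero_le_one

theorem isCompact_Q (d : S.D) : IsCompact (S.ι d '' Q0) :=
  (isCompact_closedBall _ _).image (S.ι d).continuous

theorem convex_Q (d : S.D) : Convex ℝ (S.ι d '' Q0) :=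
  (convex_closedBall _ _).affine_image (S.ι d).toAffineMap

theorem ι_inj (d : S.D) : Function.Injective (S.ι d) := by
  intro u w h
  have := S.n_ind d u w 0 (by rw [zero_smul, add_zero, h])
  exact this.2

theorem image_diff_ι (d : S.D) (A B : Set P2) :
    S.ι d '' A \ S.ι d '' B = S.ι d '' (A \ B) := by
  rw [image_sdiff (ι_inj S d)]

theorem R_subΛ (j : S.J) : S.R j ⊆ Λ := (subset_iUnion S.R j).trans S.cover.subset

theorem X_eq' : S.X = ⋃ j, frontier (S.R j) := S.X_eq.symm

theorem fr_sub (j : S.J) : frontier (S.R j) ⊆ S.R j := (S.isBall j).isClosed.frontier_subset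

/-- the cells of the handle structure -/
def cells : Cells Λ where
  J := S.J
  A := S.AF ⊕ S.D
  R := S.R
  isBall := S.isBall
  E := Sum.elim S.E fun d => S.ι d '' S.Δ d
  bE := Sum.elim S.bE fun d => S.ι d '' S.ζ d
  conn := by
    rintro (a | d)
    · exact S.conn a
    · show IsPreconnected (S.ι d '' S.Δ d \ S.ι d '' S.ζ d)
      rw [image_diff_ι]
      exact ((S.Δ_ball d).diff_preconn_dense (by norm_num)).1.image _
        (S.ι d).continuous.continuousOn
  dense := by
    rintro (a | d)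
    · exact S.dense a
    · show S.ι d '' S.Δ d ⊆ closure (S.ι d '' S.Δ d \ S.ι d '' S.ζ d)
      rw [image_diff_ι]
      exact (image_mono ((S.Δ_ball d).diff_preconn_dense (by norm_num)).2).trans
        (image_closure_subset_closure_image (S.ι d).continuous)
  cover := S.cover
  lf := S.lf
  bdry := by
    intro j x hx
    rcases S.bdry j x hx with ⟨a, h1, h2⟩ | ⟨d, h1, h2⟩
    · exact ⟨Sum.inl a, h1, h2⟩
    · exact ⟨Sum.inr d, h1, h2⟩
  used := by
    rintro (a | d)
    · exact S.used a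
    · exact S.usedD d
  off := by
    rintro (a | d) j
    · exact S.off a j
    · exact S.offD d j
  sep := S.sep

theorem cells_X : (cells S).X = S.X := S.X_eq

theorem ι_zero_notMem_F (d : S.D) : S.ι d 0 ∉ S.F := fun h =>
  (S.zero_mem d).2 (mem_ζ S d zero_memQ h)

/-- the set of discs in the frontier of the cell `j` is finite -/
theorem core_finite (j : S.J) : {d | S.ι d '' S.Δ d ⊆ frontier (S.R j)}.Finite := by
  refine (LF.finite_compact S.Q_lf (S.isBall j).isCompact (R_subΛ S j)).subset ?_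
  intro d hd
  refine ⟨S.ι d 0, mem_image_of_mem _ zero_memQ, fr_sub S j (hd ?_)⟩
  exact mem_image_of_mem _ (S.zero_mem d).1

theorem core_compact (j : S.J) : IsCompact (S.core j) := by
  refine (S.isBall j).isCompact_bdry.union ?_
  exact (core_finite S j).isCompact_biUnion fun d _ => isCompact_Q S d

theorem core_subΛ (j : S.J) : S.core j ⊆ Λ := by
  refine union_subset ((fr_sub S j).trans (R_subΛ S j)) ?_
  exact iUnion₂_subset fun d _ => S.Q_sub d

theorem core_lf : LF S.core Λ := by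
  intro z hz
  obtain ⟨U, hU, hfin⟩ := S.lf z hz
  obtain ⟨U', hU', hfin'⟩ := S.Q_lf z hz
  refine ⟨U ∩ U', inter_mem hU hU', (hfin.union (hfin'.biUnion fun d _ =>
    LF.finite_compact S.lf (isCompact_singleton (x := S.ι d 0)) (singleton_subset_iff.2
      (S.Q_sub d (mem_image_of_mem _ zero_memQ))))).subset ?_⟩
  rintro j ⟨w, hw, hwU, hwU'⟩
  rcases hw with hw | hw
  · exact Or.inl ⟨w, fr_sub S j hw, hwU⟩
  · obtain ⟨d, hd, hwd⟩ := mem_iUnion₂.1 hw
    right
    refine mem_iUnion₂.2 ⟨d, ⟨w, hwd, hwU'⟩, S.ι d 0, ?_, rfl⟩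
    exact fr_sub S j (hd (mem_image_of_mem _ (S.zero_mem d).1))

theorem Core_closed : closure (⋃ j, S.core j) ∩ Λ ⊆ ⋃ j, S.core j :=
  LF.rc_iUnion (core_lf S) fun j => by
    rw [(core_compact S j).isClosed.closure_eq]; exact inter_subset_left

theorem frontier_sub_core (j : S.J) : frontier (S.R j) ⊆ S.core j := subset_union_left

theorem Q_sub_core {j : S.J} {d : S.D} (h : S.ι d '' S.Δ d ⊆ frontier (S.R j)) :
    S.ι d '' Q0 ⊆ S.core j := fun _ hz => Or.inr (mem_iUnion₂.2 ⟨d, h, hz⟩)

/-- a point of `ι Δ` in the frontier of `R j`, not on `F`: the whole disc is in the frontier -/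
theorem disc_sub_of_mem {j : S.J} {d : S.D} {z : V} (hz : z ∈ S.ι d '' S.Δ d) (hzF : z ∉ S.F)
    (hzj : z ∈ S.R j) : S.ι d '' S.Δ d ⊆ frontier (S.R j) := by
  by_contra h
  exact hzF (S.ζ_sub d (S.offD d j h ⟨hz, hzj⟩))

/-- two different discs meet in `F` only -/
theorem disc_inter {d d' : S.D} (h : d ≠ d') : S.ι d '' S.Δ d ∩ S.ι d' '' S.Δ d' ⊆ S.F := by
  rintro _ ⟨⟨u, hu, rfl⟩, ⟨u', hu', he⟩⟩
  by_cases hs : S.out d ↔ S.out d'
  · exact (disjoint_left.1 (S.Q_disj d d' hs h) (mem_image_of_mem _ (Δ_subQ S d hu))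
      ⟨u', Δ_subQ S d' hu', he⟩).elim
  · by_contra hF
    have h1 : u ∉ S.ζ d := fun hz => hF (S.ζ_sub d (mem_image_of_mem _ hz))
    have h2 : u' ∉ S.ζ d' := fun hz => hF (S.ζ_sub d' (he ▸ mem_image_of_mem _ hz))
    by_cases hd : S.out d
    · have hd' : ¬ S.out d' := fun h3 => hs ⟨fun _ => h3, fun _ => hd⟩
      have h3 := (S.out_in d hd).1 u hu h1
      have h4 := (S.in_in d' hd').1 u' hu' h2
      rw [he] at h4
      exact h3 (interior_subset h4)
    · have hd' : S.out d' := by
        by_contra h3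
        exact hs ⟨fun h4 => absurd h4 hd, fun h4 => absurd h4 h3⟩
      have h3 := (S.in_in d hd).1 u hu h1
      have h4 := (S.out_in d' hd').1 u' hu' h2
      rw [he] at h4
      exact h4 (interior_subset h3)

theorem X_subΛ : S.X ⊆ Λ := by
  rw [X_eq']
  exact iUnion_subset fun j => (fr_sub S j).trans (R_subΛ S j)

theorem R_inter_X (j : S.J) : S.R j ∩ S.X ⊆ frontier (S.R j) := by
  rintro z ⟨hz, hzX⟩
  rw [X_eq'] at hzX
  obtain ⟨i, hi⟩ := mem_iUnion.1 hzX
  by_cases hij : j = i
  · subst hij; exact hi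
  · exact S.sep j i hij ⟨hz, fr_sub S i hi⟩

/-- `F` is connected -/
theorem F_connected (hΛc : IsPreconnected Λ) : IsConnected S.F := by
  constructor
  · -- nonempty
    by_contra hne
    rw [not_nonempty_iff_eq_empty] at hne
    have hopen : S.H ⊆ interior S.H := fun z hz =>
      mem_interior_of S hz (by rw [hne]; exact notMem_empty z)
    have hHo : IsOpen S.H := by
      rw [← interior_eq_iff_isOpen]
      exact Subset.antisymm interior_subset hopen
    obtain ⟨z, hz⟩ := S.H_int
    obtain ⟨w, hw⟩ := S.H_ne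
    exact hw.2 (hΛc.subset_of_closure_inter_subset hHo ⟨z, S.H_sub (interior_subset hz),
      interior_subset hz⟩ S.H_closed hw.1)
  · -- step 1: `X` is connected
    have hX : S.X = Λ \ ⋃ j, interior (S.R j) := by
      rw [X_eq']
      apply Subset.antisymm
      · intro z hz
        obtain ⟨j, hj⟩ := mem_iUnion.1 hz
        refine ⟨R_subΛ S j (fr_sub S j hj), fun h => ?_⟩
        obtain ⟨i, hi⟩ := mem_iUnion.1 h
        by_cases hij : i = j
        · subst hij; exact hj.2 hi
        · exact (S.sep i j hij ⟨interior_subset hi, fr_sub S j hj⟩).2 hi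
      · rintro z ⟨hz, hz2⟩
        obtain ⟨j, hj⟩ := mem_iUnion.1 (S.cover.symm.subset hz)
        refine mem_iUnion.2 ⟨j, subset_closure hj, fun h => hz2 (mem_iUnion.2 ⟨j, h⟩)⟩
    have hXc : IsPreconnected S.X := by
      rw [hX]
      refine punct hΛc (C := S.R) (R_subΛ S) (fun j => (S.isBall j).isClosed) S.lf
        (fun j => interior_subset) ?_ ?_ ?_
      · intro i j hij
        rw [disjoint_left]
        intro z hz hzj
        exact (S.sep i j hij ⟨interior_subset hz, hzj⟩).2 hz
      · intro j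
        have h1 : S.R j \ interior (S.R j) = frontier (S.R j) := by
          rw [frontier, (S.isBall j).isClosed.closure_eq]
        rw [h1]
        exact conSphere_isPreconnected (by norm_num) (S.isBall j).conSphere
      · rintro z ⟨hz, hzΛ⟩
        refine ⟨hzΛ, fun h => ?_⟩
        have hopen : IsOpen (⋃ j, interior (S.R j)) := isOpen_iUnion fun _ => isOpen_interior
        obtain ⟨w, hw1, hw2⟩ := mem_closure_iff.1 hz _ hopen h
        exact hw2.2 hw1
    -- step 2: remove the open discs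
    have hF : S.F = S.X \ ⋃ d, S.ι d '' (S.Δ d \ S.ζ d) := by
      apply Subset.antisymm
      · intro z hz
        refine ⟨Or.inl hz, fun h => ?_⟩
        obtain ⟨d, u, hu, rfl⟩ := mem_iUnion.1 h
        exact hu.2 (mem_ζ S d (Δ_subQ S d hu.1) hz)
      · rintro z ⟨hz | hz, hz2⟩
        · exact hz
        · obtain ⟨d, u, hu, rfl⟩ := mem_iUnion.1 hz
          by_contra hzF
          exact hz2 (mem_iUnion.2 ⟨d, u, ⟨hu, fun h => hzF (S.ζ_sub d (mem_image_of_mem _ h))⟩,
            rfl⟩)
    rw [hF]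
    refine punct hXc (C := fun d => S.ι d '' S.Δ d) (fun d z hz => Or.inr (mem_iUnion.2 ⟨d, hz⟩))
      (fun d => ((S.Δ_ball d).isCompact.image (S.ι d).continuous).isClosed) ?_
      (fun d => image_mono sdiff_subset) ?_ ?_ ?_
    · intro z hz
      obtain ⟨U, hU, hfin⟩ := S.Q_lf z (X_subΛ S hz)
      exact ⟨U, hU, hfin.subset fun d hd =>
        hd.mono (inter_subset_inter_left _ (image_mono (Δ_subQ S d)))⟩
    · intro d d' hd
      rw [disjoint_left]
      rintro _ ⟨u, hu, rfl⟩ hz
      have h1 := disc_inter S hd ⟨mem_image_of_mem _ hu.1, hz⟩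
      exact hu.2 (mem_ζ S d (Δ_subQ S d hu.1) h1)
    · intro d
      have h1 : S.ι d '' S.Δ d \ S.ι d '' (S.Δ d \ S.ζ d) = S.ι d '' S.ζ d := by
        rw [image_diff_ι, sdiff_sdiff_right_self]
        congr 1
        exact inter_eq_right.2 (ζ_subΔ S d)
      rw [h1]
      exact (conSphere_isPreconnected (by norm_num) (S.Δ_ball d).conSphere).image _
        (S.ι d).continuous.continuousOn
    · rw [← hF]
      rintro z ⟨hz, hzX⟩
      exact F_closed S ⟨hz, X_subΛ S hzX⟩

end Vale.Agent.P073.PA285
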