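import Vale.Agent.P073.PA285.HColl
import Vale.Agent.P073.PA285.SpecSides
import Vale.Agent.P073.PA285.SpecAsm

/-!
# P073, block MAIN: `SpecMainOf` of `PA691/Spec.lean`
-/

open Set Metric Topology Filter

namespace Vale.Agent.P073.PA285

open _root_.P073 _root_.P073.PA691 _root_.P073.PR720 Vale.Agent.P073.St

variable {Λ : Set V} (S : Handle Λ)

/-- the section `y ↦ κ (y, 0)` of a collar -/
def sec0 {N : Set V} (κ : ConHomeo (S.F ×ˢ Icc (-1:ℝ) 1) N) :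
    ConHomeo S.F ((fun y => κ.toFun (y, 0)) '' S.F) where
  toFun := fun y => κ.toFun (y, 0)
  invFun := fun x => (κ.invFun x).1
  mapsTo := mapsTo_image _ _
  mapsTo_inv := by
    rintro _ ⟨y, hy, rfl⟩
    show (κ.invFun (κ.toFun (y, 0))).1 ∈ S.F
    rw [κ.left_inv (⟨hy, by norm_num, by norm_num⟩ : (y, (0:ℝ)) ∈ S.F ×ˢ Icc (-1:ℝ) 1)]
    exact hy
  left_inv := by
    intro y hy
    show (κ.invFun (κ.toFun (y, 0))).1 = y
    rw [κ.left_inv (⟨hy, by norm_num, by norm_num⟩ : (y, (0:ℝ)) ∈ S.F ×ˢ Icc (-1:ℝ) 1)]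
  right_inv := by
    rintro _ ⟨y, hy, rfl⟩
    show κ.toFun ((κ.invFun (κ.toFun (y, 0))).1, 0) = κ.toFun (y, 0)
    rw [κ.left_inv (⟨hy, by norm_num, by norm_num⟩ : (y, (0:ℝ)) ∈ S.F ×ˢ Icc (-1:ℝ) 1)]
  cont := κ.cont.comp (continuous_id.prodMk continuous_const).continuousOn
    fun y hy => ⟨hy, by norm_num, by norm_num⟩
  cont_inv := by
    refine continuous_fst.comp_continuousOn (κ.cont_inv.mono ?_)
    rintro _ ⟨y, hy, rfl⟩
    exact κ.mapsTo ⟨hy, by norm_num, by norm_num⟩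
  conical := by
    have hF : ConicalSet S.F :=
      conSet_fst (s := (0:ℝ)) (T := Icc (-1:ℝ) 1) ⟨by norm_num, by norm_num⟩ κ.conicalSet_left
    have h1 : ConicalOn (fun y : V => (y, (0:ℝ))) S.F :=
      (conicalOn_id hF).prodMk (conicalOn_const (0:ℝ) hF)
    exact κ.conical.comp h1 (fun y hy => ⟨hy, by norm_num, by norm_num⟩)
      (continuous_id.prodMk continuous_const).continuousOn

/-- the flat discs are conical balls -/
theorem ball_ιΔ (d : S.D) : ConBall 2 (S.ι d '' S.Δ d) (S.ι d '' S.ζ d) := by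
  have hc : ConicalOn (S.ι d) Q0 :=
    conicalOn_of_affine (S.ι d).toAffineMap (convex_closedBall (0 : P2) 1).conicalSet
  let Φ : ConHomeo Q0 (S.ι d '' Q0) := ConHomeo.ofCompact (isCompact_closedBall _ _) (S.ι d)
    (S.ι d).continuous.continuousOn (ι_inj S d).injOn hc rfl
  have h1 := (S.Δ_ball d).image Φ (Δ_subQ S d)
  have h2 : Φ.toFun = S.ι d := ConHomeo.ofCompact_toFun _ _ _ _ _ _
  rwa [h2] at h1

/-- the homeomorphism of the skeleton -/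
theorem exists_k {Ω : Set V} {N : Set V} (κ : ConHomeo (S.F ×ˢ Icc (-1:ℝ) 1) N) (hNΩ : N ⊆ Ω)
    (hNcl : closure N ∩ Ω ⊆ N) (D : S.D → Set V)
    (hD : ∀ d, ConBall 2 (D d) ((fun y => κ.toFun (y, 0)) '' (S.ι d '' S.ζ d)))
    (hDF : ∀ d, D d ∩ (fun y => κ.toFun (y, 0)) '' S.F ⊆
      (fun y => κ.toFun (y, 0)) '' (S.ι d '' S.ζ d)) (hDΩ : ∀ d, D d ⊆ Ω)
    (hDD : ∀ d d', d ≠ d' → D d ∩ D d' ⊆ (fun y => κ.toFun (y, 0)) '' S.F) (hlf : LF D Ω) :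
    ∃ (X' : Set V) (k : ConHomeo S.X X'), X' = ((fun y => κ.toFun (y, 0)) '' S.F) ∪ ⋃ d, D d ∧
      X' ⊆ Ω ∧ closure X' ∩ Ω ⊆ X' ∧ (∀ y ∈ S.F, k.toFun y = κ.toFun (y, 0)) ∧
      ∀ d, k.toFun '' (S.ι d '' S.Δ d) = D d := by
  set F' : Set V := (fun y => κ.toFun (y, 0)) '' S.F with hF'
  have h0m : ∀ y ∈ S.F, (y, (0:ℝ)) ∈ S.F ×ˢ Icc (-1:ℝ) 1 :=
    fun y hy => ⟨hy, by norm_num, by norm_num⟩
  have hF'N : F' ⊆ N := by
    rintro _ ⟨y, hy, rfl⟩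
    exact κ.mapsTo (h0m y hy)
  have hF'cl : closure F' ∩ Ω ⊆ F' := by
    rintro x ⟨hx, hxΩ⟩
    have hxN : x ∈ N := hNcl ⟨closure_mono hF'N hx, hxΩ⟩
    have h1 : κ.invFun x ∈ closure (κ.invFun '' F') :=
      ((κ.cont_inv x hxN).mono hF'N).mem_closure_image hx
    have h2 : κ.invFun '' F' ⊆ {p : V × ℝ | p.2 = 0} := by
      rintro _ ⟨_, ⟨y, hy, rfl⟩, rfl⟩
      show (κ.invFun (κ.toFun (y, 0))).2 = 0
      rw [κ.left_inv (h0m y hy)]
    have h3 : κ.invFun x ∈ {p : V × ℝ | p.2 = 0} :=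
      (isClosed_eq continuous_snd continuous_const).closure_subset (closure_mono h2 h1)
    have h4 : (κ.invFun x).2 = 0 := h3
    refine ⟨(κ.invFun x).1, (κ.mapsTo_inv hxN).1, ?_⟩
    show κ.toFun ((κ.invFun x).1, 0) = x
    rw [← h4]
    exact κ.right_inv hxN
  have hlfC : LF (fun d => S.ι d '' S.Δ d) Λ :=
    S.Q_lf.subset fun d => image_mono (Δ_subQ S d)
  have hXeq : S.F ∪ ⋃ d, S.ι d '' S.Δ d = S.X := rfl
  obtain ⟨Φ, hΦ1, hΦ2⟩ := ConHomeo.exists_extend_cells (sec0 S κ) (fun _ => 2)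
    (fun d => S.ι d '' S.Δ d) (fun d => S.ι d '' S.ζ d) D
    (fun d => (fun y => κ.toFun (y, 0)) '' (S.ι d '' S.ζ d)) (ball_ιΔ S) hD (fun _ => rfl)
    (by
      intro d
      apply Subset.antisymm
      · rintro _ ⟨⟨u, hu, rfl⟩, huF⟩
        exact mem_image_of_mem _ (mem_ζ S d (Δ_subQ S d hu) huF)
      · rintro _ ⟨u, hu, rfl⟩
        exact ⟨mem_image_of_mem _ (ζ_subΔ S d hu), S.ζ_sub d (mem_image_of_mem _ hu)⟩)
    (by
      intro d
      apply Subset.antisymm (hDF d)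
      rintro _ ⟨w, hw, rfl⟩
      exact ⟨(hD d).1 (mem_image_of_mem _ hw), mem_image_of_mem _ (S.ζ_sub d hw)⟩)
    (fun d d' h => disc_inter S h) hDD
    (fun z hz hzF => F_closed S ⟨hzF, X_subΛ S hz⟩)
    (fun z hz hzF => hF'cl ⟨hzF, by
      rcases hz with h | h
      · exact hNΩ (hF'N h)
      · obtain ⟨d, hd⟩ := mem_iUnion.1 h
        exact hDΩ d hd⟩)
    (fun z hz => hlfC z (X_subΛ S hz))
    (fun z hz => hlf z (by
      rcases hz with h | h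
      · exact hNΩ (hF'N h)
      · obtain ⟨d, hd⟩ := mem_iUnion.1 h
        exact hDΩ d hd))
  refine ⟨F' ∪ ⋃ d, D d, Φ, rfl, ?_, ?_, hΦ1, hΦ2⟩
  · exact union_subset (hF'N.trans hNΩ) (iUnion_subset hDΩ)
  · rintro x ⟨hx, hxΩ⟩
    rw [closure_union] at hx
    rcases hx with hx | hx
    · exact Or.inl (hF'cl ⟨hx, hxΩ⟩)
    · exact Or.inr (hlf.closed (fun d => (hD d).isClosed) hxΩ hx)

end Vale.Agent.P073.PA285
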