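import Vale.Agent.P073.PA285.HDisc

/-!
# P073, block MAIN: size functions
-/

open Set Metric Topology Filter

namespace Vale.Agent.P073.PA285

open _root_.P073 _root_.P073.PA691 _root_.P073.PR720 Vale.Agent.P073.St

variable {Λ : Set V} (S : Handle Λ)

/-- a condition on one relatively closed set -/
theorem Loc.on {E : Type*} [NormedAddCommGroup E] {Λ A : Set E} (hA : closure A ∩ Λ ⊆ A)
    {P : E → ℝ → Prop} (h : ∀ y ∈ A, y ∈ Λ → LocAt P y) : Loc Λ fun y s => y ∈ A → P y s := by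
  have h1 : LF (fun _ : Unit => A) Λ := fun z _ => ⟨univ, univ_mem, toFinite _⟩
  have h2 := Loc.forall_LF h1 (fun _ => hA) (P := fun _ => P) (fun _ => h)
  intro y hy
  obtain ⟨δ, hδ, h3⟩ := h2 y hy
  exact ⟨δ, hδ, h3.mono fun z hz s hs hsδ hzA => hz s hs hsδ () hzA⟩

theorem LF.singletons {E : Type*} [NormedAddCommGroup E] {ι : Type*} {A : ι → Set E} {Λ : Set E}
    (hA : LF A Λ) {p : ι → E} (hp : ∀ i, p i ∈ A i) : LF (fun i => ({p i} : Set E)) Λ := by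
  intro z hz
  obtain ⟨U, hU, hfin⟩ := hA z hz
  refine ⟨U, hU, hfin.subset ?_⟩
  rintro i ⟨w, hw, hwU⟩
  rw [mem_singleton_iff.1 hw] at hwU
  exact ⟨p i, hp i, hwU⟩

/-- the sizes of the sets `W j` -/
structure WSize (Y : Set V) (η ρ : V → ℝ) (p : S.J → V) (q : S.AF → V) (e : V → ℝ) : Prop where
  lip : ∀ x y, e x ≤ e y + ‖x - y‖ / 2
  nonneg : ∀ y, 0 ≤ e y
  pos : ∀ y ∈ Λ, 0 < e y
  le_η : ∀ y ∈ Λ, e y ≤ η y
  le_ρ : ∀ y ∈ Λ, 4 * e y < ρ y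
  p_far : ∀ i j, ∀ y ∈ S.core j, 4 * e y < ‖p i - y‖
  Y_far : ∀ z ∈ Y, ∀ j, ∀ y ∈ S.core j, 4 * e y < ‖z - y‖
  q_far : ∀ a j, ¬ S.E a ⊆ frontier (S.R j) → ∀ y ∈ S.core j, 4 * e y < ‖q a - y‖
  c_far : ∀ d j, ¬ S.ι d '' S.Δ d ⊆ frontier (S.R j) → ∀ y ∈ S.core j, 4 * e y < ‖S.ι d 0 - y‖
  Q_far : ∀ d d', (S.out d ↔ S.out d') → d ≠ d' → ∀ y ∈ S.ι d '' Q0, ∀ y' ∈ S.ι d' '' Q0,
    4 * e y < ‖y' - y‖

variable {S}

theorem p_notMem_core {p : S.J → V} (hp : ∀ j, p j ∈ S.R j ∧ p j ∉ frontier (S.R j) ∧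
    ∀ d, p j ∉ S.ι d '' Q0) (i j : S.J) : p i ∉ S.core j := by
  rintro (h | h)
  · by_cases hij : i = j
    · subst hij; exact (hp i).2.1 h
    · exact (hp i).2.1 (S.sep i j hij ⟨(hp i).1, fr_sub S j h⟩)
  · obtain ⟨d, -, hd⟩ := mem_iUnion₂.1 h
    exact (hp i).2.2 d hd

theorem q_notMem {q : S.AF → V} (hq : ∀ a, q a ∈ S.E a ∧ q a ∉ S.bE a ∧
    ∀ d, q a ∉ S.ι d '' S.ζ d) (a : S.AF) (j : S.J) (h : ¬ S.E a ⊆ frontier (S.R j)) :
    q a ∉ S.R j ∧ q a ∉ S.core j := by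
  have h1 : q a ∉ S.R j := fun h2 => (hq a).2.1 (S.off a j h ⟨(hq a).1, h2⟩)
  refine ⟨h1, ?_⟩
  rintro (h2 | h2)
  · exact h1 (fr_sub S j h2)
  · obtain ⟨d, -, u, hu, hd⟩ := mem_iUnion₂.1 h2
    have h3 : S.ι d u ∈ S.F := hd ▸ S.E_sub a (hq a).1
    exact (hq a).2.2 d (hd ▸ mem_image_of_mem _ (mem_ζ S d hu h3))

theorem c_notMem (d : S.D) (j : S.J) (h : ¬ S.ι d '' S.Δ d ⊆ frontier (S.R j)) :
    S.ι d 0 ∉ S.R j ∧ S.ι d 0 ∉ S.core j := by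
  have h1 : S.ι d 0 ∉ S.R j := fun h2 => h (disc_sub_of_mem S
    (mem_image_of_mem _ (S.zero_mem d).1) (ι_zero_notMem_F S d) h2)
  refine ⟨h1, ?_⟩
  rintro (h2 | h2)
  · exact h1 (fr_sub S j h2)
  · obtain ⟨d', hd', hd⟩ := mem_iUnion₂.1 h2
    have hne : d ≠ d' := by
      rintro rfl
      exact h hd'
    exact S.center d d' hne hd

theorem exists_WSize (hΛ : IsOpen Λ) {Y : Set V} {η ρ : V → ℝ} (hρ : Rho Λ ρ)
    (hYΛ : Y ⊆ Λ) (hYcl : closure Y ∩ Λ ⊆ Y) (hYX : Disjoint Y S.X)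
    (hYQ : ∀ d, Disjoint Y (S.ι d '' Q0)) (hη : ContinuousOn η Λ) (hηp : ∀ y ∈ Λ, 0 < η y)
    {p : S.J → V} (hp : ∀ j, p j ∈ S.R j ∧ p j ∉ frontier (S.R j) ∧ ∀ d, p j ∉ S.ι d '' Q0)
    {q : S.AF → V} (hq : ∀ a, q a ∈ S.E a ∧ q a ∉ S.bE a ∧ ∀ d, q a ∉ S.ι d '' S.ζ d) :
    ∃ e, WSize S Y η ρ p q e := by
  classical
  -- closed sets
  have hpLF : LF (fun i => ({p i} : Set V)) Λ := LF.singletons S.lf fun i => (hp i).1
  have hqLF : LF (fun a => ({q a} : Set V)) Λ := LF.singletons S.E_lf fun a => (hq a).1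
  have hcLF : LF (fun d => ({S.ι d 0} : Set V)) Λ :=
    LF.singletons S.Q_lf fun d => mem_image_of_mem _ zero_memQ
  have hcorecl : ∀ j, closure (S.core j) ∩ Λ ⊆ S.core j := fun j => by
    rw [(core_compact S j).isClosed.closure_eq]; exact inter_subset_left
  have hQcl : ∀ d, closure (S.ι d '' Q0) ∩ Λ ⊆ S.ι d '' Q0 := fun d => by
    rw [(isCompact_Q S d).isClosed.closure_eq]; exact inter_subset_left
  -- conditions
  have c1 : Loc Λ fun y s => s < ρ y := Loc.of_cont hΛ hρ.continuous.continuousOn hρ.pos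
  have c2 : Loc Λ fun y s => s < η y := Loc.of_cont hΛ hη hηp
  have c3 : Loc Λ fun y s => y ∈ (⋃ j, S.core j) → ∀ z ∈ ⋃ i ∈ (univ : Set S.J), ({p i} : Set V),
      s < ‖z - y‖ :=
    Loc.on (Core_closed S) fun y hy hyΛ =>
      LocAt.far (closure_biUnion_lf (fun i => isClosed_singleton) hpLF univ) hyΛ (by
        intro h
        obtain ⟨j, hj⟩ := mem_iUnion.1 hy
        obtain ⟨i, -, hi⟩ := mem_iUnion₂.1 h
        rw [mem_singleton_iff.1 hi] at hj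
        exact p_notMem_core hp i j hj)
  have c4 : Loc Λ fun y s => y ∈ (⋃ j, S.core j) → ∀ z ∈ Y, s < ‖z - y‖ :=
    Loc.on (Core_closed S) fun y hy hyΛ => LocAt.far hYcl hyΛ (by
      intro h
      obtain ⟨j, hj⟩ := mem_iUnion.1 hy
      rcases hj with hj | hj
      · exact disjoint_left.1 hYX h (by rw [X_eq']; exact mem_iUnion.2 ⟨j, hj⟩)
      · obtain ⟨d, -, hd⟩ := mem_iUnion₂.1 hj
        exact disjoint_left.1 (hYQ d) h hd)
  have c5 : Loc Λ fun y s => ∀ j, y ∈ S.core j →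
      ∀ z ∈ ⋃ a ∈ {a | ¬ S.E a ⊆ frontier (S.R j)}, ({q a} : Set V), s < ‖z - y‖ :=
    Loc.forall_LF (core_lf S) hcorecl fun j y hy hyΛ =>
      LocAt.far (closure_biUnion_lf (fun i => isClosed_singleton) hqLF _) hyΛ (by
        intro h
        obtain ⟨a, ha, hy2⟩ := mem_iUnion₂.1 h
        rw [mem_singleton_iff.1 hy2] at hy
        exact (q_notMem hq a j ha).2 hy)
  have c6 : Loc Λ fun y s => ∀ j, y ∈ S.core j →
      ∀ z ∈ ⋃ d ∈ {d | ¬ S.ι d '' S.Δ d ⊆ frontier (S.R j)}, ({S.ι d 0} : Set V), s < ‖z - y‖ :=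
    Loc.forall_LF (core_lf S) hcorecl fun j y hy hyΛ =>
      LocAt.far (closure_biUnion_lf (fun i => isClosed_singleton) hcLF _) hyΛ (by
        intro h
        obtain ⟨d, hd, hy2⟩ := mem_iUnion₂.1 h
        rw [mem_singleton_iff.1 hy2] at hy
        exact (c_notMem d j hd).2 hy)
  have c7 : Loc Λ fun y s => ∀ d, y ∈ S.ι d '' Q0 →
      ∀ z ∈ ⋃ d' ∈ {d' | (S.out d ↔ S.out d') ∧ d ≠ d'}, S.ι d' '' Q0, s < ‖z - y‖ :=
    Loc.forall_LF S.Q_lf hQcl fun d y hy hyΛ =>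
      LocAt.far (closure_biUnion_lf (fun i => (isCompact_Q S i).isClosed) S.Q_lf _) hyΛ (by
        intro h
        obtain ⟨d', hd', hy2⟩ := mem_iUnion₂.1 h
        exact disjoint_left.1 (S.Q_disj d d' hd'.1 hd'.2) hy hy2)
  obtain ⟨ε, h1, h2, h3, -, h5⟩ := exists_size ((c1.and c2).and ((c3.and c4).and
    ((c5.and c6).and c7)))
  have key : ∀ y ∈ Λ, 4 * (ε y / 4) = ε y := fun y _ => by ring
  have hP := fun (y : V) (hy : y ∈ Λ) => h5 y (ε y) (h3 y hy) le_rfl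
  refine ⟨fun y => ε y / 4, ?_, ?_, ?_, ?_, ?_, ?_, ?_, ?_, ?_, ?_⟩
  · intro x y
    have := h1 x y
    show ε x / 4 ≤ ε y / 4 + ‖x - y‖ / 2
    linarith [norm_nonneg (x - y)]
  · intro y
    have := h2 y
    show 0 ≤ ε y / 4
    positivity
  · intro y hy
    have := h3 y hy
    show 0 < ε y / 4
    positivity
  · intro y hy
    have := (hP y hy).1.2
    show ε y / 4 ≤ η y
    linarith [h2 y]
  · intro y hy
    show 4 * (ε y / 4) < ρ y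
    rw [key y hy]; exact (hP y hy).1.1
  · intro i j y hy
    have hyΛ := core_subΛ S j hy
    show 4 * (ε y / 4) < ‖p i - y‖
    rw [key y hyΛ]
    exact (hP y hyΛ).2.1.1 (mem_iUnion.2 ⟨j, hy⟩) _ (mem_biUnion (mem_univ i) rfl)
  · intro z hz j y hy
    have hyΛ := core_subΛ S j hy
    show 4 * (ε y / 4) < ‖z - y‖
    rw [key y hyΛ]
    exact (hP y hyΛ).2.1.2 (mem_iUnion.2 ⟨j, hy⟩) _ hz
  · intro a j ha y hy
    have hyΛ := core_subΛ S j hy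
    show 4 * (ε y / 4) < ‖q a - y‖
    rw [key y hyΛ]
    exact (hP y hyΛ).2.2.1.1 j hy _ (mem_biUnion (show a ∈ {a | ¬ S.E a ⊆ frontier (S.R j)} from ha)
      rfl)
  · intro d j hd y hy
    have hyΛ := core_subΛ S j hy
    show 4 * (ε y / 4) < ‖S.ι d 0 - y‖
    rw [key y hyΛ]
    exact (hP y hyΛ).2.2.1.2 j hy _
      (mem_biUnion (show d ∈ {d | ¬ S.ι d '' S.Δ d ⊆ frontier (S.R j)} from hd) rfl)
  · intro d d' hdd hne y hy y' hy'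
    have hyΛ := S.Q_sub d hy
    show 4 * (ε y / 4) < ‖y' - y‖
    rw [key y hyΛ]
    exact (hP y hyΛ).2.2.2 d hy _
      (mem_biUnion (show d' ∈ {d' | (S.out d ↔ S.out d') ∧ d ≠ d'} from ⟨hdd, hne⟩) hy')

variable (S) in
/-- the neighbourhood of the core of the cell `j` -/
def WW (e : V → ℝ) (j : S.J) : Set V := {z | ∃ y ∈ S.core j, ‖z - y‖ ≤ e y}

variable {Y : Set V} {η ρ : V → ℝ} {p : S.J → V} {q : S.AF → V} {e : V → ℝ}

theorem WSize.mem_Λ (h : WSize S Y η ρ p q e) (hρ : Rho Λ ρ) {y z : V} (hy : y ∈ Λ)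
    (hz : ‖z - y‖ ≤ e y) : z ∈ Λ := by
  by_contra hzΛ
  have h1 := hρ.off z hzΛ
  have h2 := hρ.lip y z
  have h3 := h.le_ρ y hy
  have h4 := h.pos y hy
  rw [norm_sub_rev] at h2
  linarith

theorem WSize.W_sub (h : WSize S Y η ρ p q e) (hρ : Rho Λ ρ) (j : S.J) : WW S e j ⊆ Λ := by
  rintro z ⟨y, hy, hzy⟩
  exact h.mem_Λ hρ (core_subΛ S j hy) hzy

theorem WSize.W_lf (h : WSize S Y η ρ p q e) (hρ : Rho Λ ρ) :
    LF (fun j => S.R j ∪ WW S e j) Λ := by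
  have h1 : LF (WW S e) Λ := LF.thicken hρ (core_lf S) fun j y hy => by
    have h3 := h.le_ρ y (core_subΛ S j hy)
    have h4 := h.nonneg y
    linarith
  intro z hz
  obtain ⟨U, hU, hfin⟩ := S.lf z hz
  obtain ⟨U', hU', hfin'⟩ := h1 z hz
  refine ⟨U ∩ U', inter_mem hU hU', (hfin.union hfin').subset ?_⟩
  rintro j ⟨w, hw | hw, hwU, hwU'⟩
  · exact Or.inl ⟨w, hw, hwU⟩
  · exact Or.inr ⟨w, hw, hwU'⟩

theorem WSize.p_notMem (h : WSize S Y η ρ p q e) (i j : S.J) : p i ∉ WW S e j := by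
  rintro ⟨y, hy, hpy⟩
  have h1 := h.p_far i j y hy
  have h2 := h.nonneg y
  linarith

theorem WSize.Y_notMem (h : WSize S Y η ρ p q e) {z : V} (hz : z ∈ Y) (j : S.J) :
    z ∉ WW S e j := by
  rintro ⟨y, hy, hzy⟩
  have h1 := h.Y_far z hz j y hy
  have h2 := h.nonneg y
  linarith

/-- a neighbourhood of a point which misses the cells of a family and their neighbourhoods -/
theorem exists_avoid {x : V} (hx : x ∈ Λ) (B : Set S.J) (h1 : ∀ j ∈ B, x ∉ S.R j)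
    (h2 : ∀ j ∈ B, x ∉ S.core j) (h3 : ∀ j ∈ B, ∀ y ∈ S.core j, 4 * e y < ‖x - y‖) :
    ∃ ν > 0, ∀ z, ‖z - x‖ ≤ ν → ∀ j ∈ B, z ∉ S.R j ∪ WW S e j := by
  have hLF : LF (fun j => S.R j ∪ S.core j) Λ := by
    intro z hz
    obtain ⟨U, hU, hfin⟩ := S.lf z hz
    obtain ⟨U', hU', hfin'⟩ := core_lf S z hz
    refine ⟨U ∩ U', inter_mem hU hU', (hfin.union hfin').subset ?_⟩
    rintro j ⟨w, hw | hw, hwU, hwU'⟩
    · exact Or.inl ⟨w, hw, hwU⟩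
    · exact Or.inr ⟨w, hw, hwU'⟩
  have hcl := closure_biUnion_lf
    (fun j => ((S.isBall j).isClosed.union (core_compact S j).isClosed)) hLF B
  have hx2 : x ∉ closure (⋃ j ∈ B, (S.R j ∪ S.core j)) := by
    intro h
    obtain ⟨j, hj, hxj⟩ := mem_iUnion₂.1 (hcl ⟨h, hx⟩)
    rcases hxj with h4 | h4
    · exact h1 j hj h4
    · exact h2 j hj h4
  obtain ⟨r, hr, hball⟩ := Metric.isOpen_iff.1 isClosed_closure.isOpen_compl x hx2
  have hfar : ∀ j ∈ B, ∀ y ∈ S.R j ∪ S.core j, r ≤ ‖x - y‖ := by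
    intro j hj y hy
    by_contra hlt
    push Not at hlt
    refine hball ?_ (subset_closure (mem_biUnion hj hy))
    rw [mem_ball, dist_comm, dist_eq_norm]
    exact hlt
  refine ⟨r / 2, by positivity, fun z hz j hj hzj => ?_⟩
  rcases hzj with h4 | ⟨y, hy, hzy⟩
  · have h5 := hfar j hj z (Or.inl h4)
    rw [norm_sub_rev] at h5
    linarith
  · have h5 := hfar j hj y (Or.inr hy)
    have h6 := h3 j hj y hy
    have h7 : ‖x - y‖ ≤ ‖z - x‖ + ‖z - y‖ := by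
      have := norm_sub_le (z - y) (z - x)
      rw [sub_sub_sub_cancel_left] at this
      linarith
    linarith

theorem WSize.q_avoid (h : WSize S Y η ρ p q e) (hq : ∀ a, q a ∈ S.E a ∧ q a ∉ S.bE a ∧
    ∀ d, q a ∉ S.ι d '' S.ζ d) (a : S.AF) :
    ∃ ν > 0, ∀ z, ‖z - q a‖ ≤ ν → ∀ j, ¬ S.E a ⊆ frontier (S.R j) → z ∉ S.R j ∪ WW S e j :=
  exists_avoid (F_subΛ S (S.E_sub a (hq a).1)) {j | ¬ S.E a ⊆ frontier (S.R j)}
    (fun j hj => (q_notMem hq a j hj).1) (fun j hj => (q_notMem hq a j hj).2)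
    (fun j hj => h.q_far a j hj)

theorem WSize.c_avoid (h : WSize S Y η ρ p q e) (d : S.D) :
    ∃ ν > 0, ∀ z, ‖z - S.ι d 0‖ ≤ ν → ∀ j, ¬ S.ι d '' S.Δ d ⊆ frontier (S.R j) →
      z ∉ S.R j ∪ WW S e j :=
  exists_avoid (S.Q_sub d (mem_image_of_mem _ zero_memQ))
    {j | ¬ S.ι d '' S.Δ d ⊆ frontier (S.R j)}
    (fun j hj => (c_notMem d j hj).1) (fun j hj => (c_notMem d j hj).2)
    (fun j hj => h.c_far d j hj)

/-- the sizes of the collar -/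
structure CSize (S : Handle Λ) (ε₀ e : V → ℝ) (g : V → V) (Z P : Set V) (ω : S.D → ℝ)
    (ν : S.AF → ℝ) (q : S.AF → V) (ε : V → ℝ) : Prop where
  lip : ∀ x y, ε x ≤ ε y + ‖x - y‖ / 2
  pos : ∀ y ∈ Λ, 0 < ε y
  le_ε₀ : ∀ y ∈ Λ, ε y ≤ ε₀ y
  le_e : ∀ y ∈ Λ, ε y ≤ e y
  Z_far : ∀ y ∈ S.F, ∀ z ∈ Z, ε y < ‖g y - g z‖
  P_far : ∀ y ∈ S.F, ∀ z ∈ P, ε y < ‖z - y‖
  le_ω : ∀ d, ∀ y ∈ S.ι d '' Q0, ε y ≤ ω d
  le_ν : ∀ a, ε (q a) ≤ ν a

theorem exists_CSize {Ω : Set V} (hΩ : IsOpen Ω) (hΛ : IsOpen Λ) {f g : V → V}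
    (hinv : IsInv Ω Λ f g) (hfc : ContinuousOn f Ω) (hgc : ContinuousOn g Λ) {ε₀ e : V → ℝ}
    (hε₀ : ContinuousOn ε₀ Λ) (hε₀p : ∀ y ∈ Λ, 0 < ε₀ y)
    (he : ∀ x y, e x ≤ e y + ‖x - y‖ / 2) (hep : ∀ y ∈ Λ, 0 < e y)
    {Z P : Set V} (hZΛ : Z ⊆ Λ) (hZcl : closure Z ∩ Λ ⊆ Z) (hZF : Disjoint Z S.F)
    (hPcl : closure P ∩ Λ ⊆ P) (hPF : Disjoint P S.F) {ω : S.D → ℝ} (hω : ∀ d, 0 < ω d)
    {ν : S.AF → ℝ} (hν : ∀ a, 0 < ν a) {q : S.AF → V} (hq : ∀ a, q a ∈ S.E a) :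
    ∃ ε, CSize S ε₀ e g Z P ω ν q ε := by
  classical
  have hec : Continuous e := size_continuous he
  have hqLF : LF (fun a => ({q a} : Set V)) Λ := LF.singletons S.E_lf hq
  -- `g '' Z` is closed in `Ω`
  have hgZ : closure (g '' Z) ∩ Ω ⊆ g '' Z := by
    rintro x ⟨hx, hxΩ⟩
    have hsub : g '' Z ⊆ Ω := by
      rintro _ ⟨y, hy, rfl⟩
      exact (hinv.2 y (hZΛ hy)).1
    have h1 : f x ∈ closure (f '' (g '' Z)) := ((hfc x hxΩ).mono hsub).mem_closure_image hx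
    have h2 : f '' (g '' Z) = Z := by
      rw [image_image]
      have : ∀ y ∈ Z, f (g y) = y := fun y hy => (hinv.2 y (hZΛ hy)).2
      rw [image_congr this, image_id']
    rw [h2] at h1
    exact ⟨f x, hZcl ⟨h1, (hinv.1 x hxΩ).1⟩, (hinv.1 x hxΩ).2⟩
  have c1 : Loc Λ fun y s => s < ε₀ y := Loc.of_cont hΛ hε₀ hε₀p
  have c2 : Loc Λ fun y s => s < e y := Loc.of_cont hΛ hec.continuousOn hep
  have c3 : Loc Λ fun y s => y ∈ S.F → ∀ z' ∈ g '' Z, s < ‖g y - z'‖ :=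
    Loc.on (F_closed S) fun y hy hyΛ => LocAt.far_map (hgc.continuousAt (hΛ.mem_nhds hyΛ)) (by
      intro h
      obtain ⟨z, hz, hzy⟩ := hgZ ⟨h, (hinv.2 y hyΛ).1⟩
      have h1 := congrArg f hzy
      rw [(hinv.2 z (hZΛ hz)).2, (hinv.2 y hyΛ).2] at h1
      exact disjoint_left.1 hZF hz (h1 ▸ hy))
  have c4 : Loc Λ fun y s => y ∈ S.F → ∀ z ∈ P, s < ‖z - y‖ :=
    Loc.on (F_closed S) fun y hy hyΛ => LocAt.far hPcl hyΛ fun h => disjoint_left.1 hPF h hy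
  have c5 : Loc Λ fun y s => ∀ d, y ∈ S.ι d '' Q0 → s ≤ ω d :=
    Loc.forall_LF S.Q_lf (fun d => by
      rw [(isCompact_Q S d).isClosed.closure_eq]; exact inter_subset_left)
      fun d y _ _ => LocAt.const (hω d) y
  have c6 : Loc Λ fun y s => ∀ a, y ∈ ({q a} : Set V) → s ≤ ν a :=
    Loc.forall_LF hqLF (fun a => by rw [closure_singleton]; exact inter_subset_left)
      fun a y _ _ => LocAt.const (hν a) y
  obtain ⟨ε, h1, h2, h3, -, h5⟩ := exists_size (((c1.and c2).and (c3.and c4)).and (c5.and c6))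
  have hP := fun (y : V) (hy : y ∈ Λ) => h5 y (ε y) (h3 y hy) le_rfl
  exact ⟨ε, h1, h3, fun y hy => (hP y hy).1.1.1.le, fun y hy => (hP y hy).1.1.2.le,
    fun y hy z hz => (hP y (F_subΛ S hy)).1.2.1 hy _ (mem_image_of_mem _ hz),
    fun y hy z hz => (hP y (F_subΛ S hy)).1.2.2 hy z hz,
    fun d y hy => (hP y (S.Q_sub d hy)).2.1 d hy,
    fun a => (hP (q a) (F_subΛ S (S.E_sub a (hq a)))).2.2 a rfl⟩

end Vale.Agent.P073.PA285
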