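import Vale.Agent.P073.PA285.HMain

/-!
# P073, block MAIN: `SpecMainOf` of `PA691/Spec.lean`
-/

open Set Metric Topology Filter

namespace Vale.Agent.P073.PA285

open _root_.P073 _root_.P073.PA691 _root_.P073.PR720 Vale.Agent.P073.St

variable {Λ : Set V}

/-- the far set around the centre and the boundary of the square of the disc `d` -/
def farT (S : Handle Λ) (d : S.D) (a : ℝ) : Set V :=
  {z | ∃ y ∈ ({0} ∪ S1 : Set P2), ‖z - S.ι d y‖ ≤ a}

theorem farT_compact (S : Handle Λ) (d : S.D) (a : ℝ) : IsCompact (farT S d a) := by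
  have h1 : IsCompact ((fun p : P2 × V => S.ι d p.1 + p.2) ''
      (({0} ∪ S1 : Set P2) ×ˢ closedBall (0:V) a)) :=
    ((isCompact_singleton.union (isCompact_sphere _ _)).prod (isCompact_closedBall _ _)).image
      (((S.ι d).continuous.comp continuous_fst).add continuous_snd)
  have h2 : farT S d a = (fun p : P2 × V => S.ι d p.1 + p.2) ''
      (({0} ∪ S1 : Set P2) ×ˢ closedBall (0:V) a) := by
    ext z
    constructor
    · rintro ⟨y, hy, hz⟩
      refine ⟨(y, z - S.ι d y), ⟨hy, mem_closedBall_zero_iff.2 hz⟩, ?_⟩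
      show S.ι d y + (z - S.ι d y) = z
      abel
    · rintro ⟨⟨y, v⟩, ⟨hy, hv⟩, rfl⟩
      refine ⟨y, hy, ?_⟩
      show ‖S.ι d y + v - S.ι d y‖ ≤ a
      rw [add_sub_cancel_left]
      exact mem_closedBall_zero_iff.1 hv
  rw [h2]; exact h1

theorem zeroS1_sub : ({0} ∪ S1 : Set P2) ⊆ Q0 := by
  rintro y (hy | hy)
  · rw [mem_singleton_iff.1 hy]; exact zero_memQ
  · exact sphere_subset_closedBall hy

/-- points of a segment -/
theorem norm_segment_le {E : Type*} [NormedAddCommGroup E] [NormedSpace ℝ E] {x y z : E}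
    (hz : z ∈ segment ℝ x y) : ‖z - x‖ ≤ ‖y - x‖ := by
  rw [segment_eq_image'] at hz
  obtain ⟨t, ht, rfl⟩ := hz
  rw [add_sub_cancel_left, norm_smul, Real.norm_of_nonneg ht.1]
  calc t * ‖y - x‖ ≤ 1 * ‖y - x‖ := mul_le_mul_of_nonneg_right ht.2 (norm_nonneg _)
    _ = ‖y - x‖ := one_mul _

/-- **MAIN** -/
theorem specMainOf : SpecMainOf := by
  intro hALX hASM hSides hDisc Ω Λ f g S G₀ Y η hΩ hΩc hΛ hinv hfc hgc hCol hRout hRin hG₀Ω hG₀cl
    hG₀H hYΛ hYcl hYX hYQ hη hηp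
  classical
  -- `Λ` is connected
  have hfΩ : f '' Ω = Λ := by
    apply Subset.antisymm
    · rintro _ ⟨x, hx, rfl⟩; exact (hinv.1 x hx).1
    · intro y hy
      exact ⟨g y, (hinv.2 y hy).1, (hinv.2 y hy).2⟩
  have hΛc : IsPreconnected Λ := hfΩ ▸ hΩc.isPreconnected.image f hfc
  have hFc := F_connected S hΛc
  obtain ⟨ρ, hρ⟩ := exists_rho hΛ
  have hpex : ∀ j, ∃ p, p ∈ S.R j ∧ p ∉ frontier (S.R j) ∧ ∀ d, p ∉ S.ι d '' Q0 := fun j => by
    obtain ⟨p, h1, h2, h3⟩ := S.p_ex j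
    exact ⟨p, h1, h2, h3⟩
  have hqex : ∀ a, ∃ q, q ∈ S.E a ∧ q ∉ S.bE a ∧ ∀ d, q ∉ S.ι d '' S.ζ d := fun a => by
    obtain ⟨q, h1, h2, h3⟩ := S.q_ex a
    exact ⟨q, h1, h2, h3⟩
  choose p hp using hpex
  choose q hq using hqex
  -- the image of the net
  set P : Set V := f '' G₀ with hP
  have hPΛ : P ⊆ Λ := by
    rintro _ ⟨x, hx, rfl⟩; exact (hinv.1 x (hG₀Ω hx)).1
  have hgP : g '' P = G₀ := by
    rw [hP, image_image]
    have : ∀ x ∈ G₀, g (f x) = x := fun x hx => (hinv.1 x (hG₀Ω hx)).2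
    rw [image_congr this, image_id']
  have hPcl : closure P ∩ Λ ⊆ P := by
    rintro y ⟨hy, hyΛ⟩
    have h1 : g y ∈ closure (g '' P) := ((hgc y hyΛ).mono hPΛ).mem_closure_image hy
    rw [hgP] at h1
    exact ⟨g y, hG₀cl ⟨h1, (hinv.2 y hyΛ).1⟩, (hinv.2 y hyΛ).2⟩
  have hPH : ∀ z ∈ P, z ∉ S.H := by
    rintro _ ⟨x, hx, rfl⟩; exact hG₀H x hx
  have hPF : Disjoint P S.F := disjoint_left.2 fun z hz hzF => hPH z hz (F_sub_H S hzF)
  -- the sizes of the neighbourhoods `W j`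
  obtain ⟨e, he⟩ := exists_WSize hΛ hρ hYΛ hYcl hYX hYQ hη hηp hp hq
  have hec : Continuous e := size_continuous he.lip
  have hmex : ∀ d, ∃ m, 0 < m ∧ ∀ y ∈ S.ι d '' Q0, m ≤ e y := by
    intro d
    obtain ⟨y₀, hy₀, hmin⟩ := (isCompact_Q S d).exists_isMinOn ⟨_, mem_image_of_mem _ zero_memQ⟩
      hec.continuousOn
    exact ⟨e y₀, he.pos y₀ (S.Q_sub d hy₀), fun y hy => hmin hy⟩
  choose m hm0 hm using hmex
  choose l s a β M hDC using fun d => exists_DConst S hΛ hPΛ hPcl hPH d (hm0 d)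
  choose ν hν0 hν using fun a => he.q_avoid hq a
  choose ν' hν'0 hν' using fun d => he.c_avoid d
  obtain ⟨ε₀, hε₀, hε₀p, hSd⟩ := hSides Ω Λ f g S.H S.F hΩ hΩc hΛ hinv hfc hgc S.H_sub S.H_closed
    S.H_frontier hFc
  -- the far set
  obtain ⟨p₁, hp₁⟩ := S.H_int
  obtain ⟨p₂, hp₂⟩ := S.H_ne
  set Z : Set V := (P ∪ {p₁, p₂}) ∪ ⋃ d, farT S d (a d) with hZ
  have hTthick : ∀ d, ∀ z ∈ farT S d (a d), ∃ y ∈ S.ι d '' Q0, ‖z - y‖ ≤ e y := by
    rintro d z ⟨y, hy, hz⟩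
    refine ⟨_, mem_image_of_mem _ (zeroS1_sub hy), ?_⟩
    exact hz.trans ((hDC d).a_m.trans (hm d _ (mem_image_of_mem _ (zeroS1_sub hy))))
  have hQthick : LF (fun d => {z | ∃ y ∈ S.ι d '' Q0, ‖z - y‖ ≤ e y}) Λ :=
    LF.thicken hρ S.Q_lf fun d y hy => by
      have h3 := he.le_ρ y (S.Q_sub d hy)
      have h4 := he.nonneg y
      linarith
  have hTlf : LF (fun d => farT S d (a d)) Λ := hQthick.subset hTthick
  have hTcl : closure (⋃ d, farT S d (a d)) ∩ Λ ⊆ ⋃ d, farT S d (a d) :=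
    fun z hz => hTlf.closed (fun d => (farT_compact S d (a d)).isClosed) hz.2 hz.1
  have hZΛ : Z ⊆ Λ := by
    refine union_subset (union_subset hPΛ ?_) (iUnion_subset fun d z hz => ?_)
    · rintro z (rfl | rfl)
      · exact S.H_sub (interior_subset hp₁)
      · exact hp₂.1
    · obtain ⟨y, hy, hzy⟩ := hTthick d z hz
      exact he.mem_Λ hρ (S.Q_sub d hy) hzy
  have hZcl : closure Z ∩ Λ ⊆ Z := by
    rintro z ⟨hz, hzΛ⟩
    rw [hZ, closure_union, closure_union] at hz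
    rcases hz with (hz | hz) | hz
    · exact Or.inl (Or.inl (hPcl ⟨hz, hzΛ⟩))
    · rw [(toFinite ({p₁, p₂} : Set V)).isClosed.closure_eq] at hz
      exact Or.inl (Or.inr hz)
    · exact Or.inr (hTcl ⟨hz, hzΛ⟩)
  have hZF : Disjoint Z S.F := by
    rw [disjoint_left]
    rintro z ((hz | hz) | hz) hzF
    · exact disjoint_left.1 hPF hz hzF
    · rcases hz with rfl | rfl
      · exact notMem_F_of_interior S hp₁ hzF
      · exact hp₂.2 (F_sub_H S hzF)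
    · obtain ⟨d, y, hy, hzy⟩ := mem_iUnion.1 hz
      rcases hy with hy | hy
      · rw [mem_singleton_iff.1 hy] at hzy
        exact ((hDC d).cen z hzy).2.1 hzF
      · exact ((hDC d).bdr y hy z hzy).2.1 hzF
  have hZ0 : ∀ d, ∀ z, ‖z - S.ι d 0‖ ≤ a d → z ∈ Z := fun d z hz =>
    Or.inr (mem_iUnion.2 ⟨d, 0, Or.inl rfl, hz⟩)
  have hZ1 : ∀ d, ∀ y ∈ S1, ∀ z, ‖z - S.ι d y‖ ≤ a d → z ∈ Z := fun d y hy z hz =>
    Or.inr (mem_iUnion.2 ⟨d, y, Or.inr hy, hz⟩)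
  -- the collar
  obtain ⟨ε, hε⟩ := exists_CSize hΩ hΛ hinv hfc hgc hε₀ hε₀p he.lip he.pos hZΛ hZcl hZF hPcl hPF
    (ω := fun d => s d / 4) (fun d => by have := (hDC d).s_pos; positivity) hν0 (q := q)
    (fun a => (hq a).1)
  obtain ⟨N, κ, hNΩ, hNcl, hκo, hκ⟩ := hCol ε (size_continuous hε.lip).continuousOn hε.pos
  have h0I : (0:ℝ) ∈ Icc (-1:ℝ) 1 := ⟨by norm_num, by norm_num⟩
  have hκg : ∀ y ∈ S.F, ∀ z ∈ Z, ‖κ.toFun (y, 0) - g y‖ < ‖g y - g z‖ := fun y hy z hz =>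
    ((hκ y hy 0 h0I).2).trans_lt (hε.Z_far y hy z hz)
  obtain ⟨O, I, σ, hσ, hO, hI, hOI, hU, hside, hfarO, hfarI⟩ := hSd N κ p₁ p₂ hNΩ hNcl hκo
    (fun y hy => ((hκ y hy 0 h0I).2).trans (hε.le_ε₀ y (F_subΛ S hy)))
    (interior_subset hp₁) hp₂.1 hp₂.2
    (fun y hy => hκg y hy p₁ (Or.inl (Or.inr (Or.inl rfl))))
    (fun y hy => hκg y hy p₂ (Or.inl (Or.inr (Or.inr rfl))))
  have hgO : ∀ z ∈ Z, z ∉ S.H → g z ∈ O := fun z hz hzH =>
    hfarO z (hZΛ hz) hzH fun y hy => hκg y hy z hz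
  have hgI : ∀ z ∈ Z, z ∈ S.H → g z ∈ I := fun z hz hzH =>
    hfarI z hzH fun y hy => hκg y hy z hz
  set F' : Set V := (fun y => κ.toFun (y, 0)) '' S.F with hF'
  have hF'2 : κ.toFun '' (S.F ×ˢ {0}) = F' := by
    ext x
    constructor
    · rintro ⟨⟨y, t⟩, ⟨hy, ht⟩, rfl⟩
      have : t = 0 := ht
      subst this
      exact ⟨y, hy, rfl⟩
    · rintro ⟨y, hy, rfl⟩
      exact ⟨(y, 0), ⟨hy, rfl⟩, rfl⟩
  have hF'N : F' ⊆ N := by
    rintro _ ⟨y, hy, rfl⟩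
    exact κ.mapsTo ⟨hy, h0I⟩
  -- the rectangles
  let δ : S.D → ℝ := fun d => min (s d / 4) (min (a d) (min (ν' d) (β d)))
  have hδ0 : ∀ d, 0 < δ d := fun d =>
    lt_min (by have := (hDC d).s_pos; positivity)
      (lt_min (hDC d).a_pos (lt_min (hν'0 d) (hDC d).β_pos))
  have hδs : ∀ d, δ d ≤ s d / 4 := fun d => min_le_left _ _
  have hδa : ∀ d, δ d ≤ a d := fun d => (min_le_right _ _).trans (min_le_left _ _)
  have hδν : ∀ d, δ d ≤ ν' d := fun d =>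
    (min_le_right _ _).trans ((min_le_right _ _).trans (min_le_left _ _))
  have hδβ : ∀ d, δ d ≤ β d := fun d =>
    (min_le_right _ _).trans ((min_le_right _ _).trans (min_le_right _ _))
  have hrect : ∀ d, ∃ (D₀ : Set V) (γ : ConHomeo Q0 D₀), D₀ ⊆ Ω ∧
      (∀ y ∈ Q0, ‖f (γ.toFun y) - S.ι d y‖ ≤ δ d) ∧
      (S.out d → ∀ x ∈ G₀, x ∈ D₀ ↔ f x ∈ S.ι d '' Q0) := by
    intro d
    by_cases hd : S.out d
    · obtain ⟨D₀, γ, h1, h2, h3⟩ := hRout d hd (δ d) (hδ0 d)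
      exact ⟨D₀, γ, h1, h2, fun _ => h3⟩
    · obtain ⟨D₀, γ, h1, h2, -⟩ := hRin d hd (δ d) (hδ0 d)
      exact ⟨D₀, γ, h1, h2, fun h => absurd h hd⟩
  choose D₀ γ hD₀ hγ hγex using hrect
  -- the discs
  have hdisc : ∀ d, ∃ D : Set V, ConBall 2 D ((fun y => κ.toFun (y, 0)) '' (S.ι d '' S.ζ d)) ∧
      (S.out d → D \ (fun y => κ.toFun (y, 0)) '' (S.ι d '' S.ζ d) ⊆ O) ∧
      (¬ S.out d → D \ (fun y => κ.toFun (y, 0)) '' (S.ι d '' S.ζ d) ⊆ I) ∧ D ⊆ D₀ d ∪ N ∧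
      (∀ x ∈ D, ∃ y ∈ Q0, ‖f x - S.ι d y‖ ≤ m d) ∧ (γ d).toFun '' M d ⊆ D ∧
      ∀ y ∈ M d, (γ d).toFun y ∉ N := by
    intro d
    by_cases hd : S.out d
    · obtain ⟨D, h1, h2, h3, h4, h5, h6⟩ := disc_core S hDisc hinv d (hDC d) κ hκo hε.lip
        (hε.le_ω d) (fun y hy t ht => (hκ y hy t ht).1) hσ hO hI hOI hU hside
        (fun z hz hzZ => hgO z hzZ (hz.2.2.1 hd)) (fun z hz hzZ => hgI z hzZ (hz.2.2.1 hd))
        (hZ0 d) (hZ1 d) (γ d) (hD₀ d) (hγ d) (hδs d) (hδa d)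
      exact ⟨D, h1, fun _ => h2, fun h => absurd hd h, h3, h4, h5, h6⟩
    · have hσ' : -σ = 1 ∨ -σ = -1 := by rcases hσ with rfl | rfl <;> norm_num
      obtain ⟨D, h1, h2, h3, h4, h5, h6⟩ := disc_core S hDisc hinv d (hDC d) κ hκo hε.lip
        (hε.le_ω d) (fun y hy t ht => (hκ y hy t ht).1) hσ' hI hO hOI.symm
        (by rw [union_comm]; exact hU)
        (fun y hy t ht => by
          rw [neg_mul, neg_neg]
          exact ⟨(hside y hy t ht).2, (hside y hy t ht).1⟩)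
        (fun z hz hzZ => hgI z hzZ (by by_contra h; exact hd (hz.2.2.2 h)))
        (fun z hz hzZ => hgO z hzZ (fun h => hd (hz.2.2.2 h)))
        (hZ0 d) (hZ1 d) (γ d) (hD₀ d) (hγ d) (hδs d) (hδa d)
      exact ⟨D, h1, fun h => absurd h hd, fun _ => h2, h3, h4, h5, h6⟩
  choose D hDball hDout hDin hDsub hDnear hMD hMN using hdisc
  have hOF' : ∀ x ∈ O, x ∉ F' := fun x hx hxF => by
    have : x ∈ Ω \ κ.toFun '' (S.F ×ˢ {0}) := hU ▸ Or.inl hx
    rw [hF'2] at this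
    exact this.2 hxF
  have hIF' : ∀ x ∈ I, x ∉ F' := fun x hx hxF => by
    have : x ∈ Ω \ κ.toFun '' (S.F ×ˢ {0}) := hU ▸ Or.inr hx
    rw [hF'2] at this
    exact this.2 hxF
  have hDΩ : ∀ d, D d ⊆ Ω := fun d => (hDsub d).trans (union_subset (hD₀ d) hNΩ)
  have hbF' : ∀ d, (fun y => κ.toFun (y, 0)) '' (S.ι d '' S.ζ d) ⊆ F' := fun d =>
    image_mono (S.ζ_sub d)
  have hDF : ∀ d, D d ∩ F' ⊆ (fun y => κ.toFun (y, 0)) '' (S.ι d '' S.ζ d) := by
    rintro d x ⟨hx, hxF⟩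
    by_contra hxb
    by_cases hd : S.out d
    · exact hOF' x (hDout d hd ⟨hx, hxb⟩) hxF
    · exact hIF' x (hDin d hd ⟨hx, hxb⟩) hxF
  have hDD : ∀ d d', d ≠ d' → D d ∩ D d' ⊆ F' := by
    rintro d d' hdd x ⟨hx, hx'⟩
    by_cases hs : S.out d ↔ S.out d'
    · exfalso
      obtain ⟨y, hy, hxy⟩ := hDnear d x hx
      obtain ⟨y', hy', hxy'⟩ := hDnear d' x hx'
      have h1 := hm d _ (mem_image_of_mem _ hy)
      have h2 := hm d' _ (mem_image_of_mem _ hy')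
      have h3 := he.Q_far d d' hs hdd _ (mem_image_of_mem _ hy) _ (mem_image_of_mem _ hy')
      have h4 := he.Q_far d' d hs.symm hdd.symm _ (mem_image_of_mem _ hy') _
        (mem_image_of_mem _ hy)
      have h5 : ‖S.ι d' y' - S.ι d y‖ ≤ ‖f x - S.ι d y‖ + ‖f x - S.ι d' y'‖ := by
        have := norm_sub_le (f x - S.ι d y) (f x - S.ι d' y')
        rwa [sub_sub_sub_cancel_left] at this
      rw [norm_sub_rev] at h4
      have h6 := norm_nonneg (f x - S.ι d y)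
      have h7 := norm_nonneg (f x - S.ι d' y')
      linarith
    · by_contra hxF
      have h1 : x ∉ (fun y => κ.toFun (y, 0)) '' (S.ι d '' S.ζ d) := fun h => hxF (hbF' d h)
      have h2 : x ∉ (fun y => κ.toFun (y, 0)) '' (S.ι d' '' S.ζ d') := fun h => hxF (hbF' d' h)
      by_cases hd : S.out d
      · have hd' : ¬ S.out d' := fun h3 => hs ⟨fun _ => h3, fun _ => hd⟩
        exact disjoint_left.1 hOI (hDout d hd ⟨hx, h1⟩) (hDin d' hd' ⟨hx', h2⟩)
      · have hd' : S.out d' := by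
          by_contra h3
          exact hs ⟨fun h4 => absurd h4 hd, fun h4 => absurd h4 h3⟩
        exact disjoint_left.1 hOI (hDout d' hd' ⟨hx', h2⟩) (hDin d hd ⟨hx, h1⟩)
  have hDlf : LF D Ω := by
    intro x hx
    obtain ⟨U, hUn, hfin⟩ := hQthick (f x) (hinv.1 x hx).1
    refine ⟨Ω ∩ f ⁻¹' U, inter_mem (hΩ.mem_nhds hx)
      ((hfc.continuousAt (hΩ.mem_nhds hx)) hUn), hfin.subset ?_⟩
    rintro d ⟨w, hw, -, hwU⟩
    obtain ⟨y, hy, hwy⟩ := hDnear d w hw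
    exact ⟨f w, ⟨_, mem_image_of_mem _ hy, hwy.trans (hm d _ (mem_image_of_mem _ hy))⟩, hwU⟩
  -- the map of the skeleton
  obtain ⟨X', k, hX', hX'Ω, hX'cl, hkF, hkD⟩ := exists_k S κ hNΩ hNcl D hDball hDF hDΩ hDD hDlf
  -- the centres
  have hcX' : ∀ d, (γ d).toFun 0 ∈ D d := fun d => hMD d (mem_image_of_mem _ (hDC d).M_zero)
  have hc : ∀ d, ∃ c ∈ S.ι d '' S.Δ d, c ∉ S.ι d '' S.ζ d ∧ k.toFun c = (γ d).toFun 0 := by
    intro d
    have h1 := hcX' d
    rw [← hkD d] at h1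
    obtain ⟨c, hc, hkc⟩ := h1
    refine ⟨c, hc, fun hcζ => ?_, hkc⟩
    have h2 : c ∈ S.F := S.ζ_sub d hcζ
    have h3 := hkF c h2
    rw [hkc] at h3
    refine hMN d 0 (hDC d).M_zero ?_
    rw [h3]
    exact κ.mapsTo ⟨h2, h0I⟩
  choose c hcΔ hcζ hkc using hc
  -- segments
  have hseg : ∀ j, ∀ y ∈ frontier (S.R j), segment ℝ y (f (k.toFun y)) ⊆ WW S e j := by
    intro j y hy z hz
    by_cases hyF : y ∈ S.F
    · refine ⟨y, frontier_sub_core S j hy, ?_⟩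
      rw [hkF y hyF] at hz
      exact (norm_segment_le hz).trans
        ((hκ y hyF 0 h0I).1.trans (hε.le_e y (F_subΛ S hyF)))
    · have hyX : y ∈ S.X := by rw [X_eq']; exact mem_iUnion.2 ⟨j, hy⟩
      obtain ⟨d, hd⟩ := mem_iUnion.1 (hyX.resolve_left hyF)
      have hsub := disc_sub_of_mem S hd hyF (fr_sub S j hy)
      have h1 : k.toFun y ∈ D d := by rw [← hkD d]; exact mem_image_of_mem _ hd
      obtain ⟨u, hu, hyu⟩ := hDnear d _ h1
      have hyQ : y ∈ S.ι d '' Q0 := image_mono (Δ_subQ S d) hd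
      rw [segment_eq_image'] at hz
      obtain ⟨t, ht, rfl⟩ := hz
      have h2 : y + t • (S.ι d u - y) ∈ S.ι d '' Q0 := by
        refine (convex_Q S d).segment_subset hyQ (mem_image_of_mem _ hu) ?_
        rw [segment_eq_image']
        exact ⟨t, ht, rfl⟩
      refine ⟨_, Q_sub_core S hsub h2, ?_⟩
      show ‖y + t • (f (k.toFun y) - y) - (y + t • (S.ι d u - y))‖ ≤ e (y + t • (S.ι d u - y))
      have h3 : y + t • (f (k.toFun y) - y) - (y + t • (S.ι d u - y)) =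
          t • (f (k.toFun y) - S.ι d u) := by
        rw [add_sub_add_left_eq_sub, ← smul_sub, sub_sub_sub_cancel_right]
      rw [h3, norm_smul, Real.norm_of_nonneg ht.1]
      calc t * ‖f (k.toFun y) - S.ι d u‖ ≤ 1 * ‖f (k.toFun y) - S.ι d u‖ :=
            mul_le_mul_of_nonneg_right ht.2 (norm_nonneg _)
        _ ≤ m d := by rw [one_mul]; exact hyu
        _ ≤ _ := hm d _ h2
  -- the extension
  obtain ⟨h, hh1, hh2⟩ := hASM Ω Λ f g (cells S) X' (k.cast (cells_X S).symm rfl) (WW S e) p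
    (Sum.elim q c) hΩ hΩc hΛ hinv hfc hgc hX'Ω hX'cl (he.W_sub hρ) (he.W_lf hρ) hseg
    (fun j => ⟨(hp j).1, he.p_notMem j j⟩)
    (fun i j hij => by
      rintro (h1 | h1)
      · exact (hp i).2.1 (S.sep i j hij ⟨(hp i).1, h1⟩)
      · exact he.p_notMem i j h1)
    (by
      rintro (a | d)
      · exact ⟨(hq a).1, (hq a).2.1⟩
      · exact ⟨hcΔ d, hcζ d⟩)
    (by
      rintro (a | d) j hj
      · show f (k.toFun (q a)) ∉ S.R j ∪ WW S e j
        have hqF : q a ∈ S.F := S.E_sub a (hq a).1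
        rw [hkF _ hqF]
        exact hν a _ (((hκ _ hqF 0 h0I).1).trans (hε.le_ν a)) j hj
      · show f (k.toFun (c d)) ∉ S.R j ∪ WW S e j
        rw [hkc]
        exact hν' d _ ((hγ d 0 zero_memQ).trans (hδν d)) j hj)
  have hh1' : EqOn h.toFun k.invFun X' := hh1
  refine ⟨h, ?_, ?_, ?_⟩
  · intro x hx hxY j
    have key : ∀ i, h.toFun x ∈ S.R i → f x ∈ S.R i := fun i hi =>
      (hh2 i x hx hi).resolve_right (he.Y_notMem hxY i)
    refine ⟨key j, fun hj => ?_⟩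
    obtain ⟨i, hi⟩ := mem_iUnion.1 (S.cover.symm.subset (h.mapsTo hx))
    by_cases hij : i = j
    · subst hij; exact hi
    · exfalso
      refine disjoint_left.1 hYX hxY ?_
      rw [X_eq']
      exact mem_iUnion.2 ⟨i, S.sep i j hij ⟨key i hi, hj⟩⟩
  · intro x hx j hxj
    rcases hh2 j x hx hxj with h1 | ⟨y, hy, hxy⟩
    · exact Or.inl h1
    · exact Or.inr ⟨y, hy, hxy.trans (he.le_η y (core_subΛ S j hy))⟩
  · intro x hx
    have hxΩ := hG₀Ω hx
    have hfP : f x ∈ P := mem_image_of_mem f hx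
    have hfH : f x ∉ S.H := hG₀H x hx
    have hfF : f x ∉ S.F := notMem_F_of_notMem S hfH
    have hxN : x ∉ N := by
      intro hxN
      have h1 := κ.mapsTo_inv hxN
      have h2 := (hκ _ h1.1 _ h1.2).1
      have h3 : κ.toFun ((κ.invFun x).1, (κ.invFun x).2) = x := κ.right_inv hxN
      rw [h3] at h2
      have h4 := hε.P_far _ h1.1 _ hfP
      linarith
    have hxO : x ∈ O := by
      rw [← (hinv.1 x hxΩ).2]
      exact hgO _ (Or.inl (Or.inl hfP)) hfH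
    have hiff : h.toFun x ∈ S.X ↔ x ∈ X' := by
      constructor
      · intro h1
        have h2 : k.toFun (h.toFun x) ∈ X' := k.mapsTo h1
        have h3 : h.toFun (k.toFun (h.toFun x)) = h.toFun x := by
          rw [hh1' h2, k.left_inv h1]
        have h4 := h.injOn (hX'Ω h2) hxΩ h3
        rwa [h4] at h2
      · intro h1
        rw [hh1' h1]
        exact k.mapsTo_inv h1
    rw [hiff, hX']
    constructor
    · rintro (h1 | h1)
      · exact absurd (hF'N h1) hxN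
      · obtain ⟨d, hd⟩ := mem_iUnion.1 h1
        have hdo : S.out d := by
          by_contra hdo
          have h2 : x ∈ I := hDin d hdo ⟨hd, fun h3 => hxN (hF'N (hbF' d h3))⟩
          exact disjoint_left.1 hOI hxO h2
        have h2 : x ∈ D₀ d := (hDsub d hd).resolve_right hxN
        obtain ⟨u, hu, hux⟩ := (hγex d hdo x hx).1 h2
        refine Or.inr (mem_iUnion.2 ⟨d, u, ?_, hux⟩)
        by_contra huΔ
        have h3 := (S.out_in d hdo).2 u hu huΔ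
        rw [hux] at h3
        exact hfH (interior_subset h3)
    · intro h1
      obtain ⟨d, u, hu, hux⟩ := mem_iUnion.1 (h1.resolve_left hfF)
      have hdo : S.out d := by
        by_contra hdo
        have h2 : u ∉ S.ζ d := fun h3 => hfF (hux ▸ S.ζ_sub d (mem_image_of_mem _ h3))
        have h3 := (S.in_in d hdo).1 u hu h2
        rw [hux] at h3
        exact hfH (interior_subset h3)
      have h2 : x ∈ D₀ d := (hγex d hdo x hx).2 (hux ▸ mem_image_of_mem _ (Δ_subQ S d hu))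
      rw [← (γ d).image_eq] at h2
      obtain ⟨y, hy, hyx⟩ := h2
      have h3 := hγ d y hy
      rw [hyx] at h3
      have h4 : y ∈ M d := (hDC d).exact y hy u hu (hux ▸ hfP)
        (by rw [hux]; exact h3.trans (hδβ d))
      exact Or.inr (mem_iUnion.2 ⟨d, hMD d (hyx ▸ mem_image_of_mem _ h4)⟩)

end Vale.Agent.P073.PA285
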